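import Mathlib
import Vale.Agent.P237.Main

/-!
Interfaces for the proof of Petty's projection-volume inequality by induction on the dimension:
a minimiser is a fixed point of the second projection body, and one John contact is good.
-/

namespace Vale.Agent.P237.Full

open MeasureTheory Set
open scoped RealInnerProductSpace

/-- The `(n-1)`-volume of the section of `K` by the hyperplane `⟪u, x⟫ = t`, for a unit `u`. -/
noncomputable def sect {n : ℕ} (K : Set (EuclideanSpace ℝ (Fin n))) (u : EuclideanSpace ℝ (Fin n))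
    (t : ℝ) : ℝ :=
  (volume {y : ↥((ℝ ∙ u)ᗮ) | (y : EuclideanSpace ℝ (Fin n)) + t • u ∈ K}).toReal

/-- The integral of the power `(n-2)/(n-1)` of the section function, raised to the power `n-1`. -/
noncomputable def sectPow {n : ℕ} (K : Set (EuclideanSpace ℝ (Fin n)))
    (u : EuclideanSpace ℝ (Fin n)) : ℝ :=
  (∫ t, sect K u t ^ (((n : ℝ) - 2) / ((n : ℝ) - 1))) ^ (n - 1)

/-- Petty's inequality for every convex body of one dimension, with real volumes. -/
def PettyAt (n : ℕ) : Prop :=
  ∀ K : Set (EuclideanSpace ℝ (Fin n)), IsBody K →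
    kappa (n - 1) ^ n * (volume K).toReal ^ (n - 1) ≤
      kappa n ^ (n - 2) * (volume (projBody K)).toReal

/-- The contact data of a symmetric body in John position: it contains the unit ball and has unit
vectors resolving the identity in whose directions it lies in the slab of width two. -/
def InJohn {n N : ℕ} (K : Set (EuclideanSpace ℝ (Fin n))) (c : Fin N → ℝ)
    (u : Fin N → EuclideanSpace ℝ (Fin n)) : Prop :=
  IsBody K ∧ (∀ x ∈ K, -x ∈ K) ∧ Metric.closedBall 0 1 ⊆ K ∧
    (∀ i, 0 ≤ c i) ∧ (∀ i, ‖u i‖ = 1) ∧ ∑ i, c i = n ∧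
    (∀ x, ∑ i, (c i * ⟪u i, x⟫) • u i = x) ∧ ∀ i, ∀ x ∈ K, |⟪u i, x⟫| ≤ 1

/-- The one remaining analytic step in dimension `n`: in John position some contact direction has
the section integral of the ball, strictly more unless the body is the ball. -/
def ContactBound (n : ℕ) : Prop :=
  ∀ (N : ℕ) (K : Set (EuclideanSpace ℝ (Fin n))) (c : Fin N → ℝ)
    (u : Fin N → EuclideanSpace ℝ (Fin n)), InJohn K c u →
    (∃ i, kappa (n - 1) ^ (2 * n - 3) * (volume K).toReal ^ (n - 2) ≤
      kappa (n - 2) ^ (n - 1) * kappa n ^ (n - 2) * sectPow K (u i)) ∧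
    (K ≠ Metric.closedBall 0 1 →
      ∃ i, kappa (n - 1) ^ (2 * n - 3) * (volume K).toReal ^ (n - 2) <
        kappa (n - 2) ^ (n - 1) * kappa n ^ (n - 2) * sectPow K (u i))

/-- A minimiser of the normalised projection volume. -/
def IsMinimiser {n : ℕ} (K : Set (EuclideanSpace ℝ (Fin n))) : Prop :=
  IsBody K ∧ ∀ L : Set (EuclideanSpace ℝ (Fin n)), IsBody L →
    (volume (projBody K)).toReal * (volume L).toReal ^ (n - 1) ≤
      (volume (projBody L)).toReal * (volume K).toReal ^ (n - 1)

/-- The profile of a body in a John contact direction: its section function is a multiple of a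
power of an even concave function dominating the semicircle. -/
structure IsProfile (m : ℕ) (φ : ℝ → ℝ) : Prop where
  concave : ConcaveOn ℝ (Icc (-1) 1) φ
  even : ∀ t, φ (-t) = φ t
  above : ∀ t ∈ Icc (-1 : ℝ) 1, Real.sqrt (1 - t ^ 2) ≤ φ t

end Vale.Agent.P237.Full
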