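import Vale.Agent.P237.Main
import Vale.Agent.P237.Frusta.Shadow

/-!
The volume gained by adding a segment: it is the length times the shadow, it is sublinear, and so
the shadow of the projection body is cut out by the shadows in the hyperplane.
-/

namespace Vale.Agent.P237.Full

open MeasureTheory Set Filter Module
open scoped ENNReal Pointwise RealInnerProductSpace Topology

variable {E : Type*} [NormedAddCommGroup E] [InnerProductSpace ℝ E] [FiniteDimensional ℝ E]
  [MeasurableSpace E] [BorelSpace E]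

/-- The volume gained by adding the segment from `0` to `w`. -/
noncomputable def gain (K : Set E) (w : E) : ℝ :=
  (volume (K + seg w)).toReal - (volume K).toReal

omit [FiniteDimensional ℝ E] [MeasurableSpace E] [BorelSpace E] in
theorem seg_smul (r : ℝ) (v : E) : seg (r • v) = r • seg v := by
  ext x
  simp only [seg, mem_image, mem_smul_set]
  constructor
  · rintro ⟨s, hs, rfl⟩; exact ⟨s • v, ⟨s, hs, rfl⟩, smul_comm _ _ _⟩
  · rintro ⟨_, ⟨s, hs, rfl⟩, rfl⟩; exact ⟨s, hs, smul_comm _ _ _⟩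

omit [FiniteDimensional ℝ E] [MeasurableSpace E] [BorelSpace E] in
theorem convex_seg (v : E) : Convex ℝ (seg v) :=
  (convex_Icc (0 : ℝ) 1).linear_image ((LinearMap.id : ℝ →ₗ[ℝ] ℝ).smulRight v)

omit [FiniteDimensional ℝ E] [MeasurableSpace E] [BorelSpace E] in
theorem zero_mem_seg (v : E) : (0 : E) ∈ seg v := ⟨0, by simp, by simp⟩

omit [FiniteDimensional ℝ E] [MeasurableSpace E] [BorelSpace E] in
theorem subset_add_seg (K : Set E) (v : E) : K ⊆ K + seg v :=
  fun x hx => ⟨x, hx, 0, zero_mem_seg v, add_zero x⟩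

/-- Coordinates along a unit vector and on its orthogonal complement. -/
theorem exists_split {u : E} (hu : ‖u‖ = 1) :
    ∃ e : (ℝ × ((ℝ ∙ u)ᗮ : Submodule ℝ E)) ≃ᵐ E, MeasurePreserving e volume volume ∧
      IsLinearMap ℝ e ∧ Continuous e ∧ Continuous e.symm ∧
      (∀ p, e p = p.1 • u + (p.2 : E)) ∧ ∀ p, (ℝ ∙ u)ᗮ.orthogonalProjectionOnto (e p) = p.2 := by
  set W := (ℝ ∙ u)ᗮ with hW
  set Ψ : WithLp 2 (ℝ × W) ≃ₗᵢ[ℝ] E :=
    (LinearIsometryEquiv.withLpProdCongr 2 (LinearIsometryEquiv.toSpanUnitSingleton u hu)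
      (LinearIsometryEquiv.refl ℝ W)).trans (ℝ ∙ u).orthogonalDecomposition.symm with hΨ
  set e : ℝ × W ≃ᵐ E :=
    (MeasurableEquiv.toLp 2 (ℝ × W)).trans Ψ.toHomeomorph.toMeasurableEquiv
  have happ : ∀ p : ℝ × W, e p = p.1 • u + (p.2 : E) := by
    intro p
    simp [e, hΨ, LinearIsometryEquiv.withLpProdCongr]
    rfl
  refine ⟨e, (LinearIsometryEquiv.measurePreserving Ψ).comp (WithLp.volume_preserving_toLp ℝ W),
    ?_, Ψ.continuous.comp (WithLp.prod_continuous_toLp 2 ℝ W),
    (WithLp.prod_continuous_ofLp 2 ℝ W).comp Ψ.symm.continuous, happ, fun p => ?_⟩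
  · constructor <;> intros <;> simp only [happ, Prod.fst_add, Prod.snd_add, Prod.smul_fst,
      Prod.smul_snd, Submodule.coe_add, Submodule.coe_smul, smul_eq_mul, add_smul, mul_smul,
      smul_add]
    abel
  · rw [happ, map_add, map_smul,
      (Submodule.orthogonalProjectionOnto_eq_zero_iff (K := W)).mpr ?_, smul_zero, zero_add,
      Submodule.orthogonalProjectionOnto_mem_subspace_eq_self]
    rw [hW, Submodule.orthogonal_orthogonal]
    exact Submodule.mem_span_singleton_self u

theorem volume_seg_eq {K : Set E} (hK : Convex ℝ K) (cK : IsCompact K) {u : E} (hu : ‖u‖ = 1) :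
    volume (K + seg u) = volume K + shadow K u := by
  refine le_antisymm (volume_seg_le hK cK hu) ?_
  obtain ⟨e, he, hl, hc, hc', happ, hproj⟩ := exists_split hu
  have cK' : IsCompact (e ⁻¹' K) := by
    rw [← e.image_symm K]; exact cK.image hc'
  have h := Frusta.slice_lower (hK.is_linear_preimage hl) cK'
  have hsub : e ⁻¹' K + seg ((1, 0) : ℝ × ((ℝ ∙ u)ᗮ : Submodule ℝ E)) ⊆ e ⁻¹' (K + seg u) := by
    rintro _ ⟨p, hp, _, ⟨t, ht, rfl⟩, rfl⟩
    refine ⟨e p, hp, t • u, ⟨t, ht, rfl⟩, ?_⟩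
    rw [hl.map_add, hl.map_smul, happ (1, 0)]
    simp
  have hsnd : Prod.snd '' (e ⁻¹' K) = (ℝ ∙ u)ᗮ.orthogonalProjectionOnto '' K := by
    rw [← e.image_symm K, image_image]
    exact image_congr fun x _ => by rw [← hproj (e.symm x), e.apply_symm_apply]
  have h2 := h.trans (measure_mono hsub)
  rwa [he.measure_preimage_equiv, he.measure_preimage_equiv, hsnd] at h2

theorem shadow_ne_top {K : Set E} (cK : IsCompact K) (u : E) : shadow K u ≠ ⊤ :=
  (cK.image (ContinuousLinearMap.continuous _)).measure_ne_top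

omit [MeasurableSpace E] [BorelSpace E] in
theorem finrank_compl {m : ℕ} (hE : finrank ℝ E = m + 1) {u : E} (hu : ‖u‖ = 1) :
    finrank ℝ ((ℝ ∙ u)ᗮ : Submodule ℝ E) = m := by
  have h := (ℝ ∙ u).finrank_add_finrank_orthogonal
  rw [finrank_span_singleton (norm_ne_zero_iff.1 (by rw [hu]; exact one_ne_zero)), hE] at h
  omega

theorem shadow_smul {m : ℕ} (hE : finrank ℝ E = m + 1) (K : Set E) {r : ℝ} (hr : 0 ≤ r) {u : E}
    (hu : ‖u‖ = 1) : shadow (r • K) u = ENNReal.ofReal (r ^ m) * shadow K u := by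
  unfold shadow
  rw [image_smul_set, Measure.addHaar_smul_of_nonneg volume hr, finrank_compl hE hu]

theorem gain_unit {K : Set E} (hK : Convex ℝ K) (cK : IsCompact K) {u : E} (hu : ‖u‖ = 1) :
    gain K u = (shadow K u).toReal := by
  rw [gain, volume_seg_eq hK cK hu, ENNReal.toReal_add cK.measure_ne_top (shadow_ne_top cK u),
    add_sub_cancel_left]

theorem gain_zero (K : Set E) : gain K 0 = 0 := by
  have h : seg (0 : E) = {0} := by
    refine eq_singleton_iff_unique_mem.2 ⟨zero_mem_seg 0, ?_⟩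
    rintro _ ⟨s, -, rfl⟩
    simp
  rw [gain, h, add_singleton]
  simp

theorem gain_smul_unit {K : Set E} (hK : Convex ℝ K) (cK : IsCompact K) {u : E} (hu : ‖u‖ = 1)
    {r : ℝ} (hr : 0 ≤ r) : gain K (r • u) = r * (shadow K u).toReal := by
  rcases hr.eq_or_lt with rfl | hr'
  · simp [gain_zero]
  obtain ⟨m, hE⟩ : ∃ m, finrank ℝ E = m + 1 := by
    have : Nontrivial E := ⟨u, 0, norm_ne_zero_iff.1 (by rw [hu]; exact one_ne_zero)⟩
    exact ⟨finrank ℝ E - 1, by have := finrank_pos (R := ℝ) (M := E); omega⟩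
  set L := r⁻¹ • K with hL
  have hKL : K = r • L := by rw [hL, smul_inv_smul₀ hr'.ne']
  have hg := gain_unit (hK.smul r⁻¹) (cK.smul r⁻¹) hu
  have h : gain K (r • u) = r ^ (m + 1) * gain L u := by
    rw [gain, gain, hKL, seg_smul, ← smul_add, Measure.addHaar_smul_of_nonneg volume hr,
      Measure.addHaar_smul_of_nonneg volume hr, hE, ENNReal.toReal_mul, ENNReal.toReal_mul,
      ENNReal.toReal_ofReal (pow_nonneg hr _), mul_sub]
  rw [h, hg, shadow_smul hE K (inv_nonneg.2 hr) hu, ENNReal.toReal_mul,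
    ENNReal.toReal_ofReal (pow_nonneg (inv_nonneg.2 hr) _), inv_pow, pow_succ]
  field_simp

omit [FiniteDimensional ℝ E] [MeasurableSpace E] [BorelSpace E] in
theorem exists_unit_smul {w : E} (hw : w ≠ 0) : ∃ u : E, ‖u‖ = 1 ∧ w = ‖w‖ • u :=
  ⟨‖w‖⁻¹ • w, norm_smul_inv_norm hw, by rw [smul_inv_smul₀ (norm_ne_zero_iff.2 hw)]⟩

theorem gain_smul {K : Set E} (hK : Convex ℝ K) (cK : IsCompact K) {c : ℝ} (hc : 0 ≤ c) (w : E) :
    gain K (c • w) = c * gain K w := by
  rcases eq_or_ne w 0 with rfl | hw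
  · simp [gain_zero]
  obtain ⟨u, hu, hwu⟩ := exists_unit_smul hw
  rw [hwu, smul_smul, gain_smul_unit hK cK hu (mul_nonneg hc (norm_nonneg w)),
    gain_smul_unit hK cK hu (norm_nonneg w)]
  ring

theorem gain_nonneg {K : Set E} (cK : IsCompact K) (w : E) : 0 ≤ gain K w :=
  sub_nonneg.2 (ENNReal.toReal_mono (cK.add (isCompact_seg w)).measure_ne_top
    (measure_mono (subset_add_seg K w)))

theorem gain_mono {L L' : Set E} (hL : Convex ℝ L) (cL : IsCompact L) (hL' : Convex ℝ L')
    (cL' : IsCompact L') (p : E) (h : ∀ x ∈ L, p + x ∈ L') (w : E) : gain L w ≤ gain L' w := by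
  rcases eq_or_ne w 0 with rfl | hw
  · simp [gain_zero]
  obtain ⟨u, hu, hwu⟩ := exists_unit_smul hw
  rw [hwu, gain_smul_unit hL cL hu (norm_nonneg w), gain_smul_unit hL' cL' hu (norm_nonneg w)]
  refine mul_le_mul_of_nonneg_left (ENNReal.toReal_mono (shadow_ne_top cL' u) ?_) (norm_nonneg w)
  set π := (ℝ ∙ u)ᗮ.orthogonalProjectionOnto
  calc volume (π '' L) = volume ((fun x => π p + x) '' (π '' L)) := by
        rw [image_add_left, measure_preimage_add]
    _ ≤ _ := measure_mono (by
        rintro _ ⟨_, ⟨x, hx, rfl⟩, rfl⟩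
        exact ⟨p + x, h x hx, map_add π p x⟩)

theorem gain_smul_set {m : ℕ} (hE : finrank ℝ E = m + 1) {L : Set E} (hL : Convex ℝ L)
    (cL : IsCompact L) {r : ℝ} (hr : 0 ≤ r) (w : E) : gain (r • L) w = r ^ m * gain L w := by
  rcases eq_or_ne w 0 with rfl | hw
  · simp [gain_zero]
  obtain ⟨u, hu, hwu⟩ := exists_unit_smul hw
  rw [hwu, gain_smul_unit (hL.smul r) (cL.smul r) hu (norm_nonneg w),
    gain_smul_unit hL cL hu (norm_nonneg w), shadow_smul hE L hr hu, ENNReal.toReal_mul,
    ENNReal.toReal_ofReal (pow_nonneg hr m)]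
  ring

theorem tendsto_add_seg {C : Set E} (cC : IsCompact C) (a : E) :
    Tendsto (fun t : ℝ => (volume (C + seg (t • a))).toReal) (𝓝[>] 0)
      (𝓝 (volume C).toReal) := by
  refine (ENNReal.tendsto_toReal cC.measure_ne_top).comp ?_
  have h0 : Tendsto (fun t : ℝ => t * ‖a‖) (𝓝[>] 0) (𝓝 0) := by
    have h : Tendsto (fun t : ℝ => t * ‖a‖) (𝓝 0) (𝓝 (0 * ‖a‖)) := by
      exact (continuous_id.mul continuous_const).tendsto 0
    rw [zero_mul] at h
    exact h.mono_left nhdsWithin_le_nhds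
  refine tendsto_of_tendsto_of_tendsto_of_le_of_le' tendsto_const_nhds
    ((tendsto_measure_cthickening_of_isCompact (μ := volume) cC).comp h0)
    (Eventually.of_forall fun t => measure_mono (subset_add_seg C _)) ?_
  filter_upwards [self_mem_nhdsWithin] with t (ht : 0 < t)
  refine measure_mono ?_
  rintro _ ⟨x, hx, _, ⟨s, hs, rfl⟩, rfl⟩
  refine Metric.mem_cthickening_of_dist_le _ x _ _ hx ?_
  rw [dist_eq_norm, add_sub_cancel_left, norm_smul, norm_smul, Real.norm_of_nonneg hs.1,
    Real.norm_of_nonneg ht.le]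
  exact mul_le_of_le_one_left (by positivity) hs.2

theorem gain_add_le {K : Set E} (hK : Convex ℝ K) (cK : IsCompact K) (a b : E) :
    gain K (a + b) ≤ gain K a + gain K b := by
  have key : ∀ t : ℝ, 0 < t → gain K (a + b) ≤ gain K a + gain (K + seg (t • a)) b := by
    intro t ht
    have hc := hK.add (convex_seg (t • a))
    have cc := cK.add (isCompact_seg (t • a))
    have h1 : gain K (t • (a + b)) ≤ gain K (t • a) + gain (K + seg (t • a)) (t • b) := by
      have hsub : K + seg (t • (a + b)) ⊆ K + seg (t • a) + seg (t • b) := by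
        rintro _ ⟨x, hx, _, ⟨s, hs, rfl⟩, rfl⟩
        exact ⟨x + s • t • a, ⟨x, hx, _, ⟨s, hs, rfl⟩, rfl⟩, s • t • b, ⟨s, hs, rfl⟩, by
          simp only [smul_add]; abel⟩
      have h := ENNReal.toReal_mono (cc.add (isCompact_seg _)).measure_ne_top
        (measure_mono (μ := volume) hsub)
      simp only [gain]
      linarith
    rw [gain_smul hK cK ht.le, gain_smul hK cK ht.le, gain_smul hc cc ht.le, ← mul_add] at h1
    exact le_of_mul_le_mul_left h1 ht
  have hlim : Tendsto (fun t : ℝ => gain K a + gain (K + seg (t • a)) b) (𝓝[>] 0)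
      (𝓝 (gain K a + gain K b)) := by
    refine tendsto_const_nhds.add ?_
    have h := (tendsto_add_seg (cK.add (isCompact_seg b)) a).sub (tendsto_add_seg cK a)
    refine h.congr fun t => ?_
    rw [gain, add_right_comm]
  refine ge_of_tendsto hlim ?_
  filter_upwards [self_mem_nhdsWithin] with t (ht : 0 < t) using key t ht

theorem projBody_eq {K : Set E} (hK : Convex ℝ K) (cK : IsCompact K) :
    projBody K = {x | ∀ w, ⟪x, w⟫ ≤ gain K w} := by
  ext x
  refine ⟨fun hx w => ?_, fun hx u hu => (hx u).trans_eq (gain_unit hK cK hu)⟩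
  rcases eq_or_ne w 0 with rfl | hw
  · simp [gain_zero]
  obtain ⟨u, hu, hwu⟩ := exists_unit_smul hw
  rw [hwu, gain_smul_unit hK cK hu (norm_nonneg w), real_inner_smul_right]
  exact mul_le_mul_of_nonneg_left (hx u hu) (norm_nonneg w)

theorem convex_projBody' (K : Set E) : Convex ℝ (projBody K) := by
  intro x hx y hy a b ha hb hab u hu
  rw [inner_add_left, real_inner_smul_left, real_inner_smul_left]
  calc a * ⟪x, u⟫ + b * ⟪y, u⟫ ≤ a * (shadow K u).toReal + b * (shadow K u).toReal :=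
        add_le_add (mul_le_mul_of_nonneg_left (hx u hu) ha) (mul_le_mul_of_nonneg_left (hy u hu) hb)
    _ = _ := by rw [← add_mul, hab, one_mul]

theorem isCompact_projBody' {K : Set E} (hK : Convex ℝ K) (cK : IsCompact K) :
    IsCompact (projBody K) := by
  refine Metric.isCompact_of_isClosed_isBounded ?_ ?_
  · rw [projBody, show {x : E | ∀ u : E, ‖u‖ = 1 → ⟪x, u⟫ ≤ (shadow K u).toReal} =
      ⋂ u : E, ⋂ _ : ‖u‖ = 1, {x | ⟪x, u⟫ ≤ (shadow K u).toReal} by ext; simp]
    exact isClosed_iInter fun u => isClosed_iInter fun _ =>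
      isClosed_le (by fun_prop) continuous_const
  · set b := stdOrthonormalBasis ℝ E
    refine isBounded_iff_forall_norm_le.2
      ⟨∑ i, (gain K (b i) + gain K (-b i)), fun x hx => ?_⟩
    rw [projBody_eq hK cK] at hx
    have h2 : gain K x ≤ ‖x‖ * ∑ i, (gain K (b i) + gain K (-b i)) := by
      conv_lhs => rw [← b.sum_repr' x]
      refine (Finset.le_sum_of_subadditive _ (gain_zero K).le (gain_add_le hK cK) _ _).trans ?_
      rw [Finset.mul_sum]
      refine Finset.sum_le_sum fun i _ => ?_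
      have habs : |⟪b i, x⟫| ≤ ‖x‖ := by
        simpa [b.orthonormal.norm_eq_one i] using abs_real_inner_le_norm (b i) x
      have h1 := gain_nonneg cK (b i)
      have h2 := gain_nonneg cK (-b i)
      rcases le_total 0 ⟪b i, x⟫ with hs | hs
      · rw [gain_smul hK cK hs]
        rw [abs_of_nonneg hs] at habs
        nlinarith [norm_nonneg x]
      · rw [show ⟪b i, x⟫ • b i = (-⟪b i, x⟫) • (-b i) by simp, gain_smul hK cK (neg_nonneg.2 hs)]
        rw [abs_of_nonpos hs] at habs
        nlinarith [norm_nonneg x]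
    have h3 : ‖x‖ * ‖x‖ ≤ ‖x‖ * ∑ i, (gain K (b i) + gain K (-b i)) := by
      rw [← real_inner_self_eq_norm_mul_norm]; exact (hx x).trans h2
    rcases (norm_nonneg x).eq_or_lt with h | h
    · rw [← h]; exact Finset.sum_nonneg fun i _ => add_nonneg (gain_nonneg cK _) (gain_nonneg cK _)
    · exact le_of_mul_le_mul_left h3 h

/-- The shadow of the projection body contains every vector of the hyperplane lying under the
gains in that hyperplane. -/
theorem mem_proj_projBody {K : Set E} (hK : Convex ℝ K) (cK : IsCompact K)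
    {W : Submodule ℝ E} (y : W) (hy : ∀ θ : W, ⟪y, θ⟫ ≤ gain K (θ : E)) :
    y ∈ W.orthogonalProjectionOnto '' projBody K := by
  obtain ⟨g, hg, hgN⟩ := exists_extension_of_le_sublinear
    ⟨W, (innerₛₗ ℝ y : W →ₗ[ℝ] ℝ)⟩ (gain K) (fun c hc => gain_smul hK cK hc.le)
    (gain_add_le hK cK) hy
  refine ⟨(InnerProductSpace.toDual ℝ E).symm (LinearMap.toContinuousLinearMap g), ?_, ?_⟩
  · rw [projBody_eq hK cK]
    intro w
    rw [InnerProductSpace.toDual_symm_apply]
    exact hgN w
  · refine ext_inner_right ℝ fun θ => ?_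
    rw [Submodule.inner_orthogonalProjectionOnto_eq_of_mem_right,
      InnerProductSpace.toDual_symm_apply]
    exact hg θ

section isometry

variable {F : Type*} [NormedAddCommGroup F] [InnerProductSpace ℝ F] [FiniteDimensional ℝ F]
  [MeasurableSpace F] [BorelSpace F]

theorem volume_isometry (φ : E ≃ₗᵢ[ℝ] F) (S : Set E) : volume (φ '' S) = volume S := by
  have h := φ.symm.measurePreserving.measure_preimage_equiv
    (f := φ.symm.toHomeomorph.toMeasurableEquiv) S
  rw [← h, LinearIsometryEquiv.image_eq_preimage_symm]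
  rfl

theorem gain_isometry (φ : E ≃ₗᵢ[ℝ] F) (L : Set E) (w : E) :
    gain (φ '' L) (φ w) = gain L w := by
  have h : φ '' L + seg (φ w) = φ '' (L + seg w) := by
    rw [image_add, show seg (φ w) = φ '' seg w by simp [seg, image_image, map_smul]]
  rw [gain, gain, h, volume_isometry, volume_isometry]

theorem projBody_isometry (φ : E ≃ₗᵢ[ℝ] F) {L : Set E} (hL : Convex ℝ L) (cL : IsCompact L) :
    projBody (φ '' L) = φ '' projBody L := by
  have hL' : Convex ℝ (φ '' L) := hL.linear_image φ.toLinearEquiv.toLinearMap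
  rw [projBody_eq hL' (cL.image φ.continuous), projBody_eq hL cL]
  ext x
  constructor
  · intro hx
    refine ⟨φ.symm x, fun w => ?_, φ.apply_symm_apply x⟩
    rw [← φ.inner_map_map, φ.apply_symm_apply, ← gain_isometry φ]
    exact hx _
  · rintro ⟨z, hz, rfl⟩ w
    rw [← φ.apply_symm_apply w, φ.inner_map_map, gain_isometry]
    exact hz _

end isometry

end Vale.Agent.P237.Full
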