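import Mathlib
import Vale.Agent.P237.Full.Gain
import Vale.Agent.P237.Full.Defs

/-!
The projection body under a linear change of variables.
-/

namespace Vale.Agent.P237.Full

open MeasureTheory Set
open scoped RealInnerProductSpace Pointwise

variable {n : ℕ}

theorem gain_linear (T : EuclideanSpace ℝ (Fin n) ≃L[ℝ] EuclideanSpace ℝ (Fin n))
    (K : Set (EuclideanSpace ℝ (Fin n))) (v : EuclideanSpace ℝ (Fin n)) :
    gain (T '' K) (T v) = |LinearMap.det T.toLinearEquiv.toLinearMap| * gain K v := by
  have h : T '' K + seg (T v) = T '' (K + seg v) := by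
    rw [image_add, show seg (T v) = T '' seg v by simp [seg, image_image, map_smul]]
  have hv : ∀ S : Set (EuclideanSpace ℝ (Fin n)), (volume (T '' S)).toReal =
      |LinearMap.det T.toLinearEquiv.toLinearMap| * (volume S).toReal := fun S => by
    rw [show T '' S = T.toLinearEquiv.toLinearMap '' S from rfl, Measure.addHaar_image_linearMap,
      ENNReal.toReal_mul, ENNReal.toReal_ofReal (abs_nonneg _)]
  rw [gain, gain, h, hv, hv, mul_sub]

theorem volume_projBody_linear (T : EuclideanSpace ℝ (Fin n) ≃L[ℝ] EuclideanSpace ℝ (Fin n))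
    {K : Set (EuclideanSpace ℝ (Fin n))} (hK : IsBody K) (hn : 1 ≤ n) :
    volume (projBody (T '' K)) =
      ENNReal.ofReal (|LinearMap.det T.toLinearEquiv.toLinearMap| ^ (n - 1)) *
        volume (projBody K) := by
  set d := LinearMap.det T.toLinearEquiv.toLinearMap with hd
  have hd0 : 0 < |d| := abs_pos.2 T.toLinearEquiv.isUnit_det'.ne_zero
  set S : EuclideanSpace ℝ (Fin n) →ₗ[ℝ] EuclideanSpace ℝ (Fin n) :=
    LinearMap.adjoint T.toLinearEquiv.symm.toLinearMap with hS
  set F : EuclideanSpace ℝ (Fin n) →ₗ[ℝ] EuclideanSpace ℝ (Fin n) := |d| • S with hF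
  have hinner : ∀ z v, ⟪F z, T v⟫ = |d| * ⟪z, v⟫ := fun z v => by
    rw [hF, hS, LinearMap.smul_apply, real_inner_smul_left, LinearMap.adjoint_inner_left]
    simp
  have hTK : Convex ℝ (T '' K) := hK.1.linear_image T.toLinearEquiv.toLinearMap
  have himg : projBody (T '' K) = F '' projBody K := by
    rw [projBody_eq hTK (hK.2.1.image T.continuous), projBody_eq hK.1 hK.2.1]
    ext x
    constructor
    · intro hx
      refine ⟨|d|⁻¹ • LinearMap.adjoint T.toLinearEquiv.toLinearMap x, fun v => ?_, ?_⟩
      · have h := hx (T v)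
        rw [gain_linear, ← hd] at h
        rw [real_inner_smul_left, LinearMap.adjoint_inner_left, inv_mul_le_iff₀ hd0]
        exact h
      · refine ext_inner_right ℝ fun w => ?_
        obtain ⟨v, rfl⟩ := T.surjective w
        rw [hinner, real_inner_smul_left, LinearMap.adjoint_inner_left, ← mul_assoc,
          mul_inv_cancel₀ hd0.ne', one_mul]
        rfl
    · rintro ⟨z, hz, rfl⟩ w
      obtain ⟨v, rfl⟩ := T.surjective w
      rw [hinner, gain_linear, ← hd]
      exact mul_le_mul_of_nonneg_left (hz v) hd0.le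
  have hdet : |LinearMap.det F| = |d| ^ (n - 1) := by
    have hs : LinearMap.det T.toLinearEquiv.symm.toLinearMap = d⁻¹ :=
      LinearEquiv.det_coe_symm T.toLinearEquiv
    rw [hF, LinearMap.det_smul, hS, det_adjoint_symm, hs, finrank_euclideanSpace_fin, abs_mul,
      abs_pow, abs_abs, abs_inv]
    obtain ⟨k, rfl⟩ : ∃ k, n = k + 1 := ⟨n - 1, by omega⟩
    rw [Nat.add_sub_cancel, pow_succ, mul_assoc, mul_inv_cancel₀ hd0.ne', mul_one]
  rw [himg, Measure.addHaar_image_linearMap, hdet]

end Vale.Agent.P237.Full
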