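import Mathlib
import Vale.Agent.P237.Full.Affine
import Vale.Agent.P237.Asym.Approx

/-!
Ellipsoids give equality in Petty's inequality.
-/

namespace Vale.Agent.P237.Full

open MeasureTheory Set Metric
open scoped RealInnerProductSpace Pointwise

variable {n : ℕ}

theorem volume_closedBall_kappa {X : Type*} [NormedAddCommGroup X] [InnerProductSpace ℝ X]
    [FiniteDimensional ℝ X] [MeasurableSpace X] [BorelSpace X] [Nontrivial X] {r : ℝ}
    (hr : 0 ≤ r) : (volume (closedBall (0 : X) r)).toReal =
      r ^ Module.finrank ℝ X * kappa (Module.finrank ℝ X) := by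
  rw [InnerProductSpace.volume_closedBall, ENNReal.toReal_mul, ENNReal.toReal_pow,
    ENNReal.toReal_ofReal hr, ENNReal.toReal_ofReal]
  · rfl
  · exact (kappa_pos _).le

theorem shadow_ball (hn : 2 ≤ n) {v : EuclideanSpace ℝ (Fin n)} (hv : ‖v‖ = 1) :
    (shadow (closedBall (0 : EuclideanSpace ℝ (Fin n)) 1) v).toReal = kappa (n - 1) := by
  have hfr : Module.finrank ℝ (ℝ ∙ v)ᗮ = n - 1 := by
    have := finrank_compl (E := EuclideanSpace ℝ (Fin n)) (m := n - 1)
      (by rw [finrank_euclideanSpace_fin]; omega) hv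
    exact this
  have : Nontrivial ↥((ℝ ∙ v)ᗮ) := Module.finrank_pos_iff (R := ℝ) |>.1 (by omega)
  have e : (ℝ ∙ v)ᗮ.orthogonalProjectionOnto '' closedBall (0 : EuclideanSpace ℝ (Fin n)) 1 =
      closedBall 0 1 := by
    ext y
    simp only [mem_image, mem_closedBall_zero_iff]
    constructor
    · rintro ⟨x, hx, rfl⟩
      exact ((ℝ ∙ v)ᗮ.norm_orthogonalProjectionOnto_apply_le x).trans hx
    · intro hy
      exact ⟨y, by simpa using hy, Submodule.orthogonalProjectionOnto_mem_subspace_eq_self y⟩
  rw [shadow, e, volume_closedBall_kappa zero_le_one, hfr, one_pow, one_mul]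

theorem projBody_ball (hn : 2 ≤ n) :
    projBody (closedBall (0 : EuclideanSpace ℝ (Fin n)) 1) =
      closedBall 0 (kappa (n - 1)) := by
  ext x
  rw [mem_closedBall_zero_iff]
  constructor
  · intro hx
    rcases eq_or_ne x 0 with rfl | h0
    · simpa using (kappa_pos _).le
    · have hu := norm_smul_inv_norm (𝕜 := ℝ) h0
      have h := hx _ hu
      rw [shadow_ball hn hu] at h
      simp only [RCLike.ofReal_real_eq_id, id_eq] at h
      rwa [real_inner_smul_right, real_inner_self_eq_norm_sq, sq, ← mul_assoc,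
        inv_mul_cancel₀ (norm_ne_zero_iff.2 h0), one_mul] at h
  · intro hx v hv
    rw [shadow_ball hn hv]
    exact (real_inner_le_norm x v).trans (by rw [hv, mul_one]; exact hx)

/-- Affine images of the unit ball attain equality. -/
theorem equality_of_ellipsoid (hn : 2 ≤ n) (a : EuclideanSpace ℝ (Fin n))
    (T : EuclideanSpace ℝ (Fin n) ≃L[ℝ] EuclideanSpace ℝ (Fin n)) :
    kappa (n - 1) ^ n *
        (volume ((fun x => x + a) '' (T '' closedBall (0 : EuclideanSpace ℝ (Fin n)) 1))).toReal ^
          (n - 1) =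
      kappa n ^ (n - 2) *
        (volume (projBody ((fun x => x + a) '' (T '' closedBall 0 1)))).toReal := by
  have hB : IsBody (closedBall (0 : EuclideanSpace ℝ (Fin n)) 1) :=
    ⟨convex_closedBall _ _, isCompact_closedBall _ _,
      ⟨0, mem_interior.2 ⟨ball 0 1, ball_subset_closedBall, isOpen_ball, mem_ball_self one_pos⟩⟩⟩
  have : Nontrivial (EuclideanSpace ℝ (Fin n)) :=
    Module.finrank_pos_iff (R := ℝ) |>.1 (by rw [finrank_euclideanSpace_fin]; omega)
  rw [Asym.projBody_translate, image_add_right, measure_preimage_add_right,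
    volume_projBody_linear T hB (by omega), projBody_ball hn,
    show T '' closedBall 0 1 = T.toLinearEquiv.toLinearMap '' closedBall 0 1 from rfl,
    Measure.addHaar_image_linearMap, ENNReal.toReal_mul, ENNReal.toReal_mul,
    ENNReal.toReal_ofReal (abs_nonneg _), ENNReal.toReal_ofReal (by positivity),
    volume_closedBall_kappa zero_le_one, volume_closedBall_kappa (kappa_pos _).le,
    finrank_euclideanSpace_fin, one_pow, one_mul, mul_pow]
  have e : kappa n ^ (n - 2) * kappa n = kappa n ^ (n - 1) := by
    rw [← pow_succ, show n - 2 + 1 = n - 1 by omega]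
  rw [← e]
  ring

end Vale.Agent.P237.Full
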