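import Vale.Agent.P237.Full.Defs
import Vale.Agent.P237.Full.Gain

/-!
Petty's inequality in the plane.
-/

namespace Vale.Agent.P237.Full

open MeasureTheory Set
open scoped ENNReal Pointwise RealInnerProductSpace

theorem kappa_one : kappa 1 = 2 := by
  rw [kappa, show ((1 : ℕ) : ℝ) / 2 + 1 = 1 / 2 + 1 by norm_num,
    Real.Gamma_add_one (by norm_num), Real.Gamma_one_half_eq, pow_one]
  field_simp

theorem petty_two : PettyAt 2 := by
  rintro K ⟨hK, cK, hne⟩
  rw [show (2 : ℕ) - 1 = 1 from rfl, show (2 : ℕ) - 2 = 0 from rfl, pow_zero, one_mul, pow_one,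
    kappa_one]
  set P : EuclideanSpace ℝ (Fin 2) → (Fin 2 → ℝ) := WithLp.ofLp
  have hP : MeasurePreserving P volume volume := PiLp.volume_preserving_ofLp (Fin 2)
  have hPc : Continuous P := PiLp.continuous_ofLp 2 _
  set A : Set (Fin 2 → ℝ) := P '' K with hA
  have hvol : ∀ S : Set (EuclideanSpace ℝ (Fin 2)), volume (P '' S) = volume S := fun S => by
    rw [← hP.measure_preimage_equiv (f := (MeasurableEquiv.toLp 2 (Fin 2 → ℝ)).symm) (P '' S)]
    congr 1
    exact Set.preimage_image_eq S (WithLp.ofLp_injective 2)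
  have hAc : Convex ℝ A := hK.linear_image (WithLp.linearEquiv 2 ℝ (Fin 2 → ℝ)).toLinearMap
  have cA : IsCompact A := cK.image hPc
  have hgain : ∀ x ∈ K, ∀ y ∈ K, ∀ w : EuclideanSpace ℝ (Fin 2),
      |w 0 * (x 1 - y 1) - w 1 * (x 0 - y 0)| ≤ gain K w := by
    intro x hx y hy w
    have h := grows_planar hAc cA (P w) (P x) (P y) ⟨x, hx, rfl⟩ ⟨y, hy, rfl⟩
    have hs : A + seg (P w) = P '' (K + seg w) := by
      rw [show P = ⇑(WithLp.linearEquiv 2 ℝ (Fin 2 → ℝ)) from rfl] at hA ⊢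
      rw [hA, image_add, show seg ((WithLp.linearEquiv 2 ℝ (Fin 2 → ℝ)) w)
        = (WithLp.linearEquiv 2 ℝ (Fin 2 → ℝ)) '' seg w by simp [seg, image_image]]
    rw [hs, hvol, hvol] at h
    have h2 := ENNReal.toReal_mono (cK.add (isCompact_seg w)).measure_ne_top h
    rw [ENNReal.toReal_add cK.measure_ne_top ENNReal.ofReal_ne_top,
      ENNReal.toReal_ofReal (abs_nonneg _)] at h2
    simp only [gain]
    linarith
  have hsub : turn 1 '' (A - A) ⊆ P '' projBody K := by
    rintro _ ⟨_, ⟨_, ⟨x, hx, rfl⟩, _, ⟨y, hy, rfl⟩, rfl⟩, rfl⟩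
    refine ⟨WithLp.toLp 2 (turn 1 (P x - P y)), ?_, rfl⟩
    rw [projBody_eq hK cK]
    intro w
    refine le_trans ?_ (hgain x hx y hy w)
    refine le_trans (le_of_eq ?_) ((neg_le_abs _))
    simp [PiLp.inner_apply, Fin.sum_univ_two, turn, Matrix.vecHead, Matrix.vecTail, P]
    ring
  have h := (mul_le_mul_right (volume_sub_self cA) (1 : ℝ≥0∞)).trans
    (le_of_eq_of_le (by rw [turn_image_volume]; norm_num) (measure_mono (μ := volume) hsub))
  rw [one_mul, hvol, hvol] at h
  have h2 := ENNReal.toReal_mono (isCompact_projBody' hK cK).measure_ne_top h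
  rw [ENNReal.toReal_mul] at h2
  norm_num at h2 ⊢
  exact h2

end Vale.Agent.P237.Full
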