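import Mathlib
import Vale.Agent.P074.PL

/-!
P237: the Brunn-Minkowski inequality for compact convex sets in a Euclidean space.
-/

namespace Vale.Agent.P237.Full

open MeasureTheory Set Filter Topology
open scoped ENNReal Pointwise

variable {E : Type*} [NormedAddCommGroup E] [InnerProductSpace ℝ E] [FiniteDimensional ℝ E]
  [MeasurableSpace E] [BorelSpace E]

theorem vol_mid {A B C : Set E} (hA : IsCompact A) (hB : IsCompact B) (hC : IsCompact C)
    (h : ∀ x ∈ A, ∀ y ∈ B, (1 / 2 : ℝ) • (x + y) ∈ C) : volume A * volume B ≤ volume C ^ 2 := by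
  set r := (stdOrthonormalBasis ℝ E).repr
  have hr := r.symm.measurePreserving
  have e : ∀ {S : Set E}, IsCompact S →
      volume S = ∫⁻ x, (r.symm ⁻¹' S).indicator 1 x := fun {S} hS => by
    rw [lintegral_indicator_one (hS.measurableSet.preimage r.symm.continuous.measurable),
      hr.measure_preimage hS.measurableSet.nullMeasurableSet]
  rw [e hA, e hB, e hC]
  refine Vale.Agent.P074.prekopa
    (measurable_one.indicator (hA.measurableSet.preimage r.symm.continuous.measurable))
    (measurable_one.indicator (hB.measurableSet.preimage r.symm.continuous.measurable))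
    (measurable_one.indicator (hC.measurableSet.preimage r.symm.continuous.measurable)) fun x y => ?_
  by_cases hx : x ∈ r.symm ⁻¹' A
  · by_cases hy : y ∈ r.symm ⁻¹' B
    · have hz : (1 / 2 : ℝ) • (x + y) ∈ r.symm ⁻¹' C := by
        rw [mem_preimage, map_smul, map_add]; exact h _ hx _ hy
      rw [indicator_of_mem hx, indicator_of_mem hy, indicator_of_mem hz]
      simp
    · simp [indicator_of_notMem hy]
  · simp [indicator_of_notMem hx]

/-- Convex combinations of two sets of volume at least one have volume at least one. -/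
theorem one_le_combo {X Y : Set E} (hX : Convex ℝ X) (cX : IsCompact X) (hY : Convex ℝ Y)
    (cY : IsCompact Y) (vX : 1 ≤ volume X) (vY : 1 ≤ volume Y) {l : ℝ} (h0 : 0 ≤ l) (h1 : l ≤ 1) :
    1 ≤ volume (l • X + (1 - l) • Y) := by
  set C : ℝ → Set E := fun l => l • X + (1 - l) • Y
  have cC : ∀ l, IsCompact (C l) := fun l => (cX.smul l).add (cY.smul (1 - l))
  have dy : ∀ k j : ℕ, j ≤ 2 ^ k → 1 ≤ volume (C ((j : ℝ) / 2 ^ k)) := by
    intro k
    induction k with
    | zero =>
      intro j hj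
      have hne : ∀ {S : Set E}, 1 ≤ volume S → S.Nonempty := fun h =>
        nonempty_of_measure_ne_zero (zero_lt_one.trans_le h).ne'
      rcases Nat.le_one_iff_eq_zero_or_eq_one.1 hj with rfl | rfl
      · simpa [C, zero_smul_set (hne vX)] using vY
      · simpa [C, zero_smul_set (hne vY)] using vX
    | succ k ih =>
      intro j hj
      rw [pow_succ] at hj
      set i := j / 2
      set i' := j - i
      set a : ℝ := (i : ℝ) / 2 ^ k
      set b : ℝ := (i' : ℝ) / 2 ^ k
      have ha := ih i (by omega)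
      have hb := ih i' (by omega)
      have hL : (j : ℝ) / 2 ^ (k + 1) = (1 / 2) * (a + b) := by
        have hij : (i : ℝ) + i' = j := by exact_mod_cast (show i + i' = j by omega)
        simp only [a, b, pow_succ]
        rw [← hij]; field_simp
      have le1 : ∀ q : ℕ, q ≤ 2 ^ k → (q : ℝ) / 2 ^ k ≤ 1 := fun q hq =>
        (div_le_one (by positivity)).2 (by exact_mod_cast hq)
      have ha1 : a ≤ 1 := le1 i (by omega)
      have hb1 : b ≤ 1 := le1 i' (by omega)
      have ha0 : 0 ≤ a := by positivity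
      have hb0 : 0 ≤ b := by positivity
      have hsub : ∀ x ∈ C a, ∀ y ∈ C b, (1 / 2 : ℝ) • (x + y) ∈ C ((j : ℝ) / 2 ^ (k + 1)) := by
        intro x hx y hy
        rw [hL]
        show _ ∈ ((1 / 2 : ℝ) * (a + b)) • X + (1 - (1 / 2 : ℝ) * (a + b)) • Y
        rw [show (1 : ℝ) - 1 / 2 * (a + b) = 1 / 2 * ((1 - a) + (1 - b)) by ring, mul_smul, mul_smul,
          ← smul_add, hX.add_smul ha0 hb0, hY.add_smul (by linarith) (by linarith)]
        refine smul_mem_smul_set ?_
        rw [add_add_add_comm]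
        exact add_mem_add hx hy
      have h2 := vol_mid (cC a) (cC b) (cC _) hsub
      have h3 : (1 : ℝ≥0∞) ^ 2 ≤ volume (C ((j : ℝ) / 2 ^ (k + 1))) ^ 2 := by
        refine le_trans ?_ h2
        rw [one_pow]
        exact one_le_mul ha hb
      exact (ENNReal.pow_le_pow_left_iff two_ne_zero).1 h3
  obtain ⟨D, hD⟩ := (cX.isBounded.union cY.isBounded).subset_closedBall 0
  have hthick : ∀ ε > (0 : ℝ), 1 ≤ volume (Metric.cthickening ε (C l)) := by
    intro ε hε
    obtain ⟨k, hk⟩ := exists_pow_lt_of_lt_one (show 0 < ε / (2 * |D| + 1) by positivity)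
      (by norm_num : (1 : ℝ) / 2 < 1)
    set j := ⌊l * 2 ^ k⌋₊
    have hj : j ≤ 2 ^ k := by
      refine Nat.floor_le_of_le ?_
      push_cast
      exact mul_le_of_le_one_left (by positivity) h1
    refine (dy k j hj).trans (measure_mono ?_)
    rintro _ ⟨_, ⟨x, hx, rfl⟩, _, ⟨y, hy, rfl⟩, rfl⟩
    refine Metric.mem_cthickening_of_dist_le _ (l • x + (1 - l) • y) _ _
      (add_mem_add (smul_mem_smul_set hx) (smul_mem_smul_set hy)) ?_
    dsimp only
    rw [dist_eq_norm, show ((j : ℝ) / 2 ^ k) • x + (1 - (j : ℝ) / 2 ^ k) • y - (l • x + (1 - l) • y) =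
      ((j : ℝ) / 2 ^ k - l) • (x - y) by module, norm_smul]
    have e1 : |(j : ℝ) / 2 ^ k - l| ≤ (1 / 2) ^ k := by
      have f1 : (j : ℝ) ≤ l * 2 ^ k := Nat.floor_le (by positivity)
      have f2 : l * 2 ^ k < (j : ℝ) + 1 := Nat.lt_floor_add_one _
      rw [div_pow, one_pow, abs_le]
      constructor
      · rw [le_sub_iff_add_le, le_div_iff₀ (by positivity), add_mul, neg_mul, div_mul_cancel₀ _ (by positivity)]
        linarith
      · rw [sub_le_iff_le_add, div_le_iff₀ (by positivity), add_mul, div_mul_cancel₀ _ (by positivity)]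
        linarith
    have e2 : ‖x - y‖ ≤ 2 * |D| + 1 := by
      have hx' := mem_closedBall_zero_iff.1 (hD (Or.inl hx))
      have hy' := mem_closedBall_zero_iff.1 (hD (Or.inr hy))
      linarith [norm_sub_le x y, le_abs_self D]
    refine (mul_le_mul e1 e2 (norm_nonneg _) (by positivity)).trans ?_
    rw [lt_div_iff₀ (by positivity)] at hk
    exact hk.le
  refine ge_of_tendsto (x := 𝓝[>] (0 : ℝ)) ((tendsto_measure_cthickening_of_isCompact (μ := volume) (cC l)).mono_left
    nhdsWithin_le_nhds) ?_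
  filter_upwards [self_mem_nhdsWithin (s := Ioi (0 : ℝ))] with ε hε using hthick ε hε

/-- Brunn-Minkowski for compact convex sets, `d` the dimension. -/
theorem brunn_minkowski {d : ℕ} (hd : Module.finrank ℝ E = d) (hd1 : 1 ≤ d) {A B : Set E}
    (hA : Convex ℝ A) (cA : IsCompact A) (neA : A.Nonempty) (hB : Convex ℝ B) (cB : IsCompact B)
    (neB : B.Nonempty) {θ : ℝ} (h0 : 0 ≤ θ) (h1 : θ ≤ 1) :
    θ * (volume A).toReal ^ ((d : ℝ)⁻¹) + (1 - θ) * (volume B).toReal ^ ((d : ℝ)⁻¹) ≤
      (volume (θ • A + (1 - θ) • B)).toReal ^ ((d : ℝ)⁻¹) := by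
  have hd0 : d ≠ 0 := by omega
  have cC : IsCompact (θ • A + (1 - θ) • B) := (cA.smul θ).add (cB.smul _)
  have hsm : ∀ {S : Set E} {q : ℝ}, 0 ≤ q →
      (volume (q • S)).toReal ^ ((d : ℝ)⁻¹) = q * (volume S).toReal ^ ((d : ℝ)⁻¹) := fun {S q} hq => by
    rw [Measure.addHaar_smul_of_nonneg volume hq, hd, ENNReal.toReal_mul,
      ENNReal.toReal_ofReal (by positivity), Real.mul_rpow (by positivity) ENNReal.toReal_nonneg,
      Real.pow_rpow_inv_natCast hq hd0]
  have mono : ∀ {S : Set E}, S ⊆ θ • A + (1 - θ) • B →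
      (volume S).toReal ^ ((d : ℝ)⁻¹) ≤ (volume (θ • A + (1 - θ) • B)).toReal ^ ((d : ℝ)⁻¹) :=
    fun h => Real.rpow_le_rpow ENNReal.toReal_nonneg
      (ENNReal.toReal_mono cC.measure_lt_top.ne (measure_mono h)) (by positivity)
  have hz : (0 : ℝ) ^ ((d : ℝ)⁻¹) = 0 := Real.zero_rpow (inv_ne_zero (by exact_mod_cast hd0))
  have tr : ∀ (S : Set E) (v : E), volume (v +ᵥ S) = volume S := fun S v => measure_vadd volume v S
  by_cases hB0 : θ = 1 ∨ (volume B).toReal = 0
  · obtain ⟨b, hb⟩ := neB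
    have hsub : ((1 - θ) • b) +ᵥ (θ • A) ⊆ θ • A + (1 - θ) • B := by
      rintro _ ⟨x, hx, rfl⟩
      exact ⟨x, hx, (1 - θ) • b, smul_mem_smul_set hb, by simp [add_comm]⟩
    have h := mono hsub
    rw [tr, hsm h0] at h
    rcases hB0 with rfl | hv
    · simpa using h
    · rw [hv, hz, mul_zero, add_zero]; exact h
  by_cases hA0 : θ = 0 ∨ (volume A).toReal = 0
  · obtain ⟨a, ha⟩ := neA
    have hsub : (θ • a) +ᵥ ((1 - θ) • B) ⊆ θ • A + (1 - θ) • B := by
      rintro _ ⟨x, hx, rfl⟩
      exact ⟨θ • a, smul_mem_smul_set ha, x, hx, by simp⟩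
    have h := mono hsub
    rw [tr, hsm (by linarith)] at h
    rcases hA0 with rfl | hv
    · simpa using h
    · rw [hv, hz, mul_zero, zero_add]; exact h
  push Not at hA0 hB0
  set a := (volume A).toReal ^ ((d : ℝ)⁻¹) with ha
  set b := (volume B).toReal ^ ((d : ℝ)⁻¹) with hb
  have ha0 : 0 < a := Real.rpow_pos_of_pos (lt_of_le_of_ne ENNReal.toReal_nonneg hA0.2.symm) _
  have hb0 : 0 < b := Real.rpow_pos_of_pos (lt_of_le_of_ne ENNReal.toReal_nonneg hB0.2.symm) _
  have norm1 : ∀ {S : Set E} {s : ℝ}, IsCompact S → s = (volume S).toReal ^ ((d : ℝ)⁻¹) → 0 < s →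
      volume (s⁻¹ • S) = 1 := by
    intro S s cS hs hs0
    have hpow : s ^ d = (volume S).toReal := by
      rw [hs, Real.rpow_inv_natCast_pow ENNReal.toReal_nonneg hd0]
    rw [Measure.addHaar_smul_of_nonneg volume (inv_nonneg.2 hs0.le), hd,
      ← ENNReal.ofReal_toReal cS.measure_lt_top.ne, ← ENNReal.ofReal_mul (by positivity), ← hpow,
      inv_pow, inv_mul_cancel₀ (pow_ne_zero _ hs0.ne'), ENNReal.ofReal_one]
  set S := θ * a + (1 - θ) * b
  have hθ : 0 < θ := lt_of_le_of_ne h0 (Ne.symm hA0.1)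
  have hθ1 : 0 < 1 - θ := by
    have := lt_of_le_of_ne h1 hB0.1
    linarith
  have hS : 0 < S := by positivity
  have key := one_le_combo (hA.smul a⁻¹) (cA.smul _) (hB.smul b⁻¹) (cB.smul _)
    (norm1 cA ha ha0).ge (norm1 cB hb hb0).ge (l := θ * a / S) (by positivity)
    (by rw [div_le_one hS]; simp only [S]; nlinarith)
  have hset : θ • A + (1 - θ) • B =
      S • ((θ * a / S) • (a⁻¹ • A) + (1 - θ * a / S) • (b⁻¹ • B)) := by
    rw [smul_add, smul_smul, smul_smul, smul_smul, smul_smul]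
    congr 2
    · field_simp
    · simp only [S]; field_simp; ring
  rw [hset, hsm hS.le]
  refine le_mul_of_one_le_right hS.le (Real.one_le_rpow ?_ (by positivity))
  have h2 := ENNReal.toReal_mono
    (((cA.smul a⁻¹).smul (θ * a / S)).add ((cB.smul b⁻¹).smul (1 - θ * a / S))).measure_lt_top.ne key
  simpa using h2

end Vale.Agent.P237.Full
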