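import Vale.Agent.P237.Full.Moment
import Vale.Agent.P237.Full.Brunn

/-!
P237: the profile of a body in John position in a contact direction.
-/

namespace Vale.Agent.P237.Full

open Vale.Agent.P084 MeasureTheory Set Module
open scoped RealInnerProductSpace Pointwise

/-- In a contact direction the section function is a multiple of a power of a concave even profile
above the semicircle. -/
theorem exists_profile {n N : ℕ} (hn : 2 ≤ n) {K : Set (Euc n)} {c : Fin N → ℝ}
    {u : Fin N → Euc n} (h : InJohn K c u) (i : Fin N) :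
    ∃ φ, IsProfile (n - 1) φ ∧
      ∀ t, sect K (u i) t = if |t| ≤ 1 then kappa (n - 1) * φ t ^ (n - 1) else 0 := by
  obtain ⟨⟨hK, cK, -⟩, hsym, hB, -, hu, -, -, hslab⟩ := h
  set m := n - 1 with hm
  have hm0 : m ≠ 0 := by omega
  set v := u i with hv
  have hv1 : ‖v‖ = 1 := hu i
  have hv0 : v ≠ 0 := fun e => by simp [e] at hv1
  set W := (ℝ ∙ v)ᗮ
  have hdim : finrank ℝ W = m := by
    have h1 := Submodule.finrank_add_finrank_orthogonal (ℝ ∙ v)
    rw [finrank_span_singleton hv0, finrank_euclideanSpace_fin] at h1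
    change 1 + finrank ℝ W = n at h1
    omega
  have : Nontrivial W := Module.nontrivial_of_finrank_pos (R := ℝ) (by omega)
  set S : ℝ → Set W := fun t => {y | (y : Euc n) + t • v ∈ K} with hS
  have hnorm : ∀ (y : W) (t : ℝ), ‖(y : Euc n) + t • v‖ ^ 2 = ‖y‖ ^ 2 + t ^ 2 := by
    intro y t
    rw [norm_add_sq_real, real_inner_smul_right, real_inner_comm,
      Submodule.mem_orthogonal_singleton_iff_inner_right.1 y.2, norm_smul, hv1, mul_one,
      Real.norm_eq_abs, sq_abs, Submodule.coe_norm]
    ring
  have cS : ∀ t, IsCompact (S t) := by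
    intro t
    obtain ⟨R, hR⟩ := cK.isBounded.subset_closedBall 0
    refine Metric.isCompact_of_isClosed_isBounded (cK.isClosed.preimage (by fun_prop))
      ((isBounded_iff_forall_norm_le).2 ⟨R, fun y hy => ?_⟩)
    have h1 := mem_closedBall_zero_iff.1 (hR hy)
    have h2 := hnorm y t
    nlinarith [norm_nonneg ((y : Euc n) + t • v), norm_nonneg y, sq_nonneg t]
  have convS : ∀ t, Convex ℝ (S t) := by
    intro t x hx y hy a b ha hb hab
    have := hK hx hy ha hb hab
    show ((a • x + b • y : W) : Euc n) + t • v ∈ K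
    convert this using 1
    rw [Submodule.coe_add, Submodule.coe_smul, Submodule.coe_smul]
    nth_rewrite 1 [show t • v = (a + b) • t • v by rw [hab, one_smul]]
    module
  have hball : ∀ t, |t| ≤ 1 → Metric.closedBall (0 : W) √(1 - t ^ 2) ⊆ S t := by
    intro t ht y hy
    refine hB (mem_closedBall_zero_iff.2 ?_)
    have h1 := hnorm y t
    have h2 : t ^ 2 ≤ 1 := (sq_le_one_iff_abs_le_one t).2 ht
    have h3 := pow_le_pow_left₀ (norm_nonneg y) (mem_closedBall_zero_iff.1 hy) 2
    rw [Real.sq_sqrt (by linarith)] at h3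
    nlinarith [norm_nonneg ((y : Euc n) + t • v)]
  have neS : ∀ t, |t| ≤ 1 → (S t).Nonempty := fun t ht =>
    ⟨0, hball t ht (Metric.mem_closedBall_self (Real.sqrt_nonneg _))⟩
  have hsect : ∀ t, sect K v t = (volume (S t)).toReal := fun t => rfl
  set φ : ℝ → ℝ := fun t => (sect K v t / kappa m) ^ ((m : ℝ)⁻¹) with hφ
  have hq : ∀ t, 0 ≤ sect K v t / kappa m := fun t => div_nonneg ENNReal.toReal_nonneg (kappa_pos m).le
  refine ⟨φ, ⟨⟨convex_Icc _ _, fun x hx y hy a b ha hb hab => ?_⟩, fun t => ?_, fun t ht => ?_⟩,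
    fun t => ?_⟩
  · have hbm := brunn_minkowski hdim (by omega) (convS x) (cS x) (neS x (abs_le.2 hx)) (convS y) (cS y)
      (neS y (abs_le.2 hy)) ha (show a ≤ 1 by linarith)
    rw [show 1 - a = b by linarith] at hbm
    have hsub : a • S x + b • S y ⊆ S (a * x + b * y) := by
      rintro _ ⟨_, ⟨p, hp, rfl⟩, _, ⟨q, hq', rfl⟩, rfl⟩
      show ((a • p + b • q : W) : Euc n) + (a * x + b * y) • v ∈ K
      convert hK hp hq' ha hb hab using 1
      rw [Submodule.coe_add, Submodule.coe_smul, Submodule.coe_smul]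
      module
    have hmono := Real.rpow_le_rpow ENNReal.toReal_nonneg
      (ENNReal.toReal_mono ((cS (a * x + b * y)).measure_lt_top (μ := volume)).ne (measure_mono hsub))
      (show (0 : ℝ) ≤ (m : ℝ)⁻¹ by positivity)
    simp only [smul_eq_mul, hφ, hsect]
    simp only [Real.div_rpow ENNReal.toReal_nonneg (kappa_pos m).le]
    rw [← mul_div_assoc, ← mul_div_assoc, ← add_div]
    exact div_le_div_of_nonneg_right (hbm.trans hmono) (Real.rpow_nonneg (kappa_pos m).le _)
  · have hneg : S (-t) = -S t := by
      ext y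
      simp only [hS, Set.mem_neg, mem_ofPred_eq, Submodule.coe_neg]
      constructor <;> intro hy <;> have := hsym _ hy <;>
        (convert this using 1; module)
    simp only [hφ, hsect, hneg]
    rw [Measure.measure_neg]
  · have h1 : |t| ≤ 1 := abs_le.2 ht
    have h3 := ENNReal.toReal_mono ((cS t).measure_lt_top (μ := volume)).ne (measure_mono (μ := volume) (hball t h1))
    rw [InnerProductSpace.volume_closedBall, hdim, ← ENNReal.ofReal_pow (Real.sqrt_nonneg _),
      show √Real.pi ^ m / Real.Gamma ((m : ℝ) / 2 + 1) = kappa m from rfl,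
      ← ENNReal.ofReal_mul (by positivity),
      ENNReal.toReal_ofReal (mul_nonneg (by positivity) (kappa_pos m).le), ← hsect,
      ← le_div_iff₀ (kappa_pos m)] at h3
    have h4 := Real.rpow_le_rpow (by positivity) h3 (show (0 : ℝ) ≤ (m : ℝ)⁻¹ by positivity)
    rwa [Real.pow_rpow_inv_natCast (Real.sqrt_nonneg _) hm0] at h4
  · split_ifs with ht
    · show sect K v t = kappa m * ((sect K v t / kappa m) ^ ((m : ℝ)⁻¹)) ^ m
      rw [Real.rpow_inv_natCast_pow (hq t) hm0, mul_div_cancel₀ _ (kappa_pos m).ne']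
    · have he : S t = ∅ := eq_empty_of_forall_notMem fun y hy => ht <| by
        have h1 := hslab i _ hy
        rwa [← hv, inner_add_right, real_inner_smul_right, real_inner_self_eq_norm_sq, hv1,
          Submodule.mem_orthogonal_singleton_iff_inner_right.1 y.2, zero_add, one_pow, mul_one] at h1
      rw [hsect, he, measure_empty, ENNReal.toReal_zero]

end Vale.Agent.P237.Full
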