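import Mathlib
import Vale.Agent.P084.Fin.John

/-!
P237: John position of a centrally symmetric convex body, with contact vectors, and the lower
bound on second moments.
-/

namespace Vale.Agent.P237.Full

open Vale.Agent.P084 MeasureTheory
open scoped RealInnerProductSpace

/-- John's theorem for a centrally symmetric convex body. -/
theorem exists_john {n : ℕ} (hn : 0 < n) {K : Set (Euc n)} (hK : Convex ℝ K) (cK : IsCompact K)
    (hint : (interior K).Nonempty) (hsym : ∀ x ∈ K, -x ∈ K) :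
    ∃ (T : Euc n ≃L[ℝ] Euc n) (N : ℕ) (c : Fin N → ℝ) (u : Fin N → Euc n),
      (∀ i, 0 ≤ c i) ∧ (∀ i, ‖u i‖ = 1) ∧ ∑ i, c i = n ∧
      (∀ x, ∑ i, (c i * ⟪u i, x⟫) • u i = x) ∧
      Metric.closedBall (0 : Euc n) 1 ⊆ T '' K ∧
      ∀ i, ∀ z ∈ T '' K, |⟪u i, z⟫| ≤ 1 := by
  classical
  have h0 : (0 : Euc n) ∈ interior K := by
    obtain ⟨a, ha⟩ := hint
    have hneg : -a ∈ K := hsym a (interior_subset ha)
    have h := hK.combo_interior_self_mem_interior ha hneg (a := (1 / 2 : ℝ)) (b := (1 / 2 : ℝ))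
      (by norm_num) (by norm_num) (by norm_num)
    simpa using h
  obtain ⟨ρ, hρ, hρK⟩ : ∃ ρ > 0, Metric.closedBall (0 : Euc n) ρ ⊆ K :=
    Metric.nhds_basis_closedBall.mem_iff.1 (mem_interior_iff_mem_nhds.1 h0)
  obtain ⟨R, hR⟩ := cK.isBounded.subset_closedBall 0
  set K₀ : Set (Euc n) := {r | ∀ z ∈ K, ⟪r, z⟫ ≤ 1} with hK₀
  have hKc : IsCompact K₀ := by
    refine Metric.isCompact_of_isClosed_isBounded ?_
      (isBounded_iff_forall_norm_le.2 ⟨ρ⁻¹, fun r hr => ?_⟩)
    · simp only [hK₀, Set.ofPred_forall]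
      exact isClosed_biInter fun z _ => isClosed_le (by fun_prop) continuous_const
    · rcases eq_or_ne r 0 with rfl | hr0
      · simp [hρ.le]
      · have h1 := hr ((ρ / ‖r‖) • r) (hρK (by
          simp [norm_smul, abs_of_pos hρ, div_mul_cancel₀ _ (norm_ne_zero_iff.2 hr0)]))
        rw [real_inner_smul_right, real_inner_self_eq_norm_sq, sq, ← mul_assoc,
          div_mul_cancel₀ _ (norm_ne_zero_iff.2 hr0)] at h1
        rw [← one_div, le_div_iff₀ hρ]
        linarith
  let rk : Euc n → Fin n → Fin n → ℝ := fun r i j => r i * r j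
  set P : Set (Fin n → Fin n → ℝ) := convexHull ℝ (rk '' K₀) with hP
  have hPc : IsCompact P := isCompact_convexHull' (hKc.image (by fun_prop))
  set ε : ℝ := (|R| + 1)⁻¹ with hε
  have hε0 : 0 < ε := by positivity
  have hεK : ∀ k, ε • EuclideanSpace.basisFun (Fin n) ℝ k ∈ K₀ := fun k z hz => by
    refine (real_inner_le_norm _ _).trans ?_
    rw [norm_smul, (EuclideanSpace.basisFun (Fin n) ℝ).orthonormal.norm_eq_one, mul_one,
      Real.norm_of_nonneg hε0.le, hε, inv_mul_le_iff₀ (by positivity)]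
    linarith [mem_closedBall_zero_iff.1 (hR hz), le_abs_self R]
  have hmem : (fun i j => if i = j then ε ^ 2 / n else 0) ∈ P := by
    have h := (convex_convexHull ℝ (rk '' K₀)).sum_mem (t := Finset.univ)
      (w := fun _ : Fin n => ((n : ℝ))⁻¹) (fun k _ => by positivity)
      (by simp [mul_inv_cancel₀ (Nat.cast_ne_zero.2 hn.ne' : (n : ℝ) ≠ 0)])
      (fun k _ => subset_convexHull ℝ _ (Set.mem_image_of_mem rk (hεK k)))
    convert h using 1
    funext i j
    simp [rk, Finset.sum_apply, mul_ite, ite_mul, div_eq_inv_mul, sq]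
  obtain ⟨C₀, hC₀, hmax⟩ := hPc.exists_isMaxOn ⟨_, hmem⟩
    (f := fun C => (Matrix.of C).det) (continuous_id.matrix_det.continuousOn)
  have hdet : 0 < (Matrix.of C₀).det := by
    refine lt_of_lt_of_le ?_ (hmax hmem)
    dsimp only
    rw [show Matrix.of (fun i j => if i = j then ε ^ 2 / (n : ℝ) else 0) =
      Matrix.diagonal fun _ : Fin n => ε ^ 2 / (n : ℝ) from rfl, Matrix.det_diagonal]
    exact Finset.prod_pos fun _ _ => by positivity
  obtain ⟨ι, hι, c, p, hc0, hc1, hp, hsum⟩ := mem_convexHull_iff_exists_fintype.1 hC₀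
  choose r hr hrp using hp
  have hC : Matrix.of C₀ = ∑ a, c a • Matrix.vecMulVec (r a : Fin n → ℝ) (r a) := by
    ext i j
    rw [Matrix.of_apply, ← hsum, Matrix.sum_apply]
    simp [Finset.sum_apply, ← hrp, rk, Matrix.vecMulVec_apply]
  set q : Euc n →ₗ[ℝ] Euc n →ₗ[ℝ] ℝ :=
    ∑ a, c a • (innerₗ (Euc n) (r a)).smulRight (innerₗ (Euc n) (r a)) with hq
  have hqa : ∀ x y, q x y = ∑ a, c a * (⟪r a, x⟫ * ⟪r a, y⟫) := fun x y => by
    simp [hq, LinearMap.sum_apply]
  have hqs : ∀ x y, q x y = q y x := fun x y => by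
    simp only [hqa, mul_comm ⟪r _, x⟫]
  have hqp : ∀ x, x ≠ 0 → 0 < q x x := by
    intro x hx
    have h0 : ∀ a, 0 ≤ c a * (⟪r a, x⟫ * ⟪r a, x⟫) := fun a =>
      mul_nonneg (hc0 a) (mul_self_nonneg _)
    rw [hqa]
    refine lt_of_le_of_ne (Finset.sum_nonneg fun a _ => h0 a) fun h => hdet.ne' ?_
    have hz := (Finset.sum_eq_zero_iff_of_nonneg fun a _ => h0 a).1 h.symm
    refine Matrix.exists_mulVec_eq_zero_iff.1 ⟨fun i => x i, fun e => hx ?_, ?_⟩
    · ext i; exact congrFun e i
    · rw [hC, Matrix.sum_mulVec]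
      refine Finset.sum_eq_zero fun a ha => funext fun i => ?_
      have hxa : ⟪r a, x⟫ = ∑ j, r a j * x j := by
        rw [PiLp.inner_apply]; simp [mul_comm]
      rcases mul_eq_zero.1 (hz a ha) with h | h
      · simp [h]
      · rw [mul_self_eq_zero, hxa] at h
        rw [Matrix.smul_mulVec, Pi.smul_apply, Matrix.mulVec, dotProduct]
        simp only [Matrix.vecMulVec_apply, mul_assoc, ← Finset.mul_sum, h, mul_zero, smul_zero,
          Pi.zero_apply]
  obtain ⟨T, hT⟩ := exists_frame q hqs hqp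
  set O : Matrix (Fin n) (Fin n) ℝ :=
    Matrix.of fun k i => T (EuclideanSpace.basisFun (Fin n) ℝ i) k with hO
  have hOr : ∀ r : Euc n, (fun i => ∑ k, O k i * r k) =
      fun i => ⟪r, T (EuclideanSpace.basisFun (Fin n) ℝ i)⟫ := fun r => by
    funext i
    rw [PiLp.inner_apply]
    simp [hO, mul_comm]
  have hOC : O.transpose * Matrix.of C₀ * O = 1 := by
    rw [hC, Matrix.mul_sum, Matrix.sum_mul]
    ext i j
    simp only [Matrix.mul_smul, Matrix.smul_mul, transpose_vecMulVec_mul, hOr, Matrix.sum_apply,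
      Matrix.smul_apply, Matrix.vecMulVec_apply, smul_eq_mul]
    rw [← hqa, hT, orthonormal_iff_ite.1 (EuclideanSpace.basisFun (Fin n) ℝ).orthonormal, Matrix.one_apply]
  -- in the new coordinates the polar lies in the ball of radius `√n`
  set T' := ContinuousLinearMap.adjoint (T : Euc n →L[ℝ] Euc n) with hT'
  have trace : ∀ s₀ ∈ K₀, ‖T' s₀‖ ^ 2 ≤ n := by
    intro s₀ hs₀K
    set s := T' s₀ with hs
    have hs₀T : ∀ x, ⟪s₀, T x⟫ = ⟪s, x⟫ := fun x => by
      rw [hs, hT', ContinuousLinearMap.adjoint_inner_left]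
      simp
    rw [show ‖s‖ ^ 2 = ∑ i, s i ^ 2 by rw [EuclideanSpace.norm_sq_eq]; simp]
    refine le_of_det_update hn (Finset.sum_nonneg fun i _ => sq_nonneg _) fun t ht0 ht1 => ?_
    rw [← det_update_one (fun i => s i) ht1]
    have hin : (1 - t) • C₀ + t • rk s₀ ∈ P :=
      convex_convexHull ℝ _ hC₀ (subset_convexHull ℝ _ (Set.mem_image_of_mem rk hs₀K))
        (by linarith) ht0.le (by ring)
    have h1 : (Matrix.of ((1 - t) • C₀ + t • rk s₀)).det ≤ (Matrix.of C₀).det := hmax hin
    have h2 : O.det * O.det * (Matrix.of C₀).det = 1 := by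
      have := congrArg Matrix.det hOC
      rw [Matrix.det_mul, Matrix.det_mul, Matrix.det_transpose, Matrix.det_one] at this
      linarith
    have h3 : O.transpose * Matrix.of ((1 - t) • C₀ + t • rk s₀) * O =
        (1 - t) • (1 : Matrix (Fin n) (Fin n) ℝ) +
          t • Matrix.vecMulVec (fun i => s i) (fun i => s i) := by
      rw [show Matrix.of ((1 - t) • C₀ + t • rk s₀) =
        (1 - t) • Matrix.of C₀ + t • Matrix.vecMulVec (s₀ : Fin n → ℝ) s₀ from rfl,
        Matrix.mul_add, Matrix.add_mul, Matrix.mul_smul, Matrix.smul_mul, hOC, Matrix.mul_smul,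
        Matrix.smul_mul, transpose_vecMulVec_mul, hOr]
      congr 3 <;>
      · funext i
        rw [hs₀T, real_inner_comm, EuclideanSpace.basisFun_inner]
    have h4 := congrArg Matrix.det h3
    rw [Matrix.det_mul, Matrix.det_mul, Matrix.det_transpose] at h4
    rw [← h4]
    nlinarith [mul_le_mul_of_nonneg_left h1 (mul_self_nonneg O.det)]
  have res : ∀ x y, ∑ a, c a * (⟪T' (r a), x⟫ * ⟪T' (r a), y⟫) = ⟪x, y⟫ := fun x y => by
    rw [← hT x y, hqa]
    simp only [hT', ContinuousLinearMap.adjoint_inner_left, ContinuousLinearEquiv.coe_coe]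
  have htot : ∑ a, c a * ‖T' (r a)‖ ^ 2 = n := by
    have hn2 : ∀ v : Euc n, ‖v‖ ^ 2 = ∑ i, ⟪v, EuclideanSpace.basisFun (Fin n) ℝ i⟫ *
        ⟪v, EuclideanSpace.basisFun (Fin n) ℝ i⟫ := fun v => by
      rw [← (EuclideanSpace.basisFun (Fin n) ℝ).sum_sq_norm_inner_left v]
      exact Finset.sum_congr rfl fun i _ => by rw [Real.norm_eq_abs, sq_abs, sq]
    simp only [hn2, Finset.mul_sum]
    rw [Finset.sum_comm]
    simp only [res, real_inner_self_eq_norm_sq,
      (EuclideanSpace.basisFun (Fin n) ℝ).orthonormal.norm_eq_one]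
    simp
  have heq : ∀ a, c a ≠ 0 → ‖T' (r a)‖ ^ 2 = n := fun a ha => by
    have h : ∀ b ∈ Finset.univ, c b * ‖T' (r b)‖ ^ 2 ≤ c b * n := fun b _ =>
      mul_le_mul_of_nonneg_left (trace _ (hr b)) (hc0 b)
    have e := (Finset.sum_eq_sum_iff_of_le h).1 (by rw [htot, ← Finset.sum_mul, hc1, one_mul]) a
      (Finset.mem_univ a)
    exact mul_left_cancel₀ ha e
  obtain ⟨a₀, -, ha₀⟩ := Finset.exists_ne_zero_of_sum_ne_zero (s := Finset.univ) (f := c)
    (by rw [hc1]; exact one_ne_zero)
  have hsn : 0 < √(n : ℝ) := Real.sqrt_pos.2 (by exact_mod_cast hn)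
  have hss : √(n : ℝ) * √(n : ℝ) = n := Real.mul_self_sqrt (by positivity)
  set v : ι → Euc n := fun a => (√(n : ℝ))⁻¹ • T' (r (if c a = 0 then a₀ else a)) with hv
  set S : Euc n ≃L[ℝ] Euc n := T.symm.trans
    (ContinuousLinearEquiv.smulLeft (Units.mk0 (√(n : ℝ)) hsn.ne')) with hS
  have hSapp : ∀ z, S z = √(n : ℝ) • T.symm z := fun z => rfl
  let e := Fintype.equivFin ι
  refine ⟨S, Fintype.card ι, fun i => n * c (e.symm i), fun i => v (e.symm i),
    fun i => mul_nonneg n.cast_nonneg (hc0 _), fun i => ?_, ?_, fun x => ?_, fun x hx => ?_,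
    fun i => ?_⟩
  · have h : ∀ a, c a ≠ 0 → ‖(√(n : ℝ))⁻¹ • T' (r a)‖ = 1 := fun a ha => by
      rw [norm_smul, norm_inv, Real.norm_of_nonneg hsn.le, ← Real.sqrt_sq (norm_nonneg _), heq a ha,
        inv_mul_cancel₀ hsn.ne']
    simp only [hv]
    split_ifs with h1
    · exact h a₀ ha₀
    · exact h _ h1
  · rw [e.symm.sum_comp fun a => (n : ℝ) * c a, ← Finset.mul_sum, hc1, mul_one]
  · refine ext_inner_right ℝ fun y => ?_
    rw [e.symm.sum_comp fun a => ((n : ℝ) * c a * ⟪v a, x⟫) • v a, sum_inner, ← res x y]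
    refine Finset.sum_congr rfl fun a _ => ?_
    simp only [hv]
    split_ifs with h1
    · simp [h1]
    · simp only [real_inner_smul_left]
      field_simp
      rw [Real.sq_sqrt n.cast_nonneg]
  · rw [mem_closedBall_zero_iff] at hx
    refine ⟨(√(n : ℝ))⁻¹ • T x, ?_, by
      rw [hSapp, map_smul, T.symm_apply_apply, smul_smul, mul_inv_cancel₀ hsn.ne', one_smul]⟩
    by_contra hnot
    obtain ⟨f, b, hb, hb'⟩ := geometric_hahn_banach_closed_point hK cK.isClosed hnot
    have hb0 : 0 < b := by simpa using hb 0 (interior_subset h0)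
    set s₀ := b⁻¹ • (InnerProductSpace.toDual ℝ (Euc n)).symm f with hs₀
    have hval : ∀ z, ⟪s₀, z⟫ = b⁻¹ * f z := fun z => by
      rw [hs₀, real_inner_smul_left, InnerProductSpace.toDual_symm_apply]
    have hK0 : s₀ ∈ K₀ := fun z hz => by
      rw [hval, inv_mul_le_iff₀ hb0, mul_one]; exact (hb z hz).le
    have h1 : 1 < ⟪s₀, (√(n : ℝ))⁻¹ • T x⟫ := by
      rw [hval, lt_inv_mul_iff₀ hb0, mul_one]; exact hb'
    have h2 : ⟪s₀, T x⟫ ≤ √(n : ℝ) := by
      have e : ⟪T' s₀, x⟫ = ⟪s₀, T x⟫ := by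
        rw [hT', ContinuousLinearMap.adjoint_inner_left]; simp
      rw [← e]
      refine (real_inner_le_norm _ _).trans ?_
      refine (mul_le_of_le_one_right (norm_nonneg _) hx).trans ?_
      exact (Real.le_sqrt (norm_nonneg _) n.cast_nonneg).2 (trace s₀ hK0)
    rw [real_inner_smul_right, lt_inv_mul_iff₀ hsn, mul_one] at h1
    linarith
  · rintro _ ⟨z, hz, rfl⟩
    simp only [hv]
    rw [hSapp, real_inner_smul_left, real_inner_smul_right, ← mul_assoc, inv_mul_cancel₀ hsn.ne',
      one_mul, hT', ContinuousLinearMap.adjoint_inner_left]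
    simp only [ContinuousLinearEquiv.coe_coe, T.apply_symm_apply]
    have h2 := hr (if c (e.symm i) = 0 then a₀ else e.symm i) (-z) (hsym z hz)
    rw [inner_neg_right] at h2
    exact abs_le.2 ⟨by linarith, hr _ z hz⟩

/-- The contact directions share out the second moment. -/
theorem sum_contact_moment {n N : ℕ} (c : Fin N → ℝ) (u : Fin N → Euc n)
    (hres : ∀ x, ∑ i, (c i * ⟪u i, x⟫) • u i = x) {L : Set (Euc n)} (cL : IsCompact L) :
    ∑ i, c i * ∫ x in L, ⟪u i, x⟫ ^ 2 = ∫ x in L, ‖x‖ ^ 2 := by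
  have hi : ∀ i, IntegrableOn (fun x : Euc n => ⟪u i, x⟫ ^ 2) L := fun i =>
    ((continuous_const.inner continuous_id).pow 2).continuousOn.integrableOn_compact cL
  simp only [← integral_const_mul]
  rw [← integral_finsetSum _ fun i _ => (hi i).const_mul (c i)]
  refine integral_congr_ae (Filter.Eventually.of_forall fun x => ?_)
  dsimp only
  rw [← real_inner_self_eq_norm_sq, ← congrArg (fun y => ⟪y, x⟫) (hres x), sum_inner]
  exact Finset.sum_congr rfl fun i _ => by rw [real_inner_smul_left]; ring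

/-- The bathtub bound: compared with a ball, a set has at least as large a second moment. -/
theorem second_moment_ge_ball {E : Type*} [NormedAddCommGroup E] [InnerProductSpace ℝ E]
    [FiniteDimensional ℝ E] [MeasureSpace E] [BorelSpace E]
    [Measure.IsAddHaarMeasure (volume : Measure E)] {L : Set E} (cL : IsCompact L) {R : ℝ} (hR : 0 ≤ R) :
    (∫ x in Metric.closedBall (0 : E) R, ‖x‖ ^ 2) +
        R ^ 2 * ((volume L).toReal - (volume (Metric.closedBall (0 : E) R)).toReal) ≤
      ∫ x in L, ‖x‖ ^ 2 := by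
  set B := Metric.closedBall (0 : E) R
  have cB : IsCompact B := isCompact_closedBall _ _
  have hg : Continuous fun x : E => ‖x‖ ^ 2 - R ^ 2 := by fun_prop
  have hint : ∀ {S : Set E}, IsCompact S → IntegrableOn (fun x => ‖x‖ ^ 2 - R ^ 2) S :=
    fun h => hg.continuousOn.integrableOn_compact h
  have e : ∀ {S : Set E}, IsCompact S →
      ∫ x in S, (‖x‖ ^ 2 - R ^ 2) = (∫ x in S, ‖x‖ ^ 2) - (volume S).toReal * R ^ 2 := by
    intro S hS
    rw [integral_sub ((by fun_prop : Continuous fun x : E => ‖x‖ ^ 2).continuousOn.integrableOn_compact hS)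
      (integrableOn_const hS.measure_lt_top.ne), setIntegral_const, smul_eq_mul, measureReal_def]
  have key : ∫ x in B, (‖x‖ ^ 2 - R ^ 2) ≤ ∫ x in L, (‖x‖ ^ 2 - R ^ 2) := by
    rw [← integral_indicator cB.measurableSet, ← integral_indicator cL.measurableSet]
    refine integral_mono ((integrable_indicator_iff cB.measurableSet).2 (hint cB))
      ((integrable_indicator_iff cL.measurableSet).2 (hint cL)) fun x => ?_
    by_cases hxB : x ∈ B <;> by_cases hxL : x ∈ L <;>
      simp only [Set.indicator_of_mem, Set.indicator_of_notMem, hxB, hxL, not_false_eq_true, le_refl]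
    · have h : ‖x‖ ≤ R := mem_closedBall_zero_iff.1 hxB
      have := pow_le_pow_left₀ (norm_nonneg x) h 2
      linarith
    · have h : R ≤ ‖x‖ := le_of_not_ge fun h => hxB (mem_closedBall_zero_iff.2 h)
      have := pow_le_pow_left₀ hR h 2
      linarith
  rw [e cB, e cL] at key
  linarith

/-- The second moment of a ball. -/
theorem second_moment_ball {E : Type*} [NormedAddCommGroup E] [InnerProductSpace ℝ E]
    [FiniteDimensional ℝ E] [MeasureSpace E] [BorelSpace E] [Nontrivial E]
    [Measure.IsAddHaarMeasure (volume : Measure E)] {R : ℝ} (hR : 0 ≤ R) :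
    ∫ x in Metric.closedBall (0 : E) R, ‖x‖ ^ 2 =
      Module.finrank ℝ E / (Module.finrank ℝ E + 2) * R ^ 2 *
        (volume (Metric.closedBall (0 : E) R)).toReal := by
  set d := Module.finrank ℝ E with hd
  have hd1 : 1 ≤ d := Module.finrank_pos
  have h1 : (fun x : E => (Metric.closedBall (0 : E) R).indicator (fun x => ‖x‖ ^ 2) x) =
      fun x => (Set.Iic R).indicator (fun r : ℝ => r ^ 2) ‖x‖ := by
    funext x
    simp only [Set.indicator, mem_closedBall_zero_iff, Set.mem_Iic]
  rw [← integral_indicator measurableSet_closedBall, h1,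
    integral_fun_norm_addHaar volume fun r : ℝ => (Set.Iic R).indicator (fun r => r ^ 2) r,
    Measure.addHaar_closedBall volume 0 hR, ENNReal.toReal_mul, ENNReal.toReal_ofReal (by positivity),
    measureReal_def, smul_eq_mul, nsmul_eq_mul]
  have h2 : ∫ y in Set.Ioi (0 : ℝ), y ^ (d - 1) • (Set.Iic R).indicator (fun r => r ^ 2) y =
      R ^ (d + 2) / (d + 2) := by
    have h3 : ∀ y : ℝ, y ^ (d - 1) • (Set.Iic R).indicator (fun r => r ^ 2) y =
        (Set.Iic R).indicator (fun r => r ^ (d + 1)) y := by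
      intro y
      rw [show d + 1 = d - 1 + 2 by omega, smul_eq_mul]
      by_cases hy : y ∈ Set.Iic R <;> simp [hy, pow_add]
    simp only [h3]
    rw [setIntegral_indicator measurableSet_Iic, Set.Ioi_inter_Iic,
      ← intervalIntegral.integral_of_le hR, integral_pow]
    simp
    ring
  rw [h2]
  field_simp
  ring

/-- Among sets of a given volume the ball has the least second moment. -/
theorem second_moment_ge {E : Type*} [NormedAddCommGroup E] [InnerProductSpace ℝ E]
    [FiniteDimensional ℝ E] [MeasureSpace E] [BorelSpace E] [Nontrivial E]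
    [Measure.IsAddHaarMeasure (volume : Measure E)] {L : Set E} (cL : IsCompact L) {R : ℝ}
    (hR : 0 ≤ R) (hV : volume L = volume (Metric.closedBall (0 : E) R)) :
    Module.finrank ℝ E / (Module.finrank ℝ E + 2) * R ^ 2 * (volume L).toReal ≤
      ∫ x in L, ‖x‖ ^ 2 := by
  have h := second_moment_ge_ball cL hR
  rw [second_moment_ball hR, hV, sub_self, mul_zero, add_zero] at h
  rwa [hV]

end Vale.Agent.P237.Full
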