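import Mathlib
import Vale.Agent.P237.Full.Profile
import Vale.Agent.P237.Three.Core

/-!
The contact bound in dimension three.
-/

namespace Vale.Agent.P237.Full

/-- In John position in `ℝ³` some contact direction has the section integral of the ball, strictly
more unless the body is the ball. -/
theorem contactBound_three : ContactBound 3 := fun _ _ _ _ h =>
  Three.contact_of_profiles h fun i => exists_profile (by norm_num) h i

end Vale.Agent.P237.Full
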