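import Vale.Agent.P237.Full.John
import Vale.Agent.P237.Full.Defs

/-!
P237: the second moment of a body against its sections orthogonal to a direction (comparison with
the Schwarz symmetral), and the resulting datum at some John contact.
-/

namespace Vale.Agent.P237.Full

open Vale.Agent.P084 MeasureTheory Module
open scoped RealInnerProductSpace

theorem exists_split_axis {n : ℕ} {u : Euc n} (hu : ‖u‖ = 1) :
    ∃ e : ℝ × (ℝ ∙ u)ᗮ ≃ᵐ Euc n, MeasurePreserving e volume volume ∧ Continuous e.symm ∧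
      ∀ p : ℝ × (ℝ ∙ u)ᗮ, e p = (p.2 : Euc n) + p.1 • u := by
  set W := (ℝ ∙ u)ᗮ with hW
  set Ψ : WithLp 2 (ℝ × W) ≃ₗᵢ[ℝ] Euc n :=
    (LinearIsometryEquiv.withLpProdCongr 2 (LinearIsometryEquiv.toSpanUnitSingleton u hu)
      (LinearIsometryEquiv.refl ℝ W)).trans (ℝ ∙ u).orthogonalDecomposition.symm with hΨ
  set e : ℝ × W ≃ᵐ Euc n :=
    (MeasurableEquiv.toLp 2 (ℝ × W)).trans Ψ.toHomeomorph.toMeasurableEquiv
  have he : MeasurePreserving e volume volume :=
    (LinearIsometryEquiv.measurePreserving Ψ).comp (WithLp.volume_preserving_toLp ℝ W)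
  have happ : ∀ p : ℝ × W, e p = p.1 • u + (p.2 : Euc n) := by
    intro p
    simp [e, hΨ, LinearIsometryEquiv.withLpProdCongr]
    rfl
  exact ⟨e, he, (WithLp.prod_continuous_ofLp 2 ℝ W).comp Ψ.symm.continuous,
    fun p => by rw [happ, add_comm]⟩

/-- Integrals of functions of the axial coordinate, by sections. -/
theorem integral_sect_mul {n : ℕ} {K : Set (Euc n)} (hK : IsBody K) {u : Euc n} (hu : ‖u‖ = 1)
    {g : ℝ → ℝ} (hg : Continuous g) :
    ∫ t, g t * sect K u t = ∫ x in K, g ⟪u, x⟫ := by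
  obtain ⟨e, he, hec, happ⟩ := exists_split_axis hu
  have cK' : IsCompact (e ⁻¹' K) := by
    rw [show e ⁻¹' K = e.symm '' K from (e.image_symm K).symm]
    exact hK.2.1.image hec
  have hax : ∀ p : ℝ × (ℝ ∙ u)ᗮ, ⟪u, e p⟫ = p.1 := fun p => by
    rw [happ, inner_add_right, real_inner_smul_right, real_inner_self_eq_norm_sq, hu,
      Submodule.mem_orthogonal_singleton_iff_inner_right.1 p.2.2]
    ring
  rw [← he.setIntegral_preimage_emb e.measurableEmbedding (fun x => g ⟪u, x⟫) K]
  simp only [hax]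
  have hi : Integrable ((e ⁻¹' K).indicator fun p : ℝ × (ℝ ∙ u)ᗮ => g p.1)
      ((volume : Measure ℝ).prod (volume : Measure (ℝ ∙ u)ᗮ)) :=
    (integrable_indicator_iff cK'.measurableSet).2
      ((by fun_prop : Continuous fun p : ℝ × (ℝ ∙ u)ᗮ => g p.1).continuousOn.integrableOn_compact cK')
  rw [← integral_indicator cK'.measurableSet, Measure.volume_eq_prod, integral_prod _ hi]
  refine integral_congr_ae (Filter.Eventually.of_forall fun t => ?_)
  have hset : {y : (ℝ ∙ u)ᗮ | (y : Euc n) + t • u ∈ K} = Prod.mk t ⁻¹' (e ⁻¹' K) := by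
    ext y; simp [happ]
  dsimp only
  rw [sect, hset, show (fun y => (e ⁻¹' K).indicator (fun p : ℝ × (ℝ ∙ u)ᗮ => g p.1) (t, y)) =
    (Prod.mk t ⁻¹' (e ⁻¹' K)).indicator (fun _ => g t) from funext fun y => by
      by_cases hy : (t, y) ∈ e ⁻¹' K <;> simp [Set.indicator, hy],
    integral_indicator_const _ (cK'.measurableSet.preimage measurable_prodMk_left), smul_eq_mul,
    measureReal_def, mul_comm]

/-- The second moment is at least the axial one plus those of discs with the areas of the sections. -/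
theorem second_moment_slices {n : ℕ} (hn : 2 ≤ n) {L : Set (Euc n)} (cL : IsCompact L) {u : Euc n}
    (hu : ‖u‖ = 1) :
    (∫ x in L, ⟪u, x⟫ ^ 2) +
      ((n - 1 : ℕ) : ℝ) / (((n - 1 : ℕ) : ℝ) + 2) *
        ∫ t : ℝ, sect L u t *
          (sect L u t / kappa (n - 1)) ^
            ((2 : ℝ) / ((n - 1 : ℕ) : ℝ)) ≤
      ∫ x in L, ‖x‖ ^ 2 := by
  set m := n - 1 with hm
  have hu0 : u ≠ 0 := fun h => by simp [h] at hu
  set W := (ℝ ∙ u)ᗮ with hW
  have hdim : finrank ℝ W = m := by
    have h1 := Submodule.finrank_add_finrank_orthogonal (ℝ ∙ u)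
    rw [finrank_span_singleton hu0, finrank_euclideanSpace_fin, ← hW] at h1
    omega
  have : Nontrivial W := Module.nontrivial_of_finrank_pos (R := ℝ) (by omega)
  obtain ⟨e, he, hec, happ⟩ := exists_split_axis hu
  have horth : ∀ y : W, ⟪u, (y : Euc n)⟫ = 0 := fun y =>
    Submodule.mem_orthogonal_singleton_iff_inner_right.1 y.2
  have hax : ∀ p : ℝ × W, ⟪u, e p⟫ = p.1 := fun p => by
    rw [happ, inner_add_right, real_inner_smul_right, real_inner_self_eq_norm_sq, hu, horth]
    ring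
  have hsq : ∀ p : ℝ × W, ‖e p‖ ^ 2 = p.1 ^ 2 + ‖p.2‖ ^ 2 := fun p => by
    rw [happ, norm_add_sq_real, real_inner_smul_right, real_inner_comm, horth, norm_smul, hu, mul_one,
      Real.norm_eq_abs, sq_abs, Submodule.coe_norm]
    ring
  have cL' : IsCompact (e ⁻¹' L) := by
    have hc : Continuous e.symm := hec
    rw [show e ⁻¹' L = e.symm '' L from (e.image_symm L).symm]
    exact cL.image hc
  have i1 : IntegrableOn (fun p : ℝ × W => p.1 ^ 2) (e ⁻¹' L) :=
    (by fun_prop : Continuous fun p : ℝ × W => p.1 ^ 2).continuousOn.integrableOn_compact cL'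
  have i2 : IntegrableOn (fun p : ℝ × W => ‖p.2‖ ^ 2) (e ⁻¹' L) :=
    (by fun_prop : Continuous fun p : ℝ × W => ‖p.2‖ ^ 2).continuousOn.integrableOn_compact cL'
  rw [← he.setIntegral_preimage_emb e.measurableEmbedding (fun x => ⟪u, x⟫ ^ 2) L,
    ← he.setIntegral_preimage_emb e.measurableEmbedding (fun x => ‖x‖ ^ 2) L]
  simp only [hax, hsq]
  rw [integral_add i1 i2]
  refine add_le_add le_rfl ?_
  have hLm : MeasurableSet (e ⁻¹' L) := cL'.measurableSet
  have hint : Integrable ((e ⁻¹' L).indicator fun p : ℝ × W => ‖p.2‖ ^ 2)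
      ((volume : Measure ℝ).prod (volume : Measure W)) :=
    (integrable_indicator_iff hLm).2 i2
  rw [← integral_indicator hLm, Measure.volume_eq_prod, integral_prod _ hint, ← integral_const_mul]
  have hS : ∀ t : ℝ, {y : W | (y : Euc n) + t • u ∈ L} = Prod.mk t ⁻¹' (e ⁻¹' L) := fun t => by
    ext y; simp [happ]
  simp only [sect]
  refine integral_mono_of_nonneg (Filter.Eventually.of_forall fun t => ?_) hint.integral_prod_left
    (Filter.Eventually.of_forall fun t => ?_)
  · exact mul_nonneg (by positivity) (mul_nonneg ENNReal.toReal_nonneg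
      (Real.rpow_nonneg (div_nonneg ENNReal.toReal_nonneg (kappa_pos m).le) _))
  set S := {y : W | (y : Euc n) + t • u ∈ L} with hSdef
  have cS : IsCompact S := by
    refine (cL'.image continuous_snd).of_isClosed_subset
      (cL.isClosed.preimage (by fun_prop)) fun y hy => ⟨(t, y), ?_, rfl⟩
    rw [Set.mem_preimage, happ]; exact hy
  set A := (volume S).toReal with hA
  have hm0 : (0 : ℝ) < m := by exact_mod_cast (show 0 < m by omega)
  have hq0 : 0 ≤ A / kappa m := div_nonneg ENNReal.toReal_nonneg (kappa_pos m).le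
  have hball : volume S = volume (Metric.closedBall (0 : W) ((A / kappa m) ^ (m : ℝ)⁻¹)) := by
    rw [InnerProductSpace.volume_closedBall, hdim, ← ENNReal.ofReal_pow (Real.rpow_nonneg hq0 _),
      Real.rpow_inv_natCast_pow hq0 (by omega), show √Real.pi ^ m / Real.Gamma ((m : ℝ) / 2 + 1) = kappa m from rfl,
      ← ENNReal.ofReal_mul hq0, div_mul_cancel₀ _ (kappa_pos m).ne', hA,
      ENNReal.ofReal_toReal cS.measure_lt_top.ne]
  refine le_of_le_of_eq (le_of_eq_of_le ?_ (second_moment_ge cS (Real.rpow_nonneg hq0 _) hball)) ?_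
  · rw [hdim, ← hA, ← Real.rpow_natCast ((A / kappa m) ^ (m : ℝ)⁻¹) 2, ← Real.rpow_mul hq0,
      show (m : ℝ)⁻¹ * ((2 : ℕ) : ℝ) = 2 / m by rw [inv_mul_eq_div]; norm_num]
    ring
  · rw [← integral_indicator cS.measurableSet]
    refine integral_congr_ae (Filter.Eventually.of_forall fun y => ?_)
    dsimp only
    by_cases hy : (y : Euc n) + t • u ∈ L
    · rw [Set.indicator_of_mem (show y ∈ S from hy), Set.indicator_of_mem (show (t, y) ∈ e ⁻¹' L by
        rw [Set.mem_preimage, happ]; exact hy)]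
    · rw [Set.indicator_of_notMem (show y ∉ S from hy), Set.indicator_of_notMem (show (t, y) ∉ e ⁻¹' L by
        rw [Set.mem_preimage, happ]; exact hy)]

/-- Some contact direction carries at least its share of the second moment. -/
theorem exists_contact_datum {n : ℕ} (hn : 2 ≤ n) {N : ℕ} (c : Fin N → ℝ) (u : Fin N → Euc n)
    (hc : ∀ i, 0 ≤ c i) (hu : ∀ i, ‖u i‖ = 1) (hsum : ∑ i, c i = n)
    (hres : ∀ x, ∑ i, (c i * ⟪u i, x⟫) • u i = x) {L : Set (Euc n)} (cL : IsCompact L) :
    ∃ i, (1 : ℝ) / (((n - 1 : ℕ) : ℝ) + 2) *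
        (∫ t : ℝ, sect L (u i) t *
          (sect L (u i) t / kappa (n - 1)) ^
            ((2 : ℝ) / ((n - 1 : ℕ) : ℝ))) ≤ ∫ x in L, ⟪u i, x⟫ ^ 2 := by
  have hn0 : (0 : ℝ) < n := by exact_mod_cast (show 0 < n by omega)
  set M := fun i => ∫ x in L, ⟪u i, x⟫ ^ 2
  set X := ∫ x in L, ‖x‖ ^ 2
  obtain ⟨i, hi⟩ : ∃ i, X ≤ n * M i := by
    by_contra h
    push Not at h
    have h0 : ∀ i, c i * (n * M i) ≤ c i * X := fun i => mul_le_mul_of_nonneg_left (h i).le (hc i)
    obtain ⟨j, hj⟩ : ∃ j, 0 < c j := by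
      by_contra hz
      push Not at hz
      linarith [Finset.sum_nonpos (s := Finset.univ) fun i _ => hz i]
    have := Finset.sum_lt_sum (s := Finset.univ) (fun i _ => h0 i)
      ⟨j, Finset.mem_univ j, mul_lt_mul_of_pos_left (h j) hj⟩
    simp only [← mul_assoc, mul_comm (c _) (n : ℝ)] at this
    simp only [mul_assoc, ← Finset.mul_sum, ← Finset.sum_mul, hsum, sum_contact_moment c u hres cL, M] at this
    linarith
  refine ⟨i, ?_⟩
  have h := second_moment_slices hn cL (hu i)
  have hcast : ((n - 1 : ℕ) : ℝ) = n - 1 := by rw [Nat.cast_sub (by omega)]; simp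
  simp only [hcast] at h ⊢
  set J := ∫ t : ℝ, sect L (u i) t *
    (sect L (u i) t / kappa (n - 1)) ^
      ((2 : ℝ) / ((n : ℝ) - 1))
  have hn1 : (0 : ℝ) < n - 1 := by
    have : (2 : ℝ) ≤ n := by exact_mod_cast hn
    linarith
  have h2 : ((n : ℝ) - 1) / ((n : ℝ) - 1 + 2) * J ≤ ((n : ℝ) - 1) * M i := by linarith
  rw [div_mul_eq_mul_div, mul_div_assoc, mul_le_mul_iff_right₀ hn1] at h2
  rwa [one_div, inv_mul_eq_div]

end Vale.Agent.P237.Full
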