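import Vale.Agent.P237.Full.Slabs
import Vale.Agent.P237.Facets.Zonotope

/-!
Equality in the midpoint Brunn–Minkowski inequality for convex bodies of equal volume forces
translates.
-/

namespace Vale.Agent.P237.Full.BM

open MeasureTheory Set Matrix
open scoped ENNReal Pointwise

variable {m : ℕ} {K L M : Set (Fin (m + 1) → ℝ)} {x₀ x₁ y₀ y₁ : ℝ}

theorem cum_mono (hK : IsCompact K) {c d : ℝ} (h : c ≤ d) : cum K c ≤ cum K d := by
  have := toReal_slab hK h
  linarith [ENNReal.toReal_nonneg (a := volume (K ∩ (fun p => p 0) ⁻¹' Icc c d))]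

theorem Span.cum_mem (hKc : Convex ℝ K) (hK : IsCompact K) (h : Span K x₀ x₁) (hV : 0 < volume K)
    {c : ℝ} (hc : c ∈ Ioo x₀ x₁) : 0 < cum K c ∧ cum K c < (volume K).toReal := by
  rw [← h.cum_left hK le_rfl, ← h.cum_right le_rfl]
  exact ⟨h.cum_lt hKc hK hV le_rfl hc.2.le hc.1, h.cum_lt hKc hK hV hc.1.le le_rfl hc.2⟩

theorem Span.cum_inj (hKc : Convex ℝ K) (hK : IsCompact K) (h : Span K x₀ x₁) (hV : 0 < volume K)
    {c d : ℝ} (hc : c ∈ Icc x₀ x₁) (hd : d ∈ Icc x₀ x₁) (e : cum K c = cum K d) : c = d := by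
  rcases lt_trichotomy c d with hlt | he | hgt
  · exact absurd e (h.cum_lt hKc hK hV hc.1 hd.2 hlt).ne
  · exact he
  · exact absurd e (h.cum_lt hKc hK hV hd.1 hc.2 hgt).ne'

/-- Between equal values of `cum` the range of `L` is at least as long as that of `K`. -/
theorem Tight.stretch (h : Tight K L M) (sK : Span K x₀ x₁) (sL : Span L y₀ y₁) {c d c' d' : ℝ}
    (hc : c ∈ Ioo x₀ x₁) (hd : d ∈ Ioo x₀ x₁) (hc' : c' ∈ Ioo y₀ y₁) (hd' : d' ∈ Ioo y₀ y₁)
    (ec : cum L c' = cum K c) (ed : cum L d' = cum K d) (hcd : c < d) : d - c ≤ d' - c' := by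
  have hsub : Icc c d ⊆ Ioo x₀ x₁ := fun x hx => ⟨hc.1.trans_le hx.1, hx.2.trans_lt hd.2⟩
  have hcont := (sK.continuousOn_marg h.convexK h.compactK).mono hsub
  obtain ⟨z, hz, hzmin⟩ := isCompact_Icc.exists_isMinOn (nonempty_Icc.mpr hcd.le) hcont
  have hμ := sK.marg_pos h.convexK h.compactK h.pos (hsub hz)
  refine le_of_forall_pos_le_add fun ε hε => ?_
  set η := ε / (d - c) with hη
  have hη0 : 0 < η := div_pos hε (by linarith)
  obtain ⟨δ, hδ, hunif⟩ := Metric.uniformContinuousOn_iff.mp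
    (isCompact_Icc.uniformContinuousOn_of_continuous hcont) (η * marg K z) (mul_pos hη0 hμ)
  obtain ⟨N, hN⟩ := exists_nat_gt ((d - c) / δ)
  have hN0 : (0 : ℝ) < N := lt_trans (div_pos (by linarith) hδ) hN
  set w := (d - c) / N with hw
  have hw0 : 0 < w := div_pos (by linarith) hN0
  have hwδ : w < δ := by rw [hw, div_lt_iff₀ hN0]; rw [div_lt_iff₀ hδ] at hN; linarith
  have hwN : (N : ℝ) * w = d - c := by rw [hw]; field_simp
  set x : ℕ → ℝ := fun j => c + j * w with hx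
  have hxI : ∀ j, j ≤ N → x j ∈ Icc c d := fun j hj => by
    have h1 : (j : ℝ) ≤ N := by exact_mod_cast hj
    have h2 := mul_le_mul_of_nonneg_right h1 hw0.le
    simp only [hx, mem_Icc]
    constructor <;> nlinarith [Nat.cast_nonneg (α := ℝ) j]
  have hq : ∀ j : ℕ, ∃ y, j ≤ N → y ∈ Ioo y₀ y₁ ∧ cum L y = cum K (x j) := by
    intro j
    by_cases hj : j ≤ N
    · obtain ⟨h0, h1⟩ := sK.cum_mem h.convexK h.compactK h.pos (hsub (hxI j hj))
      obtain ⟨y, hy, e⟩ := sL.exists_quantile h.compactL h0 (by rw [h.eqL]; exact h1)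
      exact ⟨y, fun _ => ⟨hy, e⟩⟩
    · exact ⟨0, fun hh => absurd hh hj⟩
  choose y hy using hq
  have hV' : 0 < volume L := h.eqL ▸ h.pos
  have hy0 : y 0 = c' := sL.cum_inj h.convexL h.compactL hV'
    (Ioo_subset_Icc_self (hy 0 (Nat.zero_le _)).1) (Ioo_subset_Icc_self hc')
    (by rw [(hy 0 (Nat.zero_le _)).2, ec]; simp [hx])
  have hyN : y N = d' := sL.cum_inj h.convexL h.compactL hV'
    (Ioo_subset_Icc_self (hy N le_rfl).1) (Ioo_subset_Icc_self hd')
    (by rw [(hy N le_rfl).2, ed]; simp only [hx]; rw [hwN]; ring_nf)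
  have step : ∀ j, j < N → (1 - η) * w ≤ y (j + 1) - y j := by
    intro j hj
    have hxx : x (j + 1) = x j + w := by simp only [hx]; push_cast; ring
    have hI := hxI j hj.le
    have hI1 := hxI (j + 1) hj
    obtain ⟨hyj, ej⟩ := hy j hj.le
    obtain ⟨hyj1, ej1⟩ := hy (j + 1) hj
    have hlt := sK.cum_lt h.convexK h.compactK h.pos (hsub hI).1.le (hsub hI1).2.le
      (by rw [hxx]; linarith : x j < x (j + 1))
    have hyy : y j < y (j + 1) := by
      by_contra hle
      have := cum_mono h.compactL (not_lt.mp hle)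
      linarith
    have hsubj : Icc (x j) (x (j + 1)) ⊆ Icc c d := Icc_subset_Icc hI.1 hI1.2
    obtain ⟨p, hp, hpmax⟩ := isCompact_Icc.exists_isMaxOn
      (nonempty_Icc.mpr (by rw [hxx]; linarith : x j ≤ x (j + 1))) (hcont.mono hsubj)
    obtain ⟨q, hq, hqmax⟩ := isCompact_Icc.exists_isMaxOn (nonempty_Icc.mpr hyy.le)
      ((sL.continuousOn_marg h.convexL h.compactL).mono fun t ht =>
        ⟨hyj.1.trans_le ht.1, ht.2.trans_lt hyj1.2⟩)
    have heq := h.max_eq (by rw [hxx]; linarith : x j ≤ x (j + 1)) hyy.le ej ej1 hlt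
      (fun t ht => hpmax ht) ⟨p, hp, rfl⟩ (fun t ht => hqmax ht) ⟨q, hq, rfl⟩
    have hμp : marg K z ≤ marg K p := hzmin (hsubj hp)
    have hlow : ∀ t ∈ Icc (x j) (x (j + 1)), (1 - η) * marg K p ≤ marg K t := by
      intro t ht
      have hd1 := hunif p (hsubj hp) t (hsubj ht) (by
        rw [Real.dist_eq, abs_lt]
        constructor <;> linarith [hp.1, hp.2, ht.1, ht.2])
      rw [Real.dist_eq, abs_lt] at hd1
      nlinarith [mul_le_mul_of_nonneg_left hμp hη0.le]
    have h1 := slab_le_mul h.compactL hyy.le (A := marg K p) fun t ht => heq ▸ hqmax ht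
    rw [ej, ej1] at h1
    rcases le_or_gt (1 - η) 0 with hneg | hpos
    · nlinarith
    · have h2 := mul_le_slab h.compactK (by rw [hxx]; linarith : x j ≤ x (j + 1))
        (mul_nonneg hpos.le (marg_nonneg p)) hlow
      rw [show x (j + 1) - x j = w by rw [hxx]; ring] at h2
      refine le_of_mul_le_mul_left ?_ (hμ.trans_le hμp)
      calc marg K p * ((1 - η) * w) = (1 - η) * marg K p * w := by ring
        _ ≤ _ := h2.trans h1
  have hsum := Finset.sum_le_sum fun j (hj : j ∈ Finset.range N) =>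
    step j (Finset.mem_range.mp hj)
  rw [Finset.sum_range_sub y, Finset.sum_const, Finset.card_range, nsmul_eq_mul, hy0, hyN] at hsum
  have : η * (d - c) = ε := div_mul_cancel₀ ε (by linarith : (d - c) ≠ 0)
  nlinarith

/-- The marginals in the first coordinate are translates. -/
theorem Tight.exists_shift (h : Tight K L M) :
    ∃ b : ℝ, (∀ q ∈ L, ∃ p ∈ K, q 0 ≤ p 0 + b) ∧ (∀ p ∈ K, ∃ q ∈ L, p 0 + b ≤ q 0) ∧
      ∫ q in L, q 0 = (∫ p in K, p 0) + b * (volume K).toReal := by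
  have hneK : K.Nonempty := nonempty_of_measure_ne_zero h.pos.ne'
  have hneL : L.Nonempty := nonempty_of_measure_ne_zero (h.eqL ▸ h.pos.ne')
  obtain ⟨x₀, x₁, sK⟩ := exists_span h.compactK hneK
  obtain ⟨y₀, y₁, sL⟩ := exists_span h.compactL hneL
  have hV : 0 < (volume K).toReal := ENNReal.toReal_pos h.pos.ne' h.compactK.measure_ne_top
  have hqK : ∀ c ∈ Ioo x₀ x₁, ∃ c' ∈ Ioo y₀ y₁, cum L c' = cum K c := fun c hc => by
    obtain ⟨h0, h1⟩ := sK.cum_mem h.convexK h.compactK h.pos hc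
    exact sL.exists_quantile h.compactL h0 (by rw [h.eqL]; exact h1)
  have hqL : ∀ c' ∈ Ioo y₀ y₁, ∃ c ∈ Ioo x₀ x₁, cum L c' = cum K c := fun c' hc => by
    obtain ⟨h0, h1⟩ := sL.cum_mem h.convexL h.compactL (h.eqL ▸ h.pos) hc
    obtain ⟨c, hcI, e⟩ := sK.exists_quantile h.compactK h0 (by rw [h.eqL] at h1; exact h1)
    exact ⟨c, hcI, e.symm⟩
  obtain ⟨c₀, hc₀, e₀⟩ := sK.exists_quantile h.compactK (half_pos hV) (half_lt_self hV)
  obtain ⟨c₀', hc₀', e₀'⟩ := hqK c₀ hc₀
  have rigid : ∀ c ∈ Ioo x₀ x₁, ∀ c' ∈ Ioo y₀ y₁, cum L c' = cum K c → c' = c + (c₀' - c₀) := by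
    intro c hc c' hc' e
    rcases lt_trichotomy c c₀ with hlt | heq | hgt
    · have hlt' : c' < c₀' := by
        by_contra hle
        have := cum_mono h.compactL (not_lt.mp hle)
        linarith [sK.cum_lt h.convexK h.compactK h.pos hc.1.le hc₀.2.le hlt]
      have a := h.stretch sK sL hc hc₀ hc' hc₀' e e₀' hlt
      have b := h.swap.stretch sL sK hc' hc₀' hc hc₀ e.symm e₀'.symm hlt'
      linarith
    · subst heq
      linarith [sL.cum_inj h.convexL h.compactL (h.eqL ▸ h.pos) (Ioo_subset_Icc_self hc')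
        (Ioo_subset_Icc_self hc₀') (e.trans e₀'.symm)]
    · have hgt' : c₀' < c' := by
        by_contra hle
        have := cum_mono h.compactL (not_lt.mp hle)
        linarith [sK.cum_lt h.convexK h.compactK h.pos hc₀.1.le hc.2.le hgt]
      have a := h.stretch sK sL hc₀ hc hc₀' hc' e₀' e hgt
      have b := h.swap.stretch sL sK hc₀' hc' hc₀ hc e₀'.symm e.symm hgt'
      linarith
  set b := c₀' - c₀
  have f1 : ∀ c ∈ Ioo x₀ x₁, c + b ∈ Ioo y₀ y₁ ∧ cum L (c + b) = cum K c := fun c hc => by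
    obtain ⟨c', hc', e⟩ := hqK c hc
    rw [← rigid c hc c' hc' e]
    exact ⟨hc', e⟩
  have f2 : ∀ c' ∈ Ioo y₀ y₁, c' - b ∈ Ioo x₀ x₁ := fun c' hc' => by
    obtain ⟨c, hc, e⟩ := hqL c' hc'
    rw [rigid c hc c' hc' e, add_sub_cancel_right]
    exact hc
  have hx : x₀ < x₁ := hc₀.1.trans hc₀.2
  have hy : y₀ < y₁ := hc₀'.1.trans hc₀'.2
  have hends : y₀ = x₀ + b ∧ y₁ = x₁ + b := by
    have hIoo : Ioo (x₀ + b) (x₁ + b) = Ioo y₀ y₁ := by
      ext t
      refine ⟨fun ht => ?_, fun ht => ?_⟩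
      · simpa using (f1 (t - b) ⟨by linarith [ht.1], by linarith [ht.2]⟩).1
      · obtain ⟨ha, hb⟩ := f2 t ht
        exact ⟨by linarith, by linarith⟩
    have := congrArg sInf hIoo
    have h2 := congrArg sSup hIoo
    rw [csInf_Ioo (by linarith), csInf_Ioo hy] at this
    rw [csSup_Ioo (by linarith), csSup_Ioo hy] at h2
    exact ⟨this.symm, h2.symm⟩
  have hcum : ∀ t, cum L t = cum K (t - b) := by
    intro t
    rcases le_or_gt t y₀ with h1 | h1
    · rw [sL.cum_left h.compactL h1, sK.cum_left h.compactK (by linarith [hends.1])]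
    · rcases le_or_gt y₁ t with h2 | h2
      · rw [sL.cum_right h2, sK.cum_right (by linarith [hends.2]), h.eqL]
      · have := (f1 (t - b) (f2 t ⟨h1, h2⟩)).2
        rwa [sub_add_cancel] at this
  refine ⟨b, fun q hq => ?_, fun p hp => ?_, ?_⟩
  · obtain ⟨p, hp, e⟩ := sK.right
    exact ⟨p, hp, by rw [e, ← hends.2]; exact (sL.mem q hq).2⟩
  · obtain ⟨q, hq, e⟩ := sL.right
    exact ⟨q, hq, by rw [e, hends.2]; linarith [(sK.mem p hp).2]⟩
  have : IsFiniteMeasure (volume.restrict K) :=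
    ⟨by rw [Measure.restrict_apply_univ]; exact h.compactK.measure_lt_top⟩
  have : IsFiniteMeasure (volume.restrict L) :=
    ⟨by rw [Measure.restrict_apply_univ]; exact h.compactL.measure_lt_top⟩
  have hm0 : Measurable fun p : Fin (m + 1) → ℝ => p 0 := measurable_pi_apply 0
  have hm1 : Measurable fun p : Fin (m + 1) → ℝ => p 0 + b := hm0.add_const b
  have hmap : (volume.restrict L).map (fun q => q 0) =
      (volume.restrict K).map fun p => p 0 + b := by
    refine Measure.ext_of_Iic _ _ fun t => ?_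
    rw [Measure.map_apply hm0 measurableSet_Iic, Measure.map_apply hm1 measurableSet_Iic,
      Measure.restrict_apply (hm0 measurableSet_Iic),
      Measure.restrict_apply (hm1 measurableSet_Iic),
      inter_comm _ L, inter_comm _ K,
      show (fun p : Fin (m + 1) → ℝ => p 0 + b) ⁻¹' Iic t = (fun p => p 0) ⁻¹' Iic (t - b) by
        ext p; simp [le_sub_iff_add_le]]
    exact (ENNReal.toReal_eq_toReal_iff' (inter_ne_top h.compactL _)
      (inter_ne_top h.compactK _)).mp (hcum t)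
  have h1 := congrArg (fun μ => ∫ t, t ∂μ) hmap
  rw [integral_map hm0.aemeasurable (by fun_prop), integral_map hm1.aemeasurable (by fun_prop),
    integral_add ((continuous_apply 0).continuousOn.integrableOn_compact h.compactK)
      (integrable_const b), integral_const, smul_eq_mul, measureReal_restrict_apply_univ] at h1
  rw [h1, mul_comm b]; rfl

/-- Equality in the midpoint inequality forces translates. -/
theorem exists_translate {n : ℕ} (hn : 1 ≤ n) {K L M : Set (Fin n → ℝ)} (cK : IsCompact K)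
    (hK : Convex ℝ K) (cL : IsCompact L) (hL : Convex ℝ L) (cM : IsCompact M)
    (hM : ∀ x ∈ K, ∀ y ∈ L, (1 / 2 : ℝ) • (x + y) ∈ M) (hV : 0 < volume K)
    (eL : volume L = volume K) (eM : volume M = volume K) :
    ∃ a : Fin n → ℝ, ∀ x, x ∈ K ↔ x + a ∈ L := by
  obtain ⟨m, rfl⟩ := Nat.exists_eq_add_of_le' hn
  set V := (volume K).toReal with hVdef
  have hV0 : 0 < V := ENNReal.toReal_pos hV.ne' cK.measure_ne_top
  set a : Fin (m + 1) → ℝ := fun i => ((∫ q in L, q i) - ∫ p in K, p i) / V with ha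
  have hint : ∀ {S : Set (Fin (m + 1) → ℝ)}, IsCompact S → ∀ θ : Fin (m + 1) → ℝ,
      ∫ p in S, θ ⬝ᵥ p = ∑ i, θ i * ∫ p in S, p i := by
    intro S hS θ
    simp only [dotProduct]
    rw [integral_finsetSum _ fun i _ =>
      ((continuous_apply i).continuousOn.integrableOn_compact hS).const_mul (θ i)]
    simp only [integral_const_mul]
  -- every direction
  have dir : ∀ θ : Fin (m + 1) → ℝ, θ ≠ 0 →
      (∀ q ∈ L, ∃ p ∈ K, θ ⬝ᵥ q ≤ θ ⬝ᵥ p + θ ⬝ᵥ a) ∧
      ∀ p ∈ K, ∃ q ∈ L, θ ⬝ᵥ p + θ ⬝ᵥ a ≤ θ ⬝ᵥ q := by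
    intro θ hθ
    set r := √(θ ⬝ᵥ θ) with hr
    have hθθ : 0 ≤ θ ⬝ᵥ θ := Finset.sum_nonneg fun i _ => mul_self_nonneg _
    have hr0 : 0 < r := Real.sqrt_pos.mpr
      (lt_of_le_of_ne hθθ fun e => hθ (dotProduct_self_eq_zero.mp e.symm))
    obtain ⟨O, hOt, hOO, hOθ⟩ := Facets.exists_reflection θ (r := r) (Real.sq_sqrt hθθ)
    set P := Matrix.toLin' O with hP
    have hPP : ∀ x, P (P x) = x := fun x => by
      simp [hP, Matrix.toLin'_apply, Matrix.mulVec_mulVec, hOO]
    have hPc : Continuous P := P.continuous_of_finiteDimensional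
    have hdot : ∀ x, θ ⬝ᵥ P x = r * x 0 := fun x => by
      rw [hP, Matrix.toLin'_apply, Matrix.dotProduct_mulVec, ← Matrix.mulVec_transpose, hOt, hOθ]
      simp
    have hdot' : ∀ x, θ ⬝ᵥ x = r * P x 0 := fun x => by rw [← hdot, hPP]
    have hdet : |LinearMap.det P| = 1 := by
      have e := congrArg Matrix.det hOO
      rw [Matrix.det_mul, Matrix.det_one] at e
      rw [hP, LinearMap.det_toLin']
      nlinarith [abs_nonneg O.det, abs_mul_abs_self O.det]
    have hvol : ∀ S : Set (Fin (m + 1) → ℝ), volume (P '' S) = volume S := fun S => by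
      rw [Measure.addHaar_image_linearMap, hdet, ENNReal.ofReal_one, one_mul]
    have hpre : ∀ S : Set (Fin (m + 1) → ℝ), P '' S = P ⁻¹' S := fun S => by
      ext x
      exact ⟨fun ⟨y, hy, e⟩ => by simp [← e, hPP, hy], fun hx => ⟨P x, hx, hPP x⟩⟩
    have hmp : MeasurePreserving P volume volume :=
      ⟨hPc.measurable, Measure.ext fun S hS => by
        rw [Measure.map_apply hPc.measurable hS, ← hpre, hvol]⟩
    have hemb : MeasurableEmbedding P :=
      (Function.LeftInverse.injective (g := P) hPP) |> fun hi =>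
        hPc.measurableEmbedding hi
    have T : Tight (P '' K) (P '' L) (P '' M) :=
      ⟨cK.image hPc, hK.linear_image P, cL.image hPc, hL.linear_image P, cM.image hPc,
        fun x hx y hy => by
          obtain ⟨u, hu, rfl⟩ := hx
          obtain ⟨v, hv, rfl⟩ := hy
          exact ⟨_, hM u hu v hv, by rw [map_smul, map_add]⟩,
        by rwa [hvol], by rw [hvol, hvol, eL], by rw [hvol, hvol, eM]⟩
    obtain ⟨b, h1, h2, h3⟩ := T.exists_shift
    have himg : ∀ S : Set (Fin (m + 1) → ℝ), r * ∫ q in P '' S, q 0 = ∫ p in S, θ ⬝ᵥ p := by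
      intro S
      rw [← integral_const_mul, hpre]
      conv_lhs => arg 2; ext q; rw [← hdot q]
      exact hmp.setIntegral_preimage_emb hemb (fun p => θ ⬝ᵥ p) S
    have hb : r * b = θ ⬝ᵥ a := by
      have e := congrArg (fun t => r * t) h3
      simp only at e
      rw [mul_add, himg, himg, hint cL, hint cK, hvol, ← hVdef] at e
      have e2 : θ ⬝ᵥ a = ((∑ i, θ i * ∫ p in L, p i) - ∑ i, θ i * ∫ p in K, p i) / V := by
        simp only [ha, dotProduct, mul_div_assoc', mul_sub, ← Finset.sum_div,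
          Finset.sum_sub_distrib]
      rw [e2, e, eq_div_iff hV0.ne']
      ring
    constructor
    · intro q hq
      obtain ⟨_, ⟨p, hp, rfl⟩, hle⟩ := h1 _ ⟨q, hq, rfl⟩
      refine ⟨p, hp, ?_⟩
      rw [← hb, hdot', hdot', ← mul_add]
      exact mul_le_mul_of_nonneg_left hle hr0.le
    · intro p hp
      obtain ⟨_, ⟨q, hq, rfl⟩, hle⟩ := h2 _ ⟨p, hp, rfl⟩
      refine ⟨q, hq, ?_⟩
      rw [← hb, hdot', hdot', ← mul_add]
      exact mul_le_mul_of_nonneg_left hle hr0.le
  have sep : ∀ {S : Set (Fin (m + 1) → ℝ)}, Convex ℝ S → IsCompact S → S.Nonempty → ∀ z,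
      z ∉ S → ∃ θ : Fin (m + 1) → ℝ, θ ≠ 0 ∧ ∀ p ∈ S, θ ⬝ᵥ p < θ ⬝ᵥ z := by
    intro S hS cS ⟨p₀, hp₀⟩ z hz
    obtain ⟨f, s, hfs, hsz⟩ := geometric_hahn_banach_closed_point hS cS.isClosed hz
    have hf : ∀ x, f x = (fun i => f (Pi.single i 1)) ⬝ᵥ x := fun x => by
      conv_lhs => rw [pi_eq_sum_univ' x, map_sum]
      simp [dotProduct, mul_comm]
    refine ⟨fun i => f (Pi.single i 1), fun e => ?_, fun p hp => ?_⟩
    · have := (hfs p₀ hp₀).trans hsz
      rw [hf, hf, e] at this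
      simp at this
    · rw [← hf, ← hf]
      exact (hfs p hp).trans hsz
  refine ⟨a, fun x => ⟨fun hx => ?_, fun hx => ?_⟩⟩
  · by_contra hn'
    obtain ⟨θ, hθ, hlt⟩ := sep hL cL (nonempty_of_measure_ne_zero (eL ▸ hV.ne')) _ hn'
    obtain ⟨q, hq, hle⟩ := (dir θ hθ).2 x hx
    have := hlt q hq
    rw [dotProduct_add] at this
    linarith
  · by_contra hn'
    obtain ⟨θ, hθ, hlt⟩ := sep hK cK (nonempty_of_measure_ne_zero hV.ne') _ hn'
    obtain ⟨p, hp, hle⟩ := (dir θ hθ).1 _ hx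
    have := hlt p hp
    rw [dotProduct_add] at hle
    linarith

end Vale.Agent.P237.Full.BM
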