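import Vale.Agent.P237.Full.ProjProj
import Vale.Agent.P237.Full.Brunn
import Vale.Agent.P237.Full.Translate

/-!
The projection body does not increase the normalised projection volume, and a body for which it
does not decrease it is a homothetic copy of its second projection body.
-/

namespace Vale.Agent.P237.Full

open MeasureTheory Set Filter Topology Metric
open scoped ENNReal Pointwise RealInnerProductSpace

variable {n : ℕ}

theorem toReal_volume_pos {K : Set (EuclideanSpace ℝ (Fin n))} (hK : IsBody K) :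
    0 < (volume K).toReal :=
  ENNReal.toReal_pos (Measure.measure_pos_of_nonempty_interior _ hK.2.2).ne'
    hK.2.1.measure_ne_top

/-- The scale at which the second projection body has the volume of the body, and the midpoint
volume at that scale. -/
theorem second_scale (hn : 2 ≤ n) {K : Set (EuclideanSpace ℝ (Fin n))} (hK : IsBody K) :
    ∃ a : ℝ, 0 < a ∧ a ^ n * (volume (projBody (projBody K))).toReal = (volume K).toReal ∧
      (volume K).toReal ≤ a * (volume (projBody K)).toReal ∧
      (a * (volume (projBody K)).toReal = (volume K).toReal →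
        volume ((1 / 2 : ℝ) • (K + a • projBody (projBody K))) = volume K) := by
  set Z := projBody K
  set L := projBody Z
  have hZ := isBody_projBody hn hK
  have hL := isBody_projBody hn hZ
  have hV := toReal_volume_pos hK
  have hZ0 := toReal_volume_pos hZ
  have hL0 := toReal_volume_pos hL
  set V := (volume K).toReal with hVdef
  set a := ((V / (volume L).toReal)) ^ ((n : ℝ)⁻¹) with hadef
  have ha : 0 < a := Real.rpow_pos_of_pos (div_pos hV hL0) _
  have han : a ^ n * (volume L).toReal = V := by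
    rw [hadef, Real.rpow_inv_natCast_pow (div_pos hV hL0).le (by omega),
      div_mul_cancel₀ _ hL0.ne']
  set r := a * (volume Z).toReal / V with hr
  set C : ℝ → Set (EuclideanSpace ℝ (Fin n)) := fun t => (1 - t) • K + t • (a • L) with hC
  have cC : ∀ t, IsCompact (C t) := fun t => (hK.2.1.smul _).add ((hL.2.1.smul a).smul t)
  have hY : volume (a • L) = volume K := by
    rw [← ENNReal.toReal_eq_toReal_iff' (hL.2.1.smul a).measure_ne_top hK.2.1.measure_ne_top,
      vol_smul_set _ ha.le, han]
  have hhalf : C (1 / 2) = (1 / 2 : ℝ) • (K + a • L) := by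
    rw [hC, smul_add]; norm_num
  have hlow : V ≤ (volume (C (1 / 2))).toReal := by
    have h := vol_mid hK.2.1 (hL.2.1.smul a) (cC (1 / 2)) fun x hx y hy => by
      rw [hhalf]
      exact smul_mem_smul_set (add_mem_add hx hy)
    have h2 := ENNReal.toReal_mono (ENNReal.pow_ne_top (cC (1 / 2)).measure_ne_top) h
    rw [hY, ENNReal.toReal_mul, ENNReal.toReal_pow, ← hVdef, ← pow_two] at h2
    exact le_of_sq_le_sq h2 ENNReal.toReal_nonneg
  set f : ℕ → ℝ := fun j => Real.log ((volume (C ((1 / 2) ^ (j + 1)))).toReal / V) with hf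
  have step : ∀ t ∈ Icc (0 : ℝ) 1,
      volume K * volume (C t) ≤ volume (C (t / 2)) ^ 2 := fun t ht =>
    vol_mid hK.2.1 (cC t) (cC (t / 2)) fun x hx y hy => by
      obtain ⟨_, ⟨k, hk, rfl⟩, _, ⟨z, hz, rfl⟩, rfl⟩ := hy
      refine ⟨_, smul_mem_smul_set (hK.1 hx hk (show (0 : ℝ) ≤ 1 / (2 - t) from
          div_nonneg zero_le_one (by linarith [ht.2])) (show (0 : ℝ) ≤ (1 - t) / (2 - t) from
          div_nonneg (by linarith [ht.2]) (by linarith [ht.2])) ?_), _, smul_mem_smul_set hz, ?_⟩
      · have : (2 : ℝ) - t ≠ 0 := by linarith [ht.2]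
        field_simp; ring
      · have : (2 : ℝ) - t ≠ 0 := by linarith [ht.2]
        simp only [smul_add, smul_smul, ← add_assoc]
        congr 1
        · congr 1 <;> (congr 1; field_simp)
        · congr 1; ring
  have hI : ∀ j : ℕ, ((1 / 2 : ℝ)) ^ (j + 1) ∈ Icc (0 : ℝ) (1 / 2) := fun j =>
    ⟨by positivity, (pow_le_pow_of_le_one (by norm_num) (by norm_num)
      (Nat.le_add_left 1 j)).trans_eq (pow_one _)⟩
  have hgrow : ∀ j, 0 < (volume (C ((1 / 2) ^ (j + 1)))).toReal ∧ f 0 * (1 / 2) ^ j ≤ f j := by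
    intro j
    induction j with
    | zero =>
      refine ⟨?_, by simp⟩
      rw [zero_add, pow_one]; linarith
    | succ j ih =>
      obtain ⟨hp, hj⟩ := ih
      have h := ENNReal.toReal_mono (ENNReal.pow_ne_top (cC _).measure_ne_top)
        (step _ ⟨(hI j).1, by linarith [(hI j).2]⟩)
      rw [ENNReal.toReal_mul, ENNReal.toReal_pow, ← hVdef,
        show (1 / 2 : ℝ) ^ (j + 1) / 2 = (1 / 2) ^ (j + 1 + 1) by ring] at h
      have hp1 : 0 < (volume (C ((1 / 2) ^ (j + 1 + 1)))).toReal :=
        lt_of_le_of_ne ENNReal.toReal_nonneg fun e => by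
          rw [← e] at h
          nlinarith [mul_pos hV hp]
      refine ⟨hp1, ?_⟩
      have h2 := Real.log_le_log (mul_pos hV hp) h
      rw [Real.log_mul hV.ne' hp.ne', Real.log_pow] at h2
      simp only [hf] at hj ⊢
      rw [Real.log_div hp1.ne' hV.ne']
      rw [Real.log_div hp.ne' hV.ne'] at hj
      rw [show (1 / 2 : ℝ) ^ (j + 1) = (1 / 2) ^ j * (1 / 2) from pow_succ _ _] at h2 hj ⊢
      push_cast at h2
      linarith
  have hθ : ∀ θ ∈ Ioo (0 : ℝ) 1, 2 * f 0 ≤ n * (θ⁻¹ ^ n * r - 1) := by
    intro θ hθ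
    obtain ⟨D, hD, hb⟩ := volume_add_second_le hn hK hθ.1 hθ.2
    set R : ℝ → ℝ := fun t => -(∑ i ∈ Finset.range n, (1 - t) ^ i) +
      n * θ⁻¹ ^ n * r * ((1 - t) + D * a * t) ^ (n - 1) with hR
    have key : ∀ j : ℕ, 2 * f 0 ≤ R ((1 / 2) ^ (j + 1)) := by
      intro j
      obtain ⟨hp, hj⟩ := hgrow j
      set t := (1 / 2 : ℝ) ^ (j + 1) with ht
      have ht0 : 0 < t := by positivity
      have ht1 : (0 : ℝ) < 1 - t := by linarith [(hI j).2]
      set s := t * a / (1 - t) with hs
      have hCt : C t = (1 - t) • (K + s • L) := by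
        simp only [hC, hs, smul_add, smul_smul]
        rw [mul_div_cancel₀ _ ht1.ne']
      have h1 := mul_le_mul_of_nonneg_left (hb s (by positivity)) (pow_nonneg ht1.le n)
      rw [← vol_smul_set _ ht1.le, ← hCt, ← hVdef] at h1
      have h2 : (volume (C t)).toReal / V - 1 ≤ t * R t := by
        have e1 : t * -(∑ i ∈ Finset.range n, (1 - t) ^ i) = (1 - t) ^ n - 1 := by
          have := geom_sum_mul (1 - t) n
          linarith
        have e2 : (1 - t) ^ n * (s * n * (θ⁻¹ ^ n * (volume Z).toReal) * (1 + D * s) ^ (n - 1)) =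
            V * (t * (n * θ⁻¹ ^ n * r * ((1 - t) + D * a * t) ^ (n - 1))) := by
          obtain ⟨m, hm⟩ : ∃ m, n = m + 1 := ⟨n - 1, by omega⟩
          have e3 : (1 - t) ^ (n - 1) * (1 + D * s) ^ (n - 1) =
              ((1 - t) + D * a * t) ^ (n - 1) := by
            rw [← mul_pow]; congr 1; rw [hs]; field_simp
          have e4 : (1 - t) * s = t * a := by rw [hs, mul_div_cancel₀ _ ht1.ne']
          have e5 : V * r = a * (volume Z).toReal := by rw [hr, mul_div_cancel₀ _ hV.ne']
          calc (1 - t) ^ n * (s * n * (θ⁻¹ ^ n * (volume Z).toReal) * (1 + D * s) ^ (n - 1))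
              = ((1 - t) * s) * n * θ⁻¹ ^ n * (volume Z).toReal *
                  ((1 - t) ^ (n - 1) * (1 + D * s) ^ (n - 1)) := by
                rw [show (1 - t) ^ n = (1 - t) ^ (n - 1) * (1 - t) by
                  rw [← pow_succ]; congr 1; omega]
                ring
            _ = t * n * θ⁻¹ ^ n * (a * (volume Z).toReal) *
                  ((1 - t) + D * a * t) ^ (n - 1) := by rw [e4, e3]; ring
            _ = _ := by rw [← e5]; ring
        rw [mul_add] at h1
        rw [e2] at h1
        rw [div_sub_one hV.ne', div_le_iff₀ hV, hR]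
        dsimp only
        rw [mul_add t, e1]
        linarith
      have h3 := hj.trans (Real.log_le_sub_one_of_pos (div_pos hp hV))
      have e : (1 / 2 : ℝ) ^ j = 2 * t := by rw [ht, pow_succ]; ring
      rw [e] at h3
      refine le_of_mul_le_mul_left ?_ ht0
      linarith
    have hlim : Tendsto (fun j : ℕ => R ((1 / 2) ^ (j + 1))) atTop (𝓝 (n * (θ⁻¹ ^ n * r - 1))) := by
      have hc : Continuous R := by rw [hR]; fun_prop
      refine (hc.tendsto' 0 _ ?_).comp
        ((tendsto_pow_atTop_nhds_zero_of_lt_one (by norm_num) (by norm_num)).comp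
          (tendsto_add_atTop_nat 1))
      simp [hR]; ring
    exact ge_of_tendsto' hlim key
  have hmain : 2 * f 0 ≤ n * (r - 1) := by
    have hc : Tendsto (fun θ : ℝ => (n : ℝ) * (θ⁻¹ ^ n * r - 1)) (𝓝[<] 1) (𝓝 (n * (r - 1))) := by
      have : ContinuousAt (fun θ : ℝ => (n : ℝ) * (θ⁻¹ ^ n * r - 1)) 1 := by
        fun_prop (disch := norm_num)
      simpa using this.tendsto.mono_left nhdsWithin_le_nhds
    exact ge_of_tendsto hc (mem_of_superset (Ioo_mem_nhdsLT zero_lt_one) hθ)
  have hf0 : f 0 = Real.log ((volume (C (1 / 2))).toReal / V) := by simp [hf]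
  have hf00 : 0 ≤ f 0 := by
    rw [hf0]; exact Real.log_nonneg ((one_le_div hV).mpr hlow)
  refine ⟨a, ha, han, ?_, fun heq => ?_⟩
  · have h1 : 0 ≤ (n : ℝ) * (r - 1) := by linarith
    have hn0 : (0 : ℝ) < n := by exact_mod_cast (by omega : 0 < n)
    exact (one_le_div hV).mp (by linarith [nonneg_of_mul_nonneg_right h1 hn0])
  · have hr1 : r = 1 := by rw [hr, heq, div_self hV.ne']
    rw [hr1, sub_self, mul_zero] at hmain
    have h1 : f 0 = 0 := by linarith
    rw [hf0, Real.log_eq_zero] at h1
    rw [← hhalf, ← ENNReal.toReal_eq_toReal_iff' (cC _).measure_ne_top hK.2.1.measure_ne_top,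
      ← hVdef]
    rcases h1 with h | h | h
    · rw [div_eq_zero_iff] at h; rcases h with h | h <;> linarith
    · exact (div_eq_one_iff_eq hV.ne').mp h
    · have := div_nonneg (ENNReal.toReal_nonneg (a := volume (C (1 / 2)))) hV.le; linarith

/-- The projection body does not increase the normalised projection volume. -/
theorem ratio_projBody_le (hn : 2 ≤ n) {K : Set (EuclideanSpace ℝ (Fin n))} (hK : IsBody K) :
    (volume (projBody (projBody K))).toReal * (volume K).toReal ^ (n - 1) ≤
      (volume (projBody K)).toReal * (volume (projBody K)).toReal ^ (n - 1) := by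
  obtain ⟨a, ha, han, hle, -⟩ := second_scale hn hK
  have h := pow_le_pow_left₀ (toReal_volume_pos hK).le hle n
  rw [← pow_succ', show n - 1 + 1 = n by omega]
  refine le_of_mul_le_mul_left ?_ (pow_pos ha n)
  rw [← mul_assoc, han, ← pow_succ', show n - 1 + 1 = n by omega, ← mul_pow]
  exact h

/-- A body whose normalised projection volume is not above that of its projection body is, up to
translation, the second projection body scaled by `|K| / |Π K|`. -/
theorem fixed_point (hn : 2 ≤ n) {K : Set (EuclideanSpace ℝ (Fin n))} (hK : IsBody K)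
    (hmin : volume (projBody K) ^ n ≤
      volume (projBody (projBody K)) * volume K ^ (n - 1)) :
    ∃ a : EuclideanSpace ℝ (Fin n), (∀ x, x + a ∈ K → -x + a ∈ K) ∧
      ∀ u : EuclideanSpace ℝ (Fin n), ‖u‖ = 1 → IsGreatest ((fun x => ⟪x, u⟫) '' K)
        (⟪a, u⟫ + (volume K).toReal / (volume (projBody K)).toReal *
          (shadow (projBody K) u).toReal) := by
  have hZ := isBody_projBody hn hK
  have hL := isBody_projBody hn hZ
  obtain ⟨a, ha, han, hle, heq⟩ := second_scale hn hK
  have hV := toReal_volume_pos hK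
  have hZ0 := toReal_volume_pos hZ
  have hge : a * (volume (projBody K)).toReal ≤ (volume K).toReal := by
    refine le_of_pow_le_pow_left₀ (by omega : n ≠ 0) hV.le ?_
    have h := ENNReal.toReal_mono (ENNReal.mul_ne_top hL.2.1.measure_ne_top
      (ENNReal.pow_ne_top hK.2.1.measure_ne_top)) hmin
    rw [ENNReal.toReal_pow, ENNReal.toReal_mul, ENNReal.toReal_pow] at h
    have h2 := mul_le_mul_of_nonneg_left h (pow_nonneg ha.le n)
    rw [← mul_assoc, han, ← pow_succ', show n - 1 + 1 = n by omega, ← mul_pow] at h2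
    exact h2
  have hEq := le_antisymm hge hle
  have hM := heq hEq
  set L := projBody (projBody K) with hLdef
  set Y := a • L
  have hYv : volume Y = volume K := by
    rw [← ENNReal.toReal_eq_toReal_iff' (hL.2.1.smul a).measure_ne_top hK.2.1.measure_ne_top,
      vol_smul_set _ ha.le, han]
  have hcp : ∀ S : Set (EuclideanSpace ℝ (Fin n)), IsCompact S →
      IsCompact (WithLp.ofLp '' S : Set (Fin n → ℝ)) :=
    fun S hS => hS.image (PiLp.continuous_ofLp 2 _)
  have hcv : ∀ S : Set (EuclideanSpace ℝ (Fin n)), Convex ℝ S →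
      Convex ℝ (WithLp.ofLp '' S : Set (Fin n → ℝ)) :=
    fun S hS => hS.linear_image (WithLp.linearEquiv 2 ℝ (Fin n → ℝ)).toLinearMap
  have hvol : ∀ S : Set (EuclideanSpace ℝ (Fin n)),
      volume (WithLp.ofLp '' S : Set (Fin n → ℝ)) = volume S := fun S => by
    rw [← Frusta.volume_euclidean, Frusta.euclidean, image_image]; simp
  obtain ⟨v, hv⟩ := BM.exists_translate (K := WithLp.ofLp '' K) (L := WithLp.ofLp '' Y)
    (M := WithLp.ofLp '' ((1 / 2 : ℝ) • (K + Y))) (by omega) (hcp _ hK.2.1) (hcv _ hK.1)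
    (hcp _ (hL.2.1.smul a)) (hcv _ (hL.1.smul a))
    (hcp _ ((hK.2.1.add (hL.2.1.smul a)).smul _))
    (fun x hx y hy => by
      obtain ⟨p, hp, rfl⟩ := hx
      obtain ⟨q, hq, rfl⟩ := hy
      exact ⟨(1 / 2 : ℝ) • (p + q), smul_mem_smul_set (add_mem_add hp hq), by simp⟩)
    (by rw [hvol]; exact Measure.measure_pos_of_nonempty_interior _ hK.2.2)
    (by rw [hvol, hvol, hYv]) (by rw [hvol, hvol]; exact hM)
  set b : EuclideanSpace ℝ (Fin n) := WithLp.toLp 2 v
  have key : ∀ x, x ∈ K ↔ x + b ∈ Y := fun x => by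
    have h := hv x.ofLp
    rw [(WithLp.ofLp_injective 2).mem_set_image,
      show x.ofLp + v = (x + b).ofLp by simp [b],
      (WithLp.ofLp_injective 2).mem_set_image] at h
    exact h
  have hneg : ∀ y ∈ Y, -y ∈ Y := by
    rintro _ ⟨z, hz, rfl⟩
    exact ⟨-z, neg_mem_projBody_gain hZ.1 hZ.2.1 hz, smul_neg a z⟩
  refine ⟨-b, fun x hx => ?_, fun u hu => ?_⟩
  · rw [key] at hx ⊢
    simpa using hneg _ hx
  have hl : (volume K).toReal / (volume (projBody K)).toReal = a := by
    rw [← hEq, mul_div_cancel_right₀ _ hZ0.ne']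
  rw [hl, ← gain_unit hZ.1 hZ.2.1 hu, inner_neg_left]
  constructor
  · obtain ⟨z, hz, e⟩ := exists_inner_eq_gain hZ.1 hZ.2.1 hu
    refine ⟨a • z - b, (key _).mpr (by rw [sub_add_cancel]; exact smul_mem_smul_set hz), ?_⟩
    simp only [inner_sub_left, real_inner_smul_left, e]
    ring
  · rintro _ ⟨x, hx, rfl⟩
    obtain ⟨z, hz, e⟩ := (key x).mp hx
    have h : x = a • z - b := eq_sub_of_add_eq e.symm
    simp only [h, inner_sub_left, real_inner_smul_left]
    have h2 := hz u hu
    rw [← gain_unit hZ.1 hZ.2.1 hu] at h2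
    linarith [mul_le_mul_of_nonneg_left h2 ha.le]

end Vale.Agent.P237.Full
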