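import Mathlib
import Vale.Agent.P237.Full.Defs
import Vale.Agent.P237.Asym.Approx

/-!
Compactness for symmetric bodies between two balls, and semicontinuity of the projection volume.
-/

namespace Vale.Agent.P237.Full

open MeasureTheory Set Metric TopologicalSpace Filter
open scoped RealInnerProductSpace Pointwise

/-- A subset containing the unit ball absorbs an `ε`-neighbourhood up to the factor `1 + ε`. -/
theorem subset_smul_of_near {X : Type*} [NormedAddCommGroup X] [NormedSpace ℝ X] {K S : Set X}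
    (hK : Convex ℝ K) (hB : closedBall (0 : X) 1 ⊆ K) {ε : ℝ} (hε : 0 < ε)
    (h : ∀ x ∈ S, ∃ y ∈ K, dist x y < ε) : S ⊆ (1 + ε) • K := by
  intro x hx
  obtain ⟨y, hy, hxy⟩ := h x hx
  have hk : ε⁻¹ • (x - y) ∈ K := hB <| by
    rw [mem_closedBall_zero_iff, norm_smul, Real.norm_of_nonneg (inv_pos.2 hε).le,
      inv_mul_le_iff₀ hε, mul_one, ← dist_eq_norm]
    exact hxy.le
  refine ⟨(1 / (1 + ε)) • y + (ε / (1 + ε)) • ε⁻¹ • (x - y),
    hK hy hk (by positivity) (by positivity) (by field_simp), ?_⟩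
  simp only [smul_add, smul_smul]
  rw [show (1 + ε) * (1 / (1 + ε)) = 1 by field_simp,
    show (1 + ε) * (ε / (1 + ε) * ε⁻¹) = 1 by field_simp]
  simp

/-- A sequence of symmetric bodies between two balls has a limit body in the multiplicative sense. -/
theorem exists_limit {n : ℕ} {R : ℝ} (S : ℕ → Set (EuclideanSpace ℝ (Fin n)))
    (hS : ∀ j, Convex ℝ (S j)) (cS : ∀ j, IsCompact (S j))
    (sS : ∀ j, ∀ x ∈ S j, -x ∈ S j) (hB : ∀ j, closedBall 0 1 ⊆ S j)
    (hR : ∀ j, S j ⊆ closedBall 0 R) :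
    ∃ K : Set (EuclideanSpace ℝ (Fin n)), IsBody K ∧ (∀ x ∈ K, -x ∈ K) ∧ closedBall 0 1 ⊆ K ∧
      ∀ ε : ℝ, 0 < ε → ∀ j₀ : ℕ, ∃ j, j₀ ≤ j ∧ S j ⊆ (1 + ε) • K ∧ K ⊆ (1 + ε) • S j := by
  set α := ↥(closedBall (0 : EuclideanSpace ℝ (Fin n)) R)
  have : CompactSpace α := isCompact_iff_compactSpace.1 (isCompact_closedBall _ _)
  have h0 : ∀ j, (0 : EuclideanSpace ℝ (Fin n)) ∈ S j := fun j =>
    hB j (mem_closedBall_self zero_le_one)
  let s : ℕ → NonemptyCompacts α := fun j =>
    ⟨⟨Subtype.val ⁻¹' S j, ((cS j).isClosed.preimage continuous_subtype_val).isCompact⟩,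
      ⟨⟨0, hR j (h0 j)⟩, h0 j⟩⟩
  obtain ⟨L, φ, hφ, hlim⟩ := CompactSpace.tendsto_subseq s
  set K : Set (EuclideanSpace ℝ (Fin n)) := Subtype.val '' (L : Set α) with hK
  have cK : IsCompact K := L.isCompact.image continuous_subtype_val
  have near : ∀ ε : ℝ, 0 < ε → ∀ᶠ j in atTop,
      (∀ x ∈ S (φ j), ∃ y ∈ K, dist x y < ε) ∧ (∀ y ∈ K, ∃ x ∈ S (φ j), dist x y < ε) := by
    intro ε hε
    filter_upwards [Metric.tendsto_nhds.1 hlim ε hε] with j hj
    have fin : hausdorffEDist (s (φ j) : Set α) (L : Set α) ≠ ⊤ :=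
      hausdorffEDist_ne_top_of_nonempty_of_bounded (s (φ j)).nonempty L.nonempty
        (s (φ j)).isCompact.isBounded L.isCompact.isBounded
    have hd : hausdorffDist (s (φ j) : Set α) (L : Set α) < ε := hj
    constructor
    · intro x hx
      obtain ⟨y, hy, hxy⟩ := exists_dist_lt_of_hausdorffDist_lt
        (show (⟨x, hR _ hx⟩ : α) ∈ (s (φ j) : Set α) from hx) hd fin
      exact ⟨y, ⟨y, hy, rfl⟩, hxy⟩
    · rintro _ ⟨y, hy, rfl⟩
      obtain ⟨x, hx, hxy⟩ := exists_dist_lt_of_hausdorffDist_lt' hy hd fin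
      exact ⟨x, hx, hxy⟩
  have hmem : ∀ z, (∀ ε : ℝ, 0 < ε → ∃ y ∈ K, dist z y < ε) → z ∈ K := fun z h =>
    cK.isClosed.closure_eq ▸ Metric.mem_closure_iff.2 h
  have hBK : closedBall 0 1 ⊆ K := fun b hb => hmem b fun ε hε => by
    obtain ⟨j, hj⟩ := (near ε hε).exists
    exact hj.1 b (hB _ hb)
  have hcv : Convex ℝ K := by
    intro x hx y hy a b ha hb hab
    refine hmem _ fun ε hε => ?_
    obtain ⟨j, hj⟩ := (near (ε / 3) (by linarith)).exists
    obtain ⟨x', hx', hxx⟩ := hj.2 x hx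
    obtain ⟨y', hy', hyy⟩ := hj.2 y hy
    obtain ⟨z, hz, hzz⟩ := hj.1 _ (hS _ hx' hy' ha hb hab)
    refine ⟨z, hz, ?_⟩
    calc dist (a • x + b • y) z ≤ dist (a • x + b • y) (a • x' + b • y') +
          dist (a • x' + b • y') z := dist_triangle _ _ _
      _ < ε := by
        have h1 : dist (a • x + b • y) (a • x' + b • y') ≤ a * dist x x' + b * dist y y' := by
          refine (dist_add_add_le _ _ _ _).trans (le_of_eq ?_)
          rw [dist_smul₀, dist_smul₀, Real.norm_of_nonneg ha, Real.norm_of_nonneg hb]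
        rw [dist_comm x, dist_comm y] at h1
        have h2 : a * dist x' x + b * dist y' y ≤ ε / 3 := by
          calc a * dist x' x + b * dist y' y ≤ a * (ε / 3) + b * (ε / 3) := by gcongr
            _ = ε / 3 := by rw [← add_mul, hab, one_mul]
        linarith
  refine ⟨K, ⟨hcv, cK, ⟨0, mem_interior.2 ⟨ball 0 1, ball_subset_closedBall.trans hBK,
    isOpen_ball, mem_ball_self one_pos⟩⟩⟩, ?_, hBK, ?_⟩
  · intro y hy
    refine hmem _ fun ε hε => ?_
    obtain ⟨j, hj⟩ := (near (ε / 2) (by linarith)).exists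
    obtain ⟨x, hx, hxy⟩ := hj.2 y hy
    obtain ⟨z, hz, hzz⟩ := hj.1 _ (sS _ x hx)
    refine ⟨z, hz, ?_⟩
    have := dist_triangle (-y) (-x) z
    rw [dist_neg_neg, dist_comm y] at this
    linarith
  · intro ε hε j₀
    obtain ⟨j, hj, hj'⟩ := ((near ε hε).and (eventually_ge_atTop j₀)).exists
    refine ⟨φ j, hj'.trans (hφ.id_le j), subset_smul_of_near hcv hBK hε hj.1,
      subset_smul_of_near (hS _) (hB _) hε fun y hy => ?_⟩
    obtain ⟨x, hx, hxy⟩ := hj.2 y hy
    exact ⟨x, hx, by rwa [dist_comm]⟩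

/-- The normalised projection volume. -/
noncomputable def ratio {n : ℕ} (K : Set (EuclideanSpace ℝ (Fin n))) : ℝ :=
  (volume (projBody K)).toReal / (volume K).toReal ^ (n - 1)

/-- The projection body is monotone and homogeneous of degree `n - 1`. -/
theorem projBody_subset_smul {n : ℕ} {K L : Set (EuclideanSpace ℝ (Fin n))} {θ : ℝ} (hθ : 0 < θ)
    (cL : IsCompact L) (h : K ⊆ θ • L) : projBody K ⊆ (θ ^ (n - 1)) • projBody L := by
  intro x hx
  refine (mem_smul_set_iff_inv_smul_mem₀ (pow_pos hθ _).ne' _ _).2 fun v hv => ?_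
  have hfin : shadow (θ • L) v ≠ ⊤ :=
    ((cL.smul θ).image (ContinuousLinearMap.continuous _)).measure_ne_top
  have h1 := ENNReal.toReal_mono hfin (Asym.shadow_mono h v)
  rw [Asym.shadow_smul hθ.le hv, ENNReal.toReal_mul,
    ENNReal.toReal_ofReal (pow_nonneg hθ.le _)] at h1
  rw [real_inner_smul_left, inv_mul_le_iff₀ (pow_pos hθ _)]
  exact (hx v hv).trans h1

/-- The normalised projection volume along multiplicatively close bodies. -/
theorem ratio_le_of_near {n : ℕ} {K S : Set (EuclideanSpace ℝ (Fin n))} {θ : ℝ} (hθ : 0 < θ)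
    (hK : IsBody K) (hS : IsBody S) (cP : IsCompact (projBody S)) (h1 : S ⊆ θ • K)
    (h2 : K ⊆ θ • S) : ratio K ≤ θ ^ (2 * n * (n - 1)) * ratio S := by
  have hsm : ∀ (r : ℝ), 0 ≤ r → ∀ A : Set (EuclideanSpace ℝ (Fin n)),
      (volume (r • A)).toReal = r ^ n * (volume A).toReal := fun r hr A => by
    rw [Measure.addHaar_smul_of_nonneg volume hr, finrank_euclideanSpace_fin, ENNReal.toReal_mul,
      ENNReal.toReal_ofReal (pow_nonneg hr _)]
  have hvK : 0 < (volume K).toReal := ENNReal.toReal_pos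
    (Measure.measure_pos_of_nonempty_interior _ hK.2.2).ne' hK.2.1.measure_ne_top
  have hvS : 0 < (volume S).toReal := ENNReal.toReal_pos
    (Measure.measure_pos_of_nonempty_interior _ hS.2.2).ne' hS.2.1.measure_ne_top
  have hP : (volume (projBody K)).toReal ≤ (θ ^ (n - 1)) ^ n * (volume (projBody S)).toReal := by
    rw [← hsm _ (pow_nonneg hθ.le _)]
    exact ENNReal.toReal_mono (cP.smul _).measure_ne_top
      (measure_mono (projBody_subset_smul hθ hS.2.1 h2))
  have hV : (volume S).toReal ≤ θ ^ n * (volume K).toReal := by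
    rw [← hsm _ hθ.le]
    exact ENNReal.toReal_mono (hK.2.1.smul _).measure_ne_top (measure_mono h1)
  unfold ratio
  rw [← mul_div_assoc, div_le_div_iff₀ (pow_pos hvK _) (pow_pos hvS _)]
  calc (volume (projBody K)).toReal * (volume S).toReal ^ (n - 1)
      ≤ ((θ ^ (n - 1)) ^ n * (volume (projBody S)).toReal) *
          (θ ^ n * (volume K).toReal) ^ (n - 1) :=
        mul_le_mul hP (pow_le_pow_left₀ hvS.le hV _) (by positivity) (by positivity)
    _ = θ ^ (2 * n * (n - 1)) * (volume (projBody S)).toReal * (volume K).toReal ^ (n - 1) := by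
        rw [mul_pow, ← pow_mul, ← pow_mul, show 2 * n * (n - 1) = (n - 1) * n + n * (n - 1) by ring,
          pow_add]
        ring

end Vale.Agent.P237.Full
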