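import Mathlib
import Vale.Agent.P237.Full.Exists
import Vale.Agent.P237.Full.John
import Vale.Agent.P237.Asym.Final

/-!
Assembly: a minimiser of the normalised projection volume satisfies Petty's inequality, by
induction on the dimension, given a good contact direction.
-/

namespace Vale.Agent.P237.Full

open MeasureTheory Set Metric
open scoped RealInnerProductSpace Pointwise

/-- The volume of the projection body under a linear change of variables. -/
def ImageRule (n : ℕ) : Prop :=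
  ∀ (T : EuclideanSpace ℝ (Fin n) ≃L[ℝ] EuclideanSpace ℝ (Fin n))
    (K : Set (EuclideanSpace ℝ (Fin n))), IsBody K →
    volume (projBody (T '' K)) =
      ENNReal.ofReal (|LinearMap.det T.toLinearEquiv.toLinearMap| ^ (n - 1)) * volume (projBody K)

/-- The projection body of a body is a body. -/
def BodyRule (n : ℕ) : Prop :=
  ∀ K : Set (EuclideanSpace ℝ (Fin n)), IsBody K → IsBody (projBody K)

/-- The projection body does not increase the normalised projection volume. -/
def RatioRule (n : ℕ) : Prop :=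
  ∀ K : Set (EuclideanSpace ℝ (Fin n)), IsBody K →
    (volume (projBody (projBody K))).toReal * (volume K).toReal ^ (n - 1) ≤
      (volume (projBody K)).toReal * (volume (projBody K)).toReal ^ (n - 1)

variable {n : ℕ}

theorem vol_pos {K : Set (EuclideanSpace ℝ (Fin n))} (hK : IsBody K) : 0 < (volume K).toReal :=
  ENNReal.toReal_pos (Measure.measure_pos_of_nonempty_interior _ hK.2.2).ne'
    hK.2.1.measure_ne_top

theorem body_linear (T : EuclideanSpace ℝ (Fin n) ≃L[ℝ] EuclideanSpace ℝ (Fin n))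
    {K : Set (EuclideanSpace ℝ (Fin n))} (hK : IsBody K) : IsBody (T '' K) := by
  refine ⟨hK.1.linear_image T.toLinearEquiv.toLinearMap, hK.2.1.image T.continuous, ?_⟩
  exact (hK.2.2.image T).mono (T.toHomeomorph.isOpenMap.image_interior_subset K)

theorem body_translate (a : EuclideanSpace ℝ (Fin n))
    {K : Set (EuclideanSpace ℝ (Fin n))} (hK : IsBody K) : IsBody ((fun x => x + a) '' K) := by
  refine ⟨by simpa [add_comm] using hK.1.translate a, hK.2.1.image (by fun_prop), ?_⟩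
  exact (hK.2.2.image _).mono ((isOpenMap_add_right a).image_interior_subset K)

theorem vol_linear (T : EuclideanSpace ℝ (Fin n) ≃L[ℝ] EuclideanSpace ℝ (Fin n))
    (K : Set (EuclideanSpace ℝ (Fin n))) :
    (volume (T '' K)).toReal = |LinearMap.det T.toLinearEquiv.toLinearMap| * (volume K).toReal := by
  rw [show T '' K = T.toLinearEquiv.toLinearMap '' K from rfl, Measure.addHaar_image_linearMap,
    ENNReal.toReal_mul, ENNReal.toReal_ofReal (abs_nonneg _)]

theorem ratio_linear (hI : ImageRule n)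
    (T : EuclideanSpace ℝ (Fin n) ≃L[ℝ] EuclideanSpace ℝ (Fin n))
    {K : Set (EuclideanSpace ℝ (Fin n))} (hK : IsBody K) : ratio (T '' K) = ratio K := by
  have hd : 0 < |LinearMap.det T.toLinearEquiv.toLinearMap| :=
    abs_pos.2 T.toLinearEquiv.isUnit_det'.ne_zero
  rw [ratio, ratio, vol_linear, hI T K hK, ENNReal.toReal_mul,
    ENNReal.toReal_ofReal (by positivity), mul_pow, mul_div_mul_left _ _ (pow_pos hd _).ne']

theorem ratio_translate (K : Set (EuclideanSpace ℝ (Fin n))) (a : EuclideanSpace ℝ (Fin n)) :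
    ratio ((fun x => x + a) '' K) = ratio K := by
  rw [ratio, ratio, Asym.projBody_translate, image_add_right, measure_preimage_add_right]

theorem isMinimiser_iff {K : Set (EuclideanSpace ℝ (Fin n))} (hK : IsBody K) :
    IsMinimiser K ↔ ∀ L : Set (EuclideanSpace ℝ (Fin n)), IsBody L → ratio K ≤ ratio L := by
  constructor
  · intro h L hL
    exact (div_le_div_iff₀ (pow_pos (vol_pos hK) _) (pow_pos (vol_pos hL) _)).2 (h.2 L hL)
  · intro h
    exact ⟨hK, fun L hL =>
      (div_le_div_iff₀ (pow_pos (vol_pos hK) _) (pow_pos (vol_pos hL) _)).1 (h L hL)⟩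

theorem shadow_congr {W W' : Submodule ℝ (EuclideanSpace ℝ (Fin n))} (h : W = W')
    (K : Set (EuclideanSpace ℝ (Fin n))) :
    volume (W.orthogonalProjectionOnto '' K) = volume (W'.orthogonalProjectionOnto '' K) := by
  subst h; rfl

theorem neg_mem_projBody {K : Set (EuclideanSpace ℝ (Fin n))} {x : EuclideanSpace ℝ (Fin n)}
    (hx : x ∈ projBody K) : -x ∈ projBody K := by
  intro v hv
  have h := hx (-v) (by rwa [norm_neg])
  have e : shadow K (-v) = shadow K v := shadow_congr (by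
    rw [← Submodule.span_neg {v}, Set.neg_singleton]) K
  rw [e, inner_neg_right] at h
  rwa [inner_neg_left]

theorem exists_minimiser_of_rules (hn : 3 ≤ n) (hI : ImageRule n) (hB : BodyRule n)
    (hR : RatioRule n) : ∃ K : Set (EuclideanSpace ℝ (Fin n)), IsMinimiser K := by
  let A : Set ℝ := {r | ∃ K : Set (EuclideanSpace ℝ (Fin n)), IsBody K ∧ (∀ x ∈ K, -x ∈ K) ∧
    r = ratio K}
  have hball : IsBody (closedBall (0 : EuclideanSpace ℝ (Fin n)) 1) :=
    ⟨convex_closedBall _ _, isCompact_closedBall _ _,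
      ⟨0, mem_interior.2 ⟨ball 0 1, ball_subset_closedBall, isOpen_ball, mem_ball_self one_pos⟩⟩⟩
  have hne : A.Nonempty := ⟨_, _, hball, fun x hx => by simpa using hx, rfl⟩
  have hbdd : BddBelow A := ⟨0, by
    rintro _ ⟨K, -, -, rfl⟩
    exact div_nonneg ENNReal.toReal_nonneg (pow_nonneg ENNReal.toReal_nonneg _)⟩
  have hseq : ∀ j : ℕ, ∃ S : Set (EuclideanSpace ℝ (Fin n)), IsBody S ∧ (∀ x ∈ S, -x ∈ S) ∧
      closedBall 0 1 ⊆ S ∧ S ⊆ closedBall 0 n ∧ ratio S < sInf A + 1 / ((j : ℝ) + 1) := by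
    intro j
    obtain ⟨_, ⟨K, hK, sK, rfl⟩, hlt⟩ := exists_lt_of_csInf_lt hne
      (show sInf A < sInf A + 1 / ((j : ℝ) + 1) by
        have : (0 : ℝ) < 1 / ((j : ℝ) + 1) := by positivity
        linarith)
    obtain ⟨T, N, c, u, hc, hu, hsum, hres, hBK, hslab⟩ :=
      exists_john (by omega) hK.1 hK.2.1 hK.2.2 sK
    refine ⟨T '' K, body_linear T hK, ?_, hBK, fun x hx => ?_, by rwa [ratio_linear hI T hK]⟩
    · rintro _ ⟨z, hz, rfl⟩
      exact ⟨-z, sK z hz, map_neg T z⟩
    · have e : ‖x‖ ^ 2 = ∑ i, c i * ⟪u i, x⟫ ^ 2 := by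
        rw [← real_inner_self_eq_norm_sq]
        nth_rewrite 1 [← hres x]
        rw [sum_inner]
        exact Finset.sum_congr rfl fun i _ => by rw [real_inner_smul_left]; ring
      have h2 : ‖x‖ ^ 2 ≤ (n : ℝ) := by
        rw [e, ← hsum]
        refine Finset.sum_le_sum fun i _ => mul_le_of_le_one_right (hc i) ?_
        exact (sq_le_one_iff_abs_le_one _).2 (hslab i x hx)
      have h3 : (n : ℝ) ≤ (n : ℝ) ^ 2 := by
        have : (1 : ℝ) ≤ n := by exact_mod_cast (by omega : 1 ≤ n)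
        nlinarith
      rw [mem_closedBall_zero_iff]
      exact (pow_le_pow_iff_left₀ (norm_nonneg _) (Nat.cast_nonneg n) two_ne_zero).1 (h2.trans h3)
  choose S hS sS hBS hSR hlt using hseq
  obtain ⟨K, hK, sK, -, hnear⟩ := exists_limit S (fun j => (hS j).1) (fun j => (hS j).2.1) sS
    hBS hSR
  have hle : ratio K ≤ sInf A := by
    have hρ : 0 ≤ sInf A := le_csInf hne fun r ⟨K, _, _, e⟩ =>
      e ▸ div_nonneg ENNReal.toReal_nonneg (pow_nonneg ENNReal.toReal_nonneg _)
    have key : ∀ ε : ℝ, 0 < ε → ratio K ≤ (1 + ε) ^ (2 * n * (n - 1)) * (sInf A + ε) := by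
      intro ε hε
      obtain ⟨j₀, hj₀⟩ := exists_nat_one_div_lt hε
      obtain ⟨j, hj, h1, h2⟩ := hnear ε hε j₀
      refine (ratio_le_of_near (by linarith) hK (hS j) (hB _ (hS j)).2.1 h1 h2).trans ?_
      refine mul_le_mul_of_nonneg_left ((hlt j).le.trans ?_) (by positivity)
      have : 1 / ((j : ℝ) + 1) ≤ 1 / ((j₀ : ℝ) + 1) := by gcongr
      linarith
    have hc : Filter.Tendsto (fun ε : ℝ => (1 + ε) ^ (2 * n * (n - 1)) * (sInf A + ε))
        (nhdsWithin 0 (Ioi 0)) (nhds (sInf A)) := by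
      have hcont : Continuous fun ε : ℝ => (1 + ε) ^ (2 * n * (n - 1)) * (sInf A + ε) := by
        fun_prop
      simpa using (hcont.tendsto 0).mono_left nhdsWithin_le_nhds
    exact ge_of_tendsto hc (eventually_nhdsWithin_of_forall key)
  refine ⟨K, (isMinimiser_iff hK).2 fun L hL => hle.trans ?_⟩
  refine (csInf_le hbdd ⟨_, hB L hL, fun x hx => neg_mem_projBody hx, rfl⟩).trans ?_
  exact (div_le_div_iff₀ (pow_pos (vol_pos (hB L hL)) _) (pow_pos (vol_pos hL) _)).2 (hR L hL)

/-- Symmetry about `a` and about the origin forces `a = 0` for a bounded nonempty set. -/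
theorem centre_eq_zero {K : Set (EuclideanSpace ℝ (Fin n))} (cK : IsCompact K) (hne : K.Nonempty)
    (sK : ∀ x ∈ K, -x ∈ K) {a : EuclideanSpace ℝ (Fin n)}
    (ha : ∀ x, x + a ∈ K → -x + a ∈ K) : a = 0 := by
  have hstep : ∀ x ∈ K, x - (2 : ℝ) • a ∈ K := fun x hx => by
    have h := ha (x - a) (by simpa using hx)
    have h' := sK _ h
    rwa [show -(-(x - a) + a) = x - (2 : ℝ) • a by module] at h'
  obtain ⟨x, hx⟩ := hne
  obtain ⟨C, hC⟩ := cK.isBounded.subset_closedBall 0
  have hk : ∀ k : ℕ, x - (2 * k : ℝ) • a ∈ K := by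
    intro k
    induction k with
    | zero => simpa using hx
    | succ k ih =>
      have h := hstep _ ih
      rwa [show x - (2 * (k : ℝ)) • a - (2 : ℝ) • a = x - (2 * ((k + 1 : ℕ) : ℝ)) • a by
        push_cast; module] at h
  by_contra h0
  have hpos : 0 < ‖a‖ := norm_pos_iff.2 h0
  obtain ⟨k, hk'⟩ := exists_nat_gt ((C + ‖x‖) / ‖a‖)
  rw [div_lt_iff₀ hpos] at hk'
  have h1 := mem_closedBall_zero_iff.1 (hC (hk k))
  have h2 : ‖(2 * k : ℝ) • a‖ ≤ ‖x - (2 * k : ℝ) • a‖ + ‖x‖ := by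
    calc ‖(2 * k : ℝ) • a‖ = ‖x - (x - (2 * k : ℝ) • a)‖ := by rw [sub_sub_cancel]
      _ ≤ ‖x‖ + ‖x - (2 * k : ℝ) • a‖ := norm_sub_le _ _
      _ = _ := add_comm _ _
  rw [norm_smul, Real.norm_of_nonneg (by positivity)] at h2
  nlinarith [mul_nonneg (Nat.cast_nonneg (α := ℝ) k) hpos.le]

/-- The fixed point property of a minimiser, as proved in `FixedPoint`. -/
def FixedRule (n : ℕ) : Prop :=
  ∀ K : Set (EuclideanSpace ℝ (Fin n)), IsBody K →
    volume (projBody K) ^ n ≤ volume (projBody (projBody K)) * volume K ^ (n - 1) →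
    ∃ a : EuclideanSpace ℝ (Fin n), (∀ x, x + a ∈ K → -x + a ∈ K) ∧
      ∀ u : EuclideanSpace ℝ (Fin n), ‖u‖ = 1 → IsGreatest ((fun x => ⟪x, u⟫) '' K)
        (⟪a, u⟫ + (volume K).toReal / (volume (projBody K)).toReal *
          (shadow (projBody K) u).toReal)

/-- The slice bound obtained from the inequality one dimension down. -/
def SliceRule (n : ℕ) : Prop :=
  ∀ K : Set (EuclideanSpace ℝ (Fin n)), IsBody K → ∀ u : EuclideanSpace ℝ (Fin n), ‖u‖ = 1 →
    kappa (n - 2) ^ (n - 1) * sectPow K u ≤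
      kappa (n - 1) ^ (n - 3) * (shadow (projBody K) u).toReal

theorem IsMinimiser.fixed (hn : 3 ≤ n) (hB : BodyRule n) (hF : FixedRule n)
    {K : Set (EuclideanSpace ℝ (Fin n))} (h : IsMinimiser K) :
    ∃ a : EuclideanSpace ℝ (Fin n), (∀ x, x + a ∈ K → -x + a ∈ K) ∧
      ∀ u : EuclideanSpace ℝ (Fin n), ‖u‖ = 1 → IsGreatest ((fun x => ⟪x, u⟫) '' K)
        (⟪a, u⟫ + (volume K).toReal / (volume (projBody K)).toReal *
          (shadow (projBody K) u).toReal) := by
  refine hF K h.1 ?_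
  have h1 := h.2 _ (hB K h.1)
  rw [← pow_succ', Nat.sub_add_cancel (by omega : 1 ≤ n)] at h1
  have fP := (hB K h.1).2.1.measure_ne_top (μ := volume)
  have fPP := (hB _ (hB K h.1)).2.1.measure_ne_top (μ := volume)
  have fK := h.1.2.1.measure_ne_top (μ := volume)
  rw [← ENNReal.toReal_pow, ← ENNReal.toReal_pow, ← ENNReal.toReal_mul] at h1
  exact (ENNReal.toReal_le_toReal (ENNReal.pow_ne_top fP)
    (ENNReal.mul_ne_top fPP (ENNReal.pow_ne_top fK))).1 h1

/-- A minimiser satisfies Petty's inequality, strictly unless it is an ellipsoid. -/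
theorem minimiser_step (hn : 3 ≤ n) (hI : ImageRule n) (hB : BodyRule n) (hF : FixedRule n)
    (hS : SliceRule n) (hC : ContactBound n) {K : Set (EuclideanSpace ℝ (Fin n))}
    (hK : IsMinimiser K) :
    kappa (n - 1) ^ n * (volume K).toReal ^ (n - 1) ≤
        kappa n ^ (n - 2) * (volume (projBody K)).toReal ∧
      (kappa (n - 1) ^ n * (volume K).toReal ^ (n - 1) =
          kappa n ^ (n - 2) * (volume (projBody K)).toReal →
        ∃ (a : EuclideanSpace ℝ (Fin n))
          (T : EuclideanSpace ℝ (Fin n) ≃L[ℝ] EuclideanSpace ℝ (Fin n)),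
          K = (fun x => x + a) '' (T '' closedBall 0 1)) := by
  obtain ⟨a, ha, -⟩ := hK.fixed hn hB hF
  set K1 := (fun x => x + -a) '' K with hK1
  have hK1b : IsBody K1 := body_translate _ hK.1
  have sK1 : ∀ x ∈ K1, -x ∈ K1 := by
    rintro _ ⟨z, hz, rfl⟩
    exact ⟨-(z + -a) + a, ha _ (by simpa using hz), by simp⟩
  obtain ⟨T, N, c, u, hc, hu, hsum, hres, hBK, hslab⟩ :=
    exists_john (by omega) hK1b.1 hK1b.2.1 hK1b.2.2 sK1
  set K2 := T '' K1 with hK2
  have hK2b : IsBody K2 := body_linear T hK1b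
  have sK2 : ∀ x ∈ K2, -x ∈ K2 := by
    rintro _ ⟨z, hz, rfl⟩
    exact ⟨-z, sK1 z hz, map_neg T z⟩
  have hr : ratio K2 = ratio K := by
    rw [hK2, ratio_linear hI T hK1b, hK1, ratio_translate]
  have hmin : IsMinimiser K2 :=
    (isMinimiser_iff hK2b).2 fun L hL => hr ▸ (isMinimiser_iff hK.1).1 hK L hL
  obtain ⟨b, hb, hval⟩ := hmin.fixed hn hB hF
  have hb0 : b = 0 := centre_eq_zero hK2b.2.1 (hK2b.2.2.mono interior_subset) sK2 hb
  have hG : ∀ i, (volume K2).toReal * (kappa (n - 2) ^ (n - 1) * sectPow K2 (u i)) ≤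
      kappa (n - 1) ^ (n - 3) * (volume (projBody K2)).toReal := by
    intro i
    obtain ⟨⟨x, hx, hxe⟩, -⟩ := hval (u i) (hu i)
    have h1 : ⟪x, u i⟫ ≤ 1 := by
      rw [real_inner_comm]; exact (abs_le.1 (hslab i x hx)).2
    simp only [hb0, inner_zero_left, zero_add] at hxe
    rw [hxe] at h1
    have hZ := vol_pos (hB K2 hK2b)
    rw [div_mul_eq_mul_div, div_le_one hZ] at h1
    calc (volume K2).toReal * (kappa (n - 2) ^ (n - 1) * sectPow K2 (u i))
        ≤ (volume K2).toReal *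
          (kappa (n - 1) ^ (n - 3) * (shadow (projBody K2) (u i)).toReal) :=
          mul_le_mul_of_nonneg_left (hS K2 hK2b _ (hu i)) ENNReal.toReal_nonneg
      _ = kappa (n - 1) ^ (n - 3) *
          ((volume K2).toReal * (shadow (projBody K2) (u i)).toReal) := by ring
      _ ≤ _ := mul_le_mul_of_nonneg_left h1 (pow_nonneg (kappa_pos _).le _)
  obtain ⟨⟨i, hi⟩, hstrict⟩ := hC N K2 c u ⟨hK2b, sK2, hBK, hc, hu, hsum, hres, hslab⟩
  have step : kappa (n - 1) ^ (n - 3) *
        (kappa (n - 1) ^ n * (volume K2).toReal ^ (n - 1)) =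
      (volume K2).toReal * (kappa (n - 1) ^ (2 * n - 3) * (volume K2).toReal ^ (n - 2)) := by
    rw [show 2 * n - 3 = (n - 3) + n by omega, show n - 1 = (n - 2) + 1 by omega, pow_add, pow_succ]
    ring
  have hk3 : 0 < kappa (n - 1) ^ (n - 3) := pow_pos (kappa_pos _) _
  have hV := vol_pos hK2b
  have bound : ∀ i, (volume K2).toReal *
        (kappa (n - 2) ^ (n - 1) * kappa n ^ (n - 2) * sectPow K2 (u i)) ≤
      kappa (n - 1) ^ (n - 3) * (kappa n ^ (n - 2) * (volume (projBody K2)).toReal) := fun i => by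
    have := mul_le_mul_of_nonneg_left (hG i) (pow_nonneg (kappa_pos n).le (n - 2))
    linarith
  have hle : kappa (n - 1) ^ n * (volume K2).toReal ^ (n - 1) ≤
      kappa n ^ (n - 2) * (volume (projBody K2)).toReal := by
    refine le_of_mul_le_mul_left ?_ hk3
    rw [step]
    exact (mul_le_mul_of_nonneg_left hi hV.le).trans (bound i)
  have htr : ∀ L : Set (EuclideanSpace ℝ (Fin n)), IsBody L →
      ((kappa (n - 1) ^ n * (volume L).toReal ^ (n - 1) ≤
          kappa n ^ (n - 2) * (volume (projBody L)).toReal ↔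
        kappa (n - 1) ^ n ≤ kappa n ^ (n - 2) * ratio L) ∧
      (kappa (n - 1) ^ n * (volume L).toReal ^ (n - 1) =
          kappa n ^ (n - 2) * (volume (projBody L)).toReal ↔
        kappa (n - 1) ^ n = kappa n ^ (n - 2) * ratio L)) := fun L hL => by
    have h := pow_pos (vol_pos hL) (n - 1)
    rw [ratio, ← mul_div_assoc]
    exact ⟨(le_div_iff₀ h).symm, (eq_div_iff h.ne').symm⟩
  refine ⟨((htr K hK.1).1).2 (hr ▸ ((htr K2 hK2b).1).1 hle), fun heq => ?_⟩
  have heq2 := ((htr K2 hK2b).2).2 (hr ▸ ((htr K hK.1).2).1 heq)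
  by_cases hball : K2 = closedBall 0 1
  · refine ⟨a, T.symm, ?_⟩
    rw [← hball, hK2, image_image]
    simp [hK1, image_image]
    ext x
    simp
  · obtain ⟨j, hj⟩ := hstrict hball
    have h := (mul_lt_mul_of_pos_left hj hV).trans_le (bound j)
    rw [← step, heq2] at h
    exact absurd h (lt_irrefl _)

end Vale.Agent.P237.Full
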