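import Mathlib
import Vale.Agent.P237.Full.Main
import Vale.Agent.P237.Full.Affine
import Vale.Agent.P237.Full.BallEq

/-!
The induction on the dimension, and the equality clause.
-/

namespace Vale.Agent.P237.Full

open MeasureTheory Set Metric
open scoped RealInnerProductSpace Pointwise

/-- The inputs proved in the slice and fixed point files, for one dimension. -/
def Inputs (n : ℕ) : Prop :=
  BodyRule n ∧ RatioRule n ∧ FixedRule n ∧ (PettyAt (n - 1) → SliceRule n)

theorem imageRule (n : ℕ) (hn : 1 ≤ n) : ImageRule n :=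
  fun T _ hK => volume_projBody_linear T hK hn

/-- One step of the induction: inequality and equality case for every body. -/
theorem petty_step {n : ℕ} (hn : 3 ≤ n) (hin : Inputs n) (hC : ContactBound n)
    (IH : PettyAt (n - 1)) :
    PettyAt n ∧ ∀ L : Set (EuclideanSpace ℝ (Fin n)), IsBody L →
      kappa (n - 1) ^ n * (volume L).toReal ^ (n - 1) =
          kappa n ^ (n - 2) * (volume (projBody L)).toReal →
        ∃ (a : EuclideanSpace ℝ (Fin n))
          (T : EuclideanSpace ℝ (Fin n) ≃L[ℝ] EuclideanSpace ℝ (Fin n)),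
          L = (fun x => x + a) '' (T '' closedBall 0 1) := by
  obtain ⟨hB, hR, hF, hS⟩ := hin
  have hI := imageRule n (by omega)
  obtain ⟨K, hK⟩ := exists_minimiser_of_rules hn hI hB hR
  have hstep := fun K' (h : IsMinimiser K') => minimiser_step hn hI hB hF (hS IH) hC (K := K') h
  have hk : 0 < kappa n ^ (n - 2) := pow_pos (kappa_pos _) _
  have hle : PettyAt n := by
    intro L hL
    have h1 := (hstep K hK).1
    have h2 := mul_le_mul_of_nonneg_left (hK.2 L hL) hk.le
    have h3 := mul_le_mul_of_nonneg_right h1 (pow_nonneg (vol_pos hL).le (n - 1))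
    refine le_of_mul_le_mul_right ?_ (pow_pos (vol_pos hK.1) (n - 1))
    linarith
  refine ⟨hle, fun L hL heq => (hstep L ⟨hL, fun M hM => ?_⟩).2 heq⟩
  refine le_of_mul_le_mul_left ?_ hk
  have h := mul_le_mul_of_nonneg_right (hle M hM) (pow_nonneg (vol_pos hL).le (n - 1))
  calc kappa n ^ (n - 2) * ((volume (projBody L)).toReal * (volume M).toReal ^ (n - 1))
      = kappa (n - 1) ^ n * (volume L).toReal ^ (n - 1) * (volume M).toReal ^ (n - 1) := by
        rw [heq]; ring
    _ = kappa (n - 1) ^ n * (volume M).toReal ^ (n - 1) * (volume L).toReal ^ (n - 1) := by ring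
    _ ≤ kappa n ^ (n - 2) * (volume (projBody M)).toReal * (volume L).toReal ^ (n - 1) := h
    _ = _ := by ring

/-- Petty's inequality up to dimension `n` from the contact bounds up to dimension `n`. -/
theorem petty_induction (h2 : PettyAt 2) (hin : ∀ k, 3 ≤ k → Inputs k) :
    ∀ n, 2 ≤ n → (∀ k, 3 ≤ k → k ≤ n → ContactBound k) → PettyAt n := by
  intro n
  induction n with
  | zero => intro h; omega
  | succ m ih =>
    intro hm H
    rcases Nat.lt_or_ge m 2 with h | h
    · obtain rfl : m = 1 := by omega
      exact h2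
    · exact (petty_step (by omega) (hin _ (by omega)) (H _ (by omega) le_rfl)
        (ih h fun k hk hk' => H k hk (by omega))).1

/-- The full statement in one dimension: the inequality, with equality exactly for ellipsoids. -/
theorem petty_full (h2 : PettyAt 2) (hin : ∀ k, 3 ≤ k → Inputs k) {n : ℕ} (hn : 3 ≤ n)
    (H : ∀ k, 3 ≤ k → k ≤ n → ContactBound k) (L : Set (EuclideanSpace ℝ (Fin n)))
    (hL : IsBody L) :
    kappa (n - 1) ^ n * (volume L).toReal ^ (n - 1) ≤
        kappa n ^ (n - 2) * (volume (projBody L)).toReal ∧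
      (kappa (n - 1) ^ n * (volume L).toReal ^ (n - 1) =
          kappa n ^ (n - 2) * (volume (projBody L)).toReal ↔
        ∃ (a : EuclideanSpace ℝ (Fin n))
          (T : EuclideanSpace ℝ (Fin n) ≃L[ℝ] EuclideanSpace ℝ (Fin n)),
          L = (fun x => x + a) '' (T '' closedBall 0 1)) := by
  have IH := petty_induction h2 hin (n - 1) (by omega) fun k hk hk' => H k hk (by omega)
  have h := petty_step hn (hin n hn) (H n hn le_rfl) IH
  refine ⟨h.1 L hL, h.2 L hL, ?_⟩
  rintro ⟨a, T, rfl⟩
  exact equality_of_ellipsoid (by omega) a T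

end Vale.Agent.P237.Full
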