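import Vale.Agent.P237.Full.Gain
import Vale.Agent.P074.PL

/-!
The shadow of the projection body contains the Minkowski integral of the projection bodies of the
parallel sections, so it obeys the inductive lower bound.
-/

namespace Vale.Agent.P237.Full

open MeasureTheory Set Filter Module
open scoped ENNReal Pointwise RealInnerProductSpace Topology

variable {E : Type*} [NormedAddCommGroup E] [InnerProductSpace ℝ E] [FiniteDimensional ℝ E]
  [MeasurableSpace E] [BorelSpace E]

/-- The section of `K` at height `t` along `u`, seen in the hyperplane orthogonal to `u`. -/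
def secSet (K : Set E) (u : E) (t : ℝ) : Set ((ℝ ∙ u)ᗮ : Submodule ℝ E) :=
  {w | t • u + (w : E) ∈ K}

theorem eq_height_add_proj {u : E} (hu : ‖u‖ = 1) (z : E) :
    z = ⟪u, z⟫ • u + ((ℝ ∙ u)ᗮ.orthogonalProjectionOnto z : E) := by
  obtain ⟨e, -, -, -, -, happ, hproj⟩ := exists_split hu
  obtain ⟨⟨s, w⟩, rfl⟩ := e.surjective z
  have hw : ⟪u, (w : E)⟫ = 0 := Submodule.mem_orthogonal_singleton_iff_inner_right.1 w.2
  rw [hproj, happ]
  simp [inner_add_right, real_inner_smul_right, hu, hw]

omit [FiniteDimensional ℝ E] [MeasurableSpace E] [BorelSpace E] in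
theorem secSet_eq_empty {u : E} (hu : ‖u‖ = 1) {K : Set E} {t : ℝ}
    (ht : t ∉ (fun z => ⟪u, z⟫) '' K) : secSet K u t = ∅ := by
  refine eq_empty_of_forall_notMem fun w hw => ht ⟨_, hw, ?_⟩
  have h : ⟪u, (w : E)⟫ = 0 := Submodule.mem_orthogonal_singleton_iff_inner_right.1 w.2
  simp [inner_add_right, real_inner_smul_right, hu, h]

theorem secSet_subset {u : E} (hu : ‖u‖ = 1) (K : Set E) (t : ℝ) :
    secSet K u t ⊆ (ℝ ∙ u)ᗮ.orthogonalProjectionOnto '' K := by
  obtain ⟨e, -, -, -, -, happ, hproj⟩ := exists_split hu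
  exact fun w hw => ⟨_, hw, by rw [← happ (t, w), hproj]⟩

theorem isCompact_secSet {u : E} (hu : ‖u‖ = 1) {K : Set E} (cK : IsCompact K) (t : ℝ) :
    IsCompact (secSet K u t) :=
  (cK.image (ContinuousLinearMap.continuous _)).of_isClosed_subset
    (cK.isClosed.preimage (by fun_prop : Continuous fun w : ((ℝ ∙ u)ᗮ : Submodule ℝ E) =>
      t • u + (w : E))) (secSet_subset hu K t)

omit [FiniteDimensional ℝ E] [MeasurableSpace E] [BorelSpace E] in
theorem convex_secSet {u : E} {K : Set E} (hK : Convex ℝ K) (t : ℝ) : Convex ℝ (secSet K u t) := by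
  intro w hw w' hw' a b ha hb hab
  have h := hK hw hw' ha hb hab
  have e : t • u + ((a • w + b • w' : ((ℝ ∙ u)ᗮ : Submodule ℝ E)) : E)
      = a • (t • u + (w : E)) + b • (t • u + (w' : E)) := by
    have hb' : b = 1 - a := by linarith
    subst hb'
    push_cast
    module
  show t • u + ((a • w + b • w' : ((ℝ ∙ u)ᗮ : Submodule ℝ E)) : E) ∈ K
  rw [e]
  exact h

theorem lintegral_secSet {u : E} (hu : ‖u‖ = 1) {K : Set E} (cK : IsCompact K) :
    Measurable (fun t => volume (secSet K u t)) ∧ ∫⁻ t, volume (secSet K u t) = volume K := by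
  obtain ⟨e, he, -, hc, -, happ, -⟩ := exists_split hu
  have hm : MeasurableSet (e ⁻¹' K) := (cK.isClosed.preimage hc).measurableSet
  have h : (fun t => volume (secSet K u t)) = fun t => volume (Prod.mk t ⁻¹' (e ⁻¹' K)) := by
    funext t; congr 1; ext w; simp [secSet, happ]
  refine ⟨h ▸ measurable_measure_prodMk_left hm, ?_⟩
  rw [h, ← he.measure_preimage_equiv K]
  exact (Measure.prod_apply hm).symm

omit [FiniteDimensional ℝ E] [MeasurableSpace E] [BorelSpace E] in
theorem secSet_add_seg (K : Set E) (u : E) (θ : ((ℝ ∙ u)ᗮ : Submodule ℝ E)) (t : ℝ) :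
    secSet (K + seg (θ : E)) u t = secSet K u t + seg θ := by
  ext w
  constructor
  · rintro ⟨k, hk, _, ⟨s, hs, rfl⟩, h⟩
    refine ⟨w - s • θ, ?_, s • θ, ⟨s, hs, rfl⟩, sub_add_cancel _ _⟩
    show t • u + ((w - s • θ : ((ℝ ∙ u)ᗮ : Submodule ℝ E)) : E) ∈ K
    convert hk using 1
    push_cast
    rw [← add_sub_assoc, sub_eq_iff_eq_add]
    exact h.symm
  · rintro ⟨w', hw', _, ⟨s, hs, rfl⟩, rfl⟩
    exact ⟨_, hw', s • (θ : E), ⟨s, hs, rfl⟩, by push_cast; abel⟩

theorem gain_eq_integral {u : E} (hu : ‖u‖ = 1) {K : Set E} (cK : IsCompact K)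
    (θ : ((ℝ ∙ u)ᗮ : Submodule ℝ E)) :
    Integrable (fun t => gain (secSet K u t) θ) ∧ gain K (θ : E) = ∫ t, gain (secSet K u t) θ := by
  have key : ∀ L : Set E, IsCompact L → Integrable (fun t => (volume (secSet L u t)).toReal) ∧
      ∫ t, (volume (secSet L u t)).toReal = (volume L).toReal := by
    intro L cL
    obtain ⟨hm, hi⟩ := lintegral_secSet hu cL
    refine ⟨integrable_toReal_of_lintegral_ne_top hm.aemeasurable (by
      rw [hi]; exact cL.measure_ne_top), ?_⟩
    rw [integral_toReal hm.aemeasurable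
      (Eventually.of_forall fun t => (isCompact_secSet hu cL t).measure_lt_top), hi]
  obtain ⟨i1, e1⟩ := key _ (cK.add (isCompact_seg (θ : E)))
  obtain ⟨i2, e2⟩ := key K cK
  simp only [secSet_add_seg] at i1 e1
  refine ⟨i1.sub i2, ?_⟩
  simp only [gain]
  rw [integral_sub i1 i2, e1, e2]

/-- A translate of a scaled section lies in a nearby section. -/
theorem secSet_incl {u : E} (hu : ‖u‖ = 1) {K : Set E} (hK : Convex ℝ K) {zl zh : E}
    (hzl : zl ∈ K) (hzh : zh ∈ K) {η δ a t : ℝ} (hη : 0 < η) (hδ : 0 ≤ δ)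
    (htl : ⟪u, zl⟫ + η ≤ t) (hth : t + η ≤ ⟪u, zh⟫) (hat : |t - a| ≤ δ) :
    ∃ (r : ℝ) (p : ((ℝ ∙ u)ᗮ : Submodule ℝ E)),
      η / (η + δ) ≤ r ∧ r ≤ 1 ∧ ∀ x ∈ r • secSet K u a, p + x ∈ secSet K u t := by
  obtain ⟨h1, h2⟩ := abs_le.1 hat
  have main : ∀ z ∈ K, ∀ r : ℝ, 0 ≤ r → r ≤ 1 → r * a + (1 - r) * ⟪u, z⟫ = t →
      ∀ x ∈ r • secSet K u a,
        (1 - r) • (ℝ ∙ u)ᗮ.orthogonalProjectionOnto z + x ∈ secSet K u t := by
    rintro z hz r hr0 hr1 hrt _ ⟨w, hw, rfl⟩
    have h := hK hw hz hr0 (by linarith : (0 : ℝ) ≤ 1 - r) (by ring)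
    rw [eq_height_add_proj hu z] at h
    show t • u + _ ∈ K
    convert h using 1
    rw [← hrt]
    push_cast
    module
  rcases le_total a t with hle | hle
  · have hd : 0 < ⟪u, zh⟫ - a := by linarith
    set r := (⟪u, zh⟫ - t) / (⟪u, zh⟫ - a) with hr
    have hr1 : r ≤ 1 := by rw [hr, div_le_one hd]; linarith
    have hr0 : η / (η + δ) ≤ r := by
      rw [hr, div_le_div_iff₀ (by positivity) hd]
      nlinarith
    refine ⟨r, _, hr0, hr1, main zh hzh r (le_trans (by positivity) hr0) hr1 ?_⟩
    rw [hr]; field_simp; ring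
  · have hd : 0 < a - ⟪u, zl⟫ := by linarith
    set r := (t - ⟪u, zl⟫) / (a - ⟪u, zl⟫) with hr
    have hr1 : r ≤ 1 := by rw [hr, div_le_one hd]; linarith
    have hr0 : η / (η + δ) ≤ r := by
      rw [hr, div_le_div_iff₀ (by positivity) hd]
      nlinarith
    refine ⟨r, _, hr0, hr1, main zl hzl r (le_trans (by positivity) hr0) hr1 ?_⟩
    rw [hr]; field_simp; ring

/-- Midpoint Brunn–Minkowski in the form used below. -/
theorem volume_mid {W : Type*} [NormedAddCommGroup W] [InnerProductSpace ℝ W]
    [FiniteDimensional ℝ W] [MeasurableSpace W] [BorelSpace W] {A B : Set W} (cA : IsCompact A)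
    (cB : IsCompact B) {v : ℝ≥0∞} (hA : v ≤ volume A) (hB : v ≤ volume B) :
    v ≤ volume ((1 / 2 : ℝ) • (A + B)) := by
  set φ := (stdOrthonormalBasis ℝ W).repr
  set M := (1 / 2 : ℝ) • (A + B) with hM
  have cM : IsCompact M := (cA.add cB).smul _
  have mA := (cA.image φ.continuous).isClosed.measurableSet
  have mB := (cB.image φ.continuous).isClosed.measurableSet
  have mM := (cM.image φ.continuous).isClosed.measurableSet
  have h := Vale.Agent.P074.prekopa (f := (φ '' A).indicator 1) (g := (φ '' B).indicator 1)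
    (h := (φ '' M).indicator 1) (measurable_one.indicator mA) (measurable_one.indicator mB)
    (measurable_one.indicator mM) (fun x y => by
      by_cases hx : x ∈ φ '' A
      · by_cases hy : y ∈ φ '' B
        · obtain ⟨a, ha, rfl⟩ := hx
          obtain ⟨b, hb, rfl⟩ := hy
          have hm : (1 / 2 : ℝ) • (φ a + φ b) ∈ φ '' M :=
            ⟨(1 / 2 : ℝ) • (a + b), smul_mem_smul_set (add_mem_add ha hb), by
              simp [map_smul, map_add]⟩
          rw [indicator_of_mem (mem_image_of_mem φ ha), indicator_of_mem (mem_image_of_mem φ hb),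
            indicator_of_mem hm]
          simp
        · simp [indicator_of_notMem hy]
      · simp [indicator_of_notMem hx])
  rw [lintegral_indicator_one mA, lintegral_indicator_one mB, lintegral_indicator_one mM,
    volume_isometry, volume_isometry, volume_isometry] at h
  have h2 : v ^ 2 ≤ volume M ^ 2 := le_trans (by rw [sq]; exact mul_le_mul' hA hB) h
  exact (ENNReal.pow_le_pow_left_iff two_ne_zero).mp h2

/-- The average of `2 ^ k` sets of volume at least `v` has volume at least `v`. -/
theorem volume_avg {W : Type*} [NormedAddCommGroup W] [InnerProductSpace ℝ W]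
    [FiniteDimensional ℝ W] [MeasurableSpace W] [BorelSpace W] {v : ℝ≥0∞} {T : Set W} :
    ∀ (k : ℕ) (Q : ℕ → Set W), (∀ j < 2 ^ k, IsCompact (Q j)) → (∀ j < 2 ^ k, v ≤ volume (Q j)) →
      (∀ y : ℕ → W, (∀ j < 2 ^ k, y j ∈ Q j) →
        ((2 : ℝ) ^ k)⁻¹ • ∑ j ∈ Finset.range (2 ^ k), y j ∈ T) → v ≤ volume T := by
  intro k
  induction k with
  | zero =>
      intro Q _ hv hT
      refine (hv 0 (by simp)).trans (measure_mono fun x hx => ?_)
      simpa using hT (fun _ => x) (fun j hj => by simp at hj; subst hj; exact hx)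
  | succ k ih =>
      intro Q hc hv hT
      have e : 2 ^ (k + 1) = 2 ^ k + 2 ^ k := by rw [pow_succ]; ring
      refine ih (fun j => (1 / 2 : ℝ) • (Q j + Q (2 ^ k + j)))
        (fun j hj => ((hc j (by omega)).add (hc _ (by omega))).smul _)
        (fun j hj => volume_mid (hc j (by omega)) (hc _ (by omega)) (hv j (by omega))
          (hv _ (by omega))) fun z hz => ?_
      have hz' : ∀ j, j < 2 ^ k → ∃ a ∈ Q j, ∃ b ∈ Q (2 ^ k + j), (1 / 2 : ℝ) • (a + b) = z j := by
        intro j hj
        obtain ⟨_, ⟨a, ha, b, hb, rfl⟩, h⟩ := hz j hj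
        exact ⟨a, ha, b, hb, h⟩
      choose! a ha b hb hab using hz'
      have h := hT (fun j => if j < 2 ^ k then a j else b (j - 2 ^ k)) (fun j hj => by
        split_ifs with h'
        · exact ha j h'
        · have h2 := hb (j - 2 ^ k) (by omega)
          rwa [Nat.add_sub_cancel' (by omega)] at h2)
      convert h using 1
      rw [e, Finset.sum_range_add, Finset.sum_congr rfl fun j hj =>
          (hab j (Finset.mem_range.1 hj)).symm,
        Finset.sum_congr rfl fun j hj => if_pos (Finset.mem_range.1 hj),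
        Finset.sum_congr rfl fun j _ => (if_neg (by omega : ¬ 2 ^ k + j < 2 ^ k)),
        ← Finset.sum_add_distrib, ← Finset.smul_sum, smul_smul, pow_succ, mul_inv,
        one_div]
      simp

/-- The inductive hypothesis in any space of the right dimension. -/
theorem petty_transfer {m : ℕ} {c : ℝ≥0∞}
    (IH : ∀ L : Set (EuclideanSpace ℝ (Fin m)), Convex ℝ L → IsCompact L →
      (interior L).Nonempty → c * volume L ^ (m - 1) ≤ volume (projBody L))
    {W : Type*} [NormedAddCommGroup W] [InnerProductSpace ℝ W] [FiniteDimensional ℝ W]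
    [MeasurableSpace W] [BorelSpace W] (hW : finrank ℝ W = m) {L : Set W} (hL : Convex ℝ L)
    (cL : IsCompact L) (hne : (interior L).Nonempty) :
    c * volume L ^ (m - 1) ≤ volume (projBody L) := by
  subst hW
  set φ := (stdOrthonormalBasis ℝ W).repr
  have hne' : (interior (φ '' L)).Nonempty := by
    obtain ⟨x, hx⟩ := hne
    exact ⟨φ x, φ.toHomeomorph.isOpenMap.image_interior_subset L ⟨x, hx, rfl⟩⟩
  have h := IH (φ '' L) (hL.linear_image φ.toLinearEquiv.toLinearMap) (cL.image φ.continuous) hne'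
  rwa [volume_isometry, projBody_isometry φ hL cL, volume_isometry] at h

theorem nonempty_interior_of_volume {W : Type*} [NormedAddCommGroup W] [InnerProductSpace ℝ W]
    [FiniteDimensional ℝ W] [MeasurableSpace W] [BorelSpace W] {L : Set W} (hL : Convex ℝ L)
    (h : volume L ≠ 0) : (interior L).Nonempty := by
  by_contra hne
  rw [not_nonempty_iff_eq_empty] at hne
  refine h (measure_mono_null (fun x hx => ?_) (hL.addHaar_frontier (μ := volume)))
  rw [frontier, hne, sdiff_empty]
  exact subset_closure hx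

/-- The inductive bound on an interval strictly inside the range of heights. -/
theorem shadow_projBody_ge_Icc {m : ℕ} (hm : 2 ≤ m) (hE : finrank ℝ E = m + 1) {c : ℝ≥0∞}
    (IH : ∀ L : Set (EuclideanSpace ℝ (Fin m)), Convex ℝ L → IsCompact L →
      (interior L).Nonempty → c * volume L ^ (m - 1) ≤ volume (projBody L))
    {K : Set E} (hK : Convex ℝ K) (cK : IsCompact K) {u : E} (hu : ‖u‖ = 1) {x₀ : E}
    (hx₀ : x₀ ∈ interior K) {zl zh : E} (hzl : zl ∈ K) (hzh : zh ∈ K) {η l r : ℝ} (hη : 0 < η)
    (hl : ⟪u, zl⟫ + η ≤ l) (hlr : l < r) (hr : r + η ≤ ⟪u, zh⟫) :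
    c * (∫⁻ t in Icc l r, volume (secSet K u t) ^ (((m : ℝ) - 1) / m)) ^ m
      ≤ shadow (projBody K) u := by
  have hW := finrank_compl hE hu
  set p : ℝ := ((m : ℝ) - 1) / m with hp
  have hm2 : (2 : ℝ) ≤ m := by exact_mod_cast hm
  have hp0 : 0 < p := div_pos (by linarith) (by positivity)
  set A : ℝ → ℝ := fun t => (volume (secSet K u t)).toReal with hA
  set f : ℝ → ℝ := fun t => A t ^ p with hf
  have hcs := isCompact_secSet hu cK
  have hAm : Measurable A := (lintegral_secSet hu cK).1.ennreal_toReal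
  have hA0 : ∀ t, 0 ≤ A t := fun t => ENNReal.toReal_nonneg
  have hfm : Measurable f := hAm.pow_const p
  have hfb : ∀ t, |f t| ≤ (shadow K u).toReal ^ p := by
    intro t
    rw [abs_of_nonneg (Real.rpow_nonneg (hA0 t) p)]
    exact Real.rpow_le_rpow (hA0 t) (ENNReal.toReal_mono (shadow_ne_top cK u)
      (measure_mono (secSet_subset hu K t))) hp0.le
  have hfi : ∀ a b : ℝ, IntegrableOn f (Icc a b) := fun a b =>
    Measure.integrableOn_of_bounded measure_Icc_lt_top.ne hfm.aestronglyMeasurable
      (Eventually.of_forall hfb)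
  have hfii : ∀ a b : ℝ, IntervalIntegrable f volume a b := fun a b =>
    (hfi (min a b) (max a b)).intervalIntegrable
  -- a positive lower bound for the sections on the interval
  obtain ⟨fmin, hfmin, hfge⟩ : ∃ fmin > 0, ∀ t ∈ Icc l r, fmin ≤ f t := by
    set t₀ := ⟪u, x₀⟫
    have hpos : 0 < A t₀ := by
      refine ENNReal.toReal_pos (ne_of_gt ?_) (hcs t₀).measure_ne_top
      refine (IsOpen.measure_pos volume
        (isOpen_interior.preimage (by fun_prop : Continuous fun w : ((ℝ ∙ u)ᗮ : Submodule ℝ E) =>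
          t₀ • u + (w : E))) ⟨(ℝ ∙ u)ᗮ.orthogonalProjectionOnto x₀, ?_⟩).trans_le
        (measure_mono fun w hw => interior_subset (s := K) hw)
      show t₀ • u + _ ∈ interior K
      rwa [← eq_height_add_proj hu x₀]
    have hb : ∀ t ∈ Icc l r, |t - t₀| ≤ |l - t₀| + |r - t₀| := fun t ht => by
      rw [abs_le]
      constructor <;> cases abs_cases (l - t₀) <;> cases abs_cases (r - t₀) <;>
        linarith [ht.1, ht.2]
    set D := |l - t₀| + |r - t₀|
    refine ⟨((η / (η + D)) ^ m * A t₀) ^ p, by positivity, fun t ht => ?_⟩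
    obtain ⟨s, q, hs, -, hsub⟩ := secSet_incl hu hK hzl hzh hη (by positivity : 0 ≤ D)
      (by linarith [ht.1]) (by linarith [ht.2]) (hb t ht)
    have hs0 : 0 ≤ s := le_trans (by positivity) hs
    refine Real.rpow_le_rpow (by positivity) (le_trans (mul_le_mul_of_nonneg_right
      (pow_le_pow_left₀ (by positivity) hs m) (hA0 t₀)) ?_) hp0.le
    have h := ENNReal.toReal_mono (hcs t).measure_ne_top (measure_mono (μ := volume)
      (show (fun x => q + x) '' (s • secSet K u t₀) ⊆ secSet K u t from image_subset_iff.2 hsub))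
    rwa [image_add_left, measure_preimage_add, Measure.addHaar_smul_of_nonneg volume hs0,
      hW, ENNReal.toReal_mul, ENNReal.toReal_ofReal (pow_nonneg hs0 m)] at h
  set C := ∫ x in l..r, f x with hC
  have hmono : ∀ a b, l ≤ a → a ≤ b → b ≤ r → fmin * (b - a) ≤ ∫ x in a..b, f x := by
    intro a b h1 h2 h3
    have h := intervalIntegral.integral_mono_on h2 (intervalIntegrable_const (c := fmin))
      (hfii a b) fun x hx => hfge x ⟨h1.trans hx.1, hx.2.trans h3⟩
    simpa [mul_comm] using h
  have hC0 : 0 < C := lt_of_lt_of_le (mul_pos hfmin (by linarith)) (hmono l r le_rfl hlr.le le_rfl)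
  -- the bound at each dyadic level
  have step : ∀ k : ℕ,
      c * ENNReal.ofReal (((η / (η + C / ((2 : ℝ) ^ k * fmin))) ^ (m - 1) * C) ^ m)
        ≤ shadow (projBody K) u := by
    intro k
    set N : ℝ := (2 : ℝ) ^ k with hN
    have hN0 : 0 < N := by positivity
    set δ := C / (N * fmin) with hδ
    set κ := (η / (η + δ)) ^ (m - 1) with hκ
    have hδ0 : 0 ≤ δ := by positivity
    have hκ0 : 0 ≤ κ := by positivity
    have hF : ContinuousOn (fun s => ∫ x in l..s, f x) (Icc l r) :=
      (intervalIntegral.continuous_primitive hfii l).continuousOn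
    have hex : ∀ j : ℕ, j ≤ 2 ^ k → ∃ s ∈ Icc l r, ∫ x in l..s, f x = j * (C / N) := by
      intro j hj
      refine intermediate_value_Icc hlr.le hF ⟨by simp; positivity, ?_⟩
      have : (j : ℝ) ≤ N := by rw [hN]; exact_mod_cast hj
      show _ ≤ C
      calc (j : ℝ) * (C / N) ≤ N * (C / N) := by gcongr
        _ = C := by field_simp
    choose! g hg hgF using hex
    have hint : ∀ j < 2 ^ k, ∫ x in g j..g (j + 1), f x = C / N := by
      intro j hj
      rw [← intervalIntegral.integral_interval_sub_left (hfii l _) (hfii l _),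
        hgF j (by omega), hgF (j + 1) (by omega)]
      push_cast; ring
    have hlt : ∀ j < 2 ^ k, g j < g (j + 1) := by
      intro j hj
      by_contra hc
      rw [not_lt] at hc
      have h := hmono _ _ (hg (j + 1) (by omega)).1 hc (hg j (by omega)).2
      rw [intervalIntegral.integral_symm, hint j hj] at h
      have : 0 < C / N := by positivity
      nlinarith
    have hlen : ∀ j < 2 ^ k, g (j + 1) - g j ≤ δ := by
      intro j hj
      have h := hmono _ _ (hg j (by omega)).1 (hlt j hj).le (hg (j + 1) (by omega)).2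
      rw [hint j hj] at h
      rw [hδ, le_div_iff₀ (by positivity)]
      have h2 := mul_le_mul_of_nonneg_left h hN0.le
      rw [mul_div_cancel₀ C hN0.ne'] at h2
      linarith
    have hpt : ∀ j, j < 2 ^ k → ∃ a ∈ Icc (g j) (g (j + 1)),
        C / N ≤ (g (j + 1) - g j) * f a := by
      intro j hj
      have hne : volume (Icc (g j) (g (j + 1))) ≠ 0 := by
        rw [Real.volume_Icc]; simp [hlt j hj]
      obtain ⟨a, ha, hle⟩ := exists_setAverage_le hne measure_Icc_lt_top.ne (hfi _ _)
      refine ⟨a, ha, ?_⟩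
      rw [setAverage_eq, integral_Icc_eq_integral_Ioc,
        ← intervalIntegral.integral_of_le (hlt j hj).le, hint j hj,
        Real.volume_real_Icc_of_le (hlt j hj).le, smul_eq_mul,
        inv_mul_le_iff₀ (sub_pos.2 (hlt j hj))] at hle
      exact hle
    choose! a ha hav using hpt
    refine volume_avg k
      (fun j => (N * κ * (g (j + 1) - g j)) • projBody (secSet K u (a j))) (fun j _ => ?_)
      (fun j hj => ?_) fun y hy => ?_
    · exact (isCompact_projBody' (convex_secSet hK _) (hcs _)).smul _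
    · have hδj := sub_pos.2 (hlt j hj)
      set r' := N * κ * (g (j + 1) - g j) with hr'
      have hr0 : 0 ≤ r' := by positivity
      have hfa : 0 < f (a j) := lt_of_lt_of_le hfmin (hfge _ ⟨(hg j (by omega)).1.trans (ha j hj).1,
        (ha j hj).2.trans (hg (j + 1) (by omega)).2⟩)
      have hAa : A (a j) ≠ 0 := fun h => by simp [hf, h, hp0.ne'] at hfa
      rw [Measure.addHaar_smul_of_nonneg volume hr0, hW]
      refine le_trans ?_ (mul_le_mul_right (petty_transfer IH hW (convex_secSet hK _) (hcs _)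
        (nonempty_interior_of_volume (convex_secSet hK _) fun h => hAa (by simp [hA, h]))) _)
      rw [← ENNReal.ofReal_toReal (hcs (a j)).measure_ne_top, ← ENNReal.ofReal_pow (hA0 _),
        mul_left_comm, ← ENNReal.ofReal_mul (pow_nonneg hr0 m)]
      gcongr
      have e : A (a j) ^ (m - 1) = f (a j) ^ m := by
        rw [hf]
        dsimp only
        rw [← Real.rpow_natCast, ← Real.rpow_natCast (_ ^ p), ← Real.rpow_mul (hA0 _), hp,
          div_mul_cancel₀ _ (by positivity), Nat.cast_sub (by omega), Nat.cast_one]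
      change _ ≤ r' ^ m * A (a j) ^ (m - 1)
      rw [e, ← mul_pow]
      refine pow_le_pow_left₀ (by positivity) ?_ m
      have h2 := mul_le_mul_of_nonneg_left (hav j hj) (by positivity : 0 ≤ N * κ)
      rw [hr']
      calc κ * C = N * κ * (C / N) := by field_simp
        _ ≤ N * κ * ((g (j + 1) - g j) * f (a j)) := h2
        _ = _ := by ring
    · refine mem_proj_projBody hK cK _ fun θ => ?_
      obtain ⟨hdi, hde⟩ := gain_eq_integral hu cK θ
      rw [hde, real_inner_smul_left, sum_inner, Finset.mul_sum]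
      have hd0 : ∀ t, 0 ≤ gain (secSet K u t) θ := fun t => gain_nonneg (hcs t) θ
      have hone : ∀ j ∈ Finset.range (2 ^ k), N⁻¹ * ⟪y j, θ⟫
          ≤ ∫ t in g j..g (j + 1), gain (secSet K u t) θ := by
        intro j hj
        rw [Finset.mem_range] at hj
        obtain ⟨z, hz, hzy⟩ := hy j hj
        rw [projBody_eq (convex_secSet hK _) (hcs _)] at hz
        rw [← hzy, real_inner_smul_left]
        have hδj := sub_pos.2 (hlt j hj)
        calc N⁻¹ * (N * κ * (g (j + 1) - g j) * ⟪z, θ⟫)
            = (g (j + 1) - g j) * (κ * ⟪z, θ⟫) := by field_simp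
          _ ≤ (g (j + 1) - g j) * (κ * gain (secSet K u (a j)) θ) := by gcongr; exact hz θ
          _ = ∫ _ in g j..g (j + 1), κ * gain (secSet K u (a j)) θ := by
              rw [intervalIntegral.integral_const, smul_eq_mul]
          _ ≤ _ := by
              refine intervalIntegral.integral_mono_on (hlt j hj).le intervalIntegrable_const
                hdi.intervalIntegrable fun t ht => ?_
              have hdist : |t - a j| ≤ δ := by
                rw [abs_le]
                constructor <;> linarith [(ha j hj).1, (ha j hj).2, ht.1, ht.2, hlen j hj]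
              obtain ⟨s, q, hs, -, hsub⟩ := secSet_incl hu hK hzl hzh hη hδ0
                (by linarith [(hg j (by omega)).1, ht.1])
                (by linarith [(hg (j + 1) (by omega)).2, ht.2]) hdist
              have hs0 : 0 ≤ s := le_trans (by positivity) hs
              obtain ⟨m', rfl⟩ : ∃ m', m = m' + 1 := ⟨m - 1, by omega⟩
              refine le_trans ?_ (gain_mono ((convex_secSet hK _).smul s) ((hcs _).smul s)
                (convex_secSet hK _) (hcs _) q hsub θ)
              rw [gain_smul_set hW (convex_secSet hK _) (hcs _) hs0, hκ, Nat.add_sub_cancel]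
              exact mul_le_mul_of_nonneg_right (pow_le_pow_left₀ (by positivity) hs _)
                (gain_nonneg (hcs _) θ)
      refine (Finset.sum_le_sum hone).trans ?_
      rw [intervalIntegral.sum_integral_adjacent_intervals (fun j _ => hdi.intervalIntegrable),
        intervalIntegral.integral_of_le]
      · exact setIntegral_le_integral hdi (Eventually.of_forall hd0)
      · have h := (Finset.sum_range_sub g (2 ^ k))
        have h2 : 0 ≤ ∑ j ∈ Finset.range (2 ^ k), (g (j + 1) - g j) :=
          Finset.sum_nonneg fun j hj => (sub_pos.2 (hlt j (Finset.mem_range.1 hj))).le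
        linarith
  -- let the level tend to infinity
  have hCe : ENNReal.ofReal C = ∫⁻ t in Icc l r, volume (secSet K u t) ^ p := by
    rw [hC, intervalIntegral.integral_of_le hlr.le, ← integral_Icc_eq_integral_Ioc,
      ofReal_integral_eq_lintegral_ofReal (hfi l r)
        (Eventually.of_forall fun t => Real.rpow_nonneg (hA0 t) p)]
    refine lintegral_congr fun t => ?_
    show ENNReal.ofReal (A t ^ p) = _
    rw [← ENNReal.ofReal_rpow_of_nonneg (hA0 t) hp0.le,
      ENNReal.ofReal_toReal (hcs t).measure_ne_top]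
  rw [← hCe, ← ENNReal.ofReal_pow hC0.le]
  have hlim : Tendsto (fun k : ℕ =>
      c * ENNReal.ofReal (((η / (η + C / ((2 : ℝ) ^ k * fmin))) ^ (m - 1) * C) ^ m))
      atTop (𝓝 (c * ENNReal.ofReal (C ^ m))) := by
    have h1 : Tendsto (fun k : ℕ => C / ((2 : ℝ) ^ k * fmin)) atTop (𝓝 0) :=
      Tendsto.const_div_atTop ((tendsto_pow_atTop_atTop_of_one_lt (by norm_num)).atTop_mul_const
        hfmin) C
    have h2 : Tendsto (fun k : ℕ =>
        ((η / (η + C / ((2 : ℝ) ^ k * fmin))) ^ (m - 1) * C) ^ m) atTop (𝓝 (C ^ m)) := by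
      have h3 := (((tendsto_const_nhds (x := η)).div ((tendsto_const_nhds (x := η)).add h1)
        (by simp [hη.ne'])).pow (m - 1)).mul_const C |>.pow m
      simpa [hη.ne'] using h3
    exact ENNReal.Tendsto.const_mul (ENNReal.tendsto_ofReal h2)
      (Or.inl (by simp [pow_pos hC0]))
  exact le_of_tendsto hlim (Eventually.of_forall step)

/-- Lower bound for the shadow of the projection body, given Petty's bound one dimension below. -/
theorem shadow_projBody_ge_secSet {m : ℕ} (hm : 2 ≤ m) (hE : finrank ℝ E = m + 1) {c : ℝ≥0∞}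
    (IH : ∀ L : Set (EuclideanSpace ℝ (Fin m)), Convex ℝ L → IsCompact L →
      (interior L).Nonempty → c * volume L ^ (m - 1) ≤ volume (projBody L))
    {K : Set E} (hK : Convex ℝ K) (cK : IsCompact K) (hne : (interior K).Nonempty) {u : E}
    (hu : ‖u‖ = 1) :
    c * (∫⁻ t, volume (secSet K u t) ^ (((m : ℝ) - 1) / m)) ^ m ≤ shadow (projBody K) u := by
  obtain ⟨x₀, hx₀⟩ := hne
  set F : E → ℝ := fun z => ⟪u, z⟫
  obtain ⟨zl, hzl, hmin⟩ := cK.exists_isMinOn ⟨x₀, interior_subset hx₀⟩
    (f := F) (by fun_prop)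
  obtain ⟨zh, hzh, hmax⟩ := cK.exists_isMaxOn ⟨x₀, interior_subset hx₀⟩
    (f := F) (by fun_prop)
  set p : ℝ := ((m : ℝ) - 1) / m with hp
  have hm2 : (2 : ℝ) ≤ m := by exact_mod_cast hm
  have hp0 : 0 < p := div_pos (by linarith) (by positivity)
  set g : ℝ → ℝ≥0∞ := fun t => volume (secSet K u t) ^ p with hg
  have hlo : F zl < F zh := by
    obtain ⟨ρ, hρ, hball⟩ : ∃ ρ > 0, Metric.closedBall x₀ ρ ⊆ K :=
      Metric.nhds_basis_closedBall.mem_iff.1 (mem_interior_iff_mem_nhds.1 hx₀)
    have h1 : F zl ≤ F x₀ := hmin (interior_subset hx₀)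
    have h2 : F (x₀ + ρ • u) ≤ F zh := hmax (hball (by simp [norm_smul, hu, abs_of_pos hρ]))
    simp only [F, inner_add_right, real_inner_smul_right, real_inner_self_eq_norm_sq, hu] at h1 h2 ⊢
    linarith
  have hsupp : ∫⁻ t, g t = ∫⁻ t in Ioo (F zl) (F zh), g t := by
    rw [setLIntegral_congr Ioo_ae_eq_Icc, setLIntegral_eq_of_support_subset]
    intro t ht
    by_contra hc
    refine ht ?_
    have h : secSet K u t = ∅ := secSet_eq_empty hu fun ⟨z, hz, hzt⟩ =>
      hc ⟨hzt ▸ hmin hz, hzt ▸ hmax hz⟩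
    simp [g, h, ENNReal.zero_rpow_of_pos hp0]
  set S : ℕ → Set ℝ := fun k =>
    Icc (F zl + (F zh - F zl) / (k + 3)) (F zh - (F zh - F zl) / (k + 3)) with hS
  have hSm : Monotone S := by
    intro i j hij
    have h : (F zh - F zl) / ((j : ℝ) + 3) ≤ (F zh - F zl) / ((i : ℝ) + 3) :=
      div_le_div_of_nonneg_left (by linarith) (by positivity)
        (by have : (i : ℝ) ≤ j := by exact_mod_cast hij
            linarith)
    exact Icc_subset_Icc (by linarith) (by linarith)
  have hSU : ⋃ k, S k = Ioo (F zl) (F zh) := by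
    ext t
    simp only [mem_iUnion, hS, mem_Icc, mem_Ioo]
    constructor
    · rintro ⟨k, h1, h2⟩
      have : 0 < (F zh - F zl) / ((k : ℝ) + 3) := div_pos (by linarith) (by positivity)
      constructor <;> linarith
    · rintro ⟨h1, h2⟩
      obtain ⟨k, hk⟩ := exists_nat_gt ((F zh - F zl) / min (t - F zl) (F zh - t))
      have hmn : 0 < min (t - F zl) (F zh - t) := lt_min (by linarith) (by linarith)
      rw [div_lt_iff₀ hmn] at hk
      have h3 : (F zh - F zl) / ((k : ℝ) + 3) ≤ min (t - F zl) (F zh - t) := by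
        rw [div_le_iff₀ (by positivity)]
        nlinarith
      refine ⟨k, ?_, ?_⟩ <;> linarith [min_le_left (t - F zl) (F zh - t),
        min_le_right (t - F zl) (F zh - t)]
  rw [show (∫⁻ t, volume (secSet K u t) ^ p) = ∫⁻ t, g t from rfl, hsupp]
  by_cases h0 : ∫⁻ t in Ioo (F zl) (F zh), g t = 0
  · rw [h0, zero_pow (by omega), mul_zero]; exact zero_le
  have hlim : Tendsto (fun k => c * (∫⁻ t in S k, g t) ^ m) atTop
      (𝓝 (c * (∫⁻ t in Ioo (F zl) (F zh), g t) ^ m)) := by
    refine ENNReal.Tendsto.const_mul ?_ (Or.inl (pow_ne_zero _ h0))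
    refine ((ENNReal.continuous_pow m).tendsto _).comp ?_
    have h := tendsto_measure_iUnion_atTop (μ := volume.withDensity g) hSm
    rw [hSU, withDensity_apply _ measurableSet_Ioo] at h
    exact h.congr fun k => withDensity_apply _ measurableSet_Icc
  refine le_of_tendsto hlim (Eventually.of_forall fun k => ?_)
  have hd : 0 < (F zh - F zl) / ((k : ℝ) + 3) := div_pos (by linarith) (by positivity)
  have h3 : (F zh - F zl) / ((k : ℝ) + 3) * 3 ≤ F zh - F zl := by
    rw [div_mul_eq_mul_div, div_le_iff₀ (by positivity)]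
    nlinarith [show (0 : ℝ) ≤ k from k.cast_nonneg]
  exact shadow_projBody_ge_Icc hm hE IH hK cK hu hx₀ hzl hzh hd le_rfl (by linarith) (by
    show _ - _ + _ ≤ F zh
    linarith)

end Vale.Agent.P237.Full
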