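import Vale.Agent.P237.Full.Defs
import Vale.Agent.P237.Full.Sections

/-!
The inductive lower bound for the shadow of the projection body, in the form of the interfaces.
-/

namespace Vale.Agent.P237.Full

open MeasureTheory Set
open scoped ENNReal RealInnerProductSpace

theorem shadow_projBody_ge {m : ℕ} (hm : 2 ≤ m) (IH : PettyAt m)
    {K : Set (EuclideanSpace ℝ (Fin (m + 1)))} (hK : IsBody K)
    {u : EuclideanSpace ℝ (Fin (m + 1))} (hu : ‖u‖ = 1) :
    kappa (m - 1) ^ m * sectPow K u ≤ kappa m ^ (m - 2) * (shadow (projBody K) u).toReal := by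
  obtain ⟨hKc, cK, hne⟩ := hK
  have hk : 0 < kappa m ^ (m - 2) := pow_pos (kappa_pos m) _
  set c : ℝ≥0∞ := ENNReal.ofReal (kappa (m - 1) ^ m / kappa m ^ (m - 2)) with hc
  have hc0 : 0 ≤ kappa (m - 1) ^ m / kappa m ^ (m - 2) :=
    div_nonneg (pow_nonneg (kappa_pos _).le _) hk.le
  have hIH : ∀ L : Set (EuclideanSpace ℝ (Fin m)), Convex ℝ L → IsCompact L →
      (interior L).Nonempty → c * volume L ^ (m - 1) ≤ volume (projBody L) := by
    intro L hL cL hLi
    have h := IH L ⟨hL, cL, hLi⟩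
    rw [hc, ← ENNReal.ofReal_toReal cL.measure_ne_top,
      ← ENNReal.ofReal_toReal (isCompact_projBody' hL cL).measure_ne_top,
      ← ENNReal.ofReal_pow ENNReal.toReal_nonneg, ← ENNReal.ofReal_mul hc0]
    refine ENNReal.ofReal_le_ofReal ?_
    rw [div_mul_eq_mul_div, div_le_iff₀ hk]
    linarith
  have hE : Module.finrank ℝ (EuclideanSpace ℝ (Fin (m + 1))) = m + 1 := by simp
  have h := shadow_projBody_ge_secSet hm hE hIH hKc cK hne hu
  set p : ℝ := ((m : ℝ) - 1) / m with hp
  set S : ℝ → ℝ≥0∞ := fun t => volume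
    {w : ((ℝ ∙ u)ᗮ : Submodule ℝ (EuclideanSpace ℝ (Fin (m + 1)))) |
      t • u + (w : EuclideanSpace ℝ (Fin (m + 1))) ∈ K} with hS
  have hsect : sectPow K u = (∫⁻ t, S t ^ p).toReal ^ m := by
    rw [sectPow, Nat.add_sub_cancel,
      show ((((m + 1 : ℕ) : ℝ) - 2) / (((m + 1 : ℕ) : ℝ) - 1)) = p by
        rw [hp]; push_cast; ring_nf]
    congr 1
    have hsec : ∀ t, Vale.Agent.P237.Full.sect K u t = (S t).toReal := fun t => by
      simp only [Full.sect, hS, add_comm (t • u)]
    simp only [hsec]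
    have hm2 : (2 : ℝ) ≤ m := by exact_mod_cast hm
    have hp0 : 0 ≤ p := div_nonneg (by linarith) (by positivity)
    have hmeas : Measurable S := (lintegral_secSet hu cK).1
    rw [integral_eq_lintegral_of_nonneg_ae
      (Filter.Eventually.of_forall fun t => Real.rpow_nonneg ENNReal.toReal_nonneg p)
      (hmeas.ennreal_toReal.pow_const p).aestronglyMeasurable]
    congr 1
    refine lintegral_congr fun t => ?_
    rw [← ENNReal.ofReal_rpow_of_nonneg ENNReal.toReal_nonneg hp0,
      ENNReal.ofReal_toReal (show S t ≠ ⊤ from (isCompact_secSet hu cK t).measure_ne_top)]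
  rw [hsect]
  have h' := ENNReal.toReal_mono
    (shadow_ne_top (isCompact_projBody' hKc cK) u) h
  rw [ENNReal.toReal_mul, hc, ENNReal.toReal_ofReal hc0, ENNReal.toReal_pow,
    div_mul_eq_mul_div, div_le_iff₀ hk] at h'
  exact h'.trans_eq (mul_comm _ _)

end Vale.Agent.P237.Full
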