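import Mathlib
import Vale.Agent.P237.Full.Induction
import Vale.Agent.P237.Full.Slices
import Vale.Agent.P237.Full.Base
import Vale.Agent.P237.Full.FixedPoint

/-!
The slice inputs in the form used by the induction.
-/

namespace Vale.Agent.P237.Full

theorem sliceRule {n : ℕ} (hn : 3 ≤ n) (IH : PettyAt (n - 1)) : SliceRule n := by
  obtain ⟨m, rfl⟩ : ∃ m, n = m + 1 := ⟨n - 1, by omega⟩
  simp only [Nat.add_sub_cancel] at IH
  intro K hK u hu
  have h := shadow_projBody_ge (by omega) IH hK hu
  simpa only [Nat.add_sub_cancel, show m + 1 - 2 = m - 1 by omega,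
    show m + 1 - 3 = m - 2 by omega] using h

/-- All inputs of the induction. -/
theorem inputs {n : ℕ} (hn : 3 ≤ n) : Inputs n :=
  ⟨fun _ hK => isBody_projBody (by omega) hK, fun _ hK => ratio_projBody_le (by omega) hK,
    fun _ hK h => fixed_point (by omega) hK h, fun IH => sliceRule hn IH⟩

end Vale.Agent.P237.Full
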