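import Vale.Agent.P237.Facets.Concave

/-!
The marginal of a compact convex set in the first coordinate: midpoint inequality, comparison
along the axis, continuity and positivity inside the range of the coordinate.
-/

namespace Vale.Agent.P237.Full.BM

open MeasureTheory Set
open scoped ENNReal Pointwise

variable {n m : ℕ}

/-- Midpoint Brunn–Minkowski in product form. -/
theorem volume_mul_le_sq {A B C : Set (Fin n → ℝ)} (hA : MeasurableSet A) (hB : MeasurableSet B)
    (hC : MeasurableSet C) (h : ∀ x ∈ A, ∀ y ∈ B, (1 / 2 : ℝ) • (x + y) ∈ C) :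
    volume A * volume B ≤ volume C ^ 2 := by
  have key := Vale.Agent.P074.pl_pi n (f := A.indicator 1) (g := B.indicator 1)
    (h := C.indicator 1) (measurable_one.indicator hA) (measurable_one.indicator hB)
    (measurable_one.indicator hC) fun x y => by
      by_cases hx : x ∈ A
      · by_cases hy : y ∈ B
        · rw [indicator_of_mem hx, indicator_of_mem hy, indicator_of_mem (h x hx y hy)]
          simp
        · simp [indicator_of_notMem hy]
      · simp [indicator_of_notMem hx]
  simpa only [lintegral_indicator_one hA, lintegral_indicator_one hB,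
    lintegral_indicator_one hC] using key

/-- The section with first coordinate `x`. -/
def sect (K : Set (Fin (m + 1) → ℝ)) (x : ℝ) : Set (Fin m → ℝ) := {w | Fin.cons x w ∈ K}

/-- Its volume. -/
noncomputable def marg (K : Set (Fin (m + 1) → ℝ)) (x : ℝ) : ℝ := (volume (sect K x)).toReal

theorem cons_comb (a b x y : ℝ) (v w : Fin m → ℝ) :
    a • (Fin.cons x v : Fin (m + 1) → ℝ) + b • Fin.cons y w =
      Fin.cons (a * x + b * y) (a • v + b • w) := by
  ext i; refine Fin.cases ?_ (fun j => ?_) i <;> simp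

theorem continuous_cons (x : ℝ) :
    Continuous fun w : Fin m → ℝ => (Fin.cons x w : Fin (m + 1) → ℝ) := by
  refine continuous_pi fun i => ?_
  refine Fin.cases ?_ (fun j => ?_) i
  · simpa using continuous_const
  · simpa using continuous_apply j

variable {K : Set (Fin (m + 1) → ℝ)}

theorem isCompact_sect (hK : IsCompact K) (x : ℝ) : IsCompact (sect K x) := by
  obtain ⟨R, hR⟩ := hK.isBounded.subset_closedBall 0
  refine (isCompact_closedBall (0 : Fin m → ℝ) R).of_isClosed_subset
    (hK.isClosed.preimage (continuous_cons x)) fun w hw => ?_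
  have hr := mem_closedBall_zero_iff.mp (hR hw)
  have hR0 : 0 ≤ R := (norm_nonneg _).trans hr
  rw [mem_closedBall_zero_iff, pi_norm_le_iff_of_nonneg hR0]
  intro i
  have := norm_le_pi_norm (Fin.cons x w : Fin (m + 1) → ℝ) i.succ
  simp only [Fin.cons_succ] at this
  exact this.trans hr

theorem ofReal_marg (hK : IsCompact K) (x : ℝ) : ENNReal.ofReal (marg K x) = volume (sect K x) :=
  ENNReal.ofReal_toReal (isCompact_sect hK x).measure_ne_top

theorem marg_nonneg (x : ℝ) : 0 ≤ marg K x := ENNReal.toReal_nonneg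

theorem measurable_marg (hK : IsCompact K) : Measurable (marg K) :=
  (measurable_measure_prodMk_left (ν := (volume : Measure (Fin m → ℝ)))
    ((Vale.Agent.P074.measurable_cons m) hK.isClosed.measurableSet)).ennreal_toReal

theorem exists_marg_bound (hK : IsCompact K) : ∃ C, 0 < C ∧ ∀ x, marg K x ≤ C := by
  obtain ⟨R, hR0, hR⟩ := hK.isBounded.subset_closedBall_lt 0 0
  refine ⟨(volume (Metric.closedBall (0 : Fin m → ℝ) R)).toReal + 1, by positivity, fun x => ?_⟩
  refine le_add_of_le_of_nonneg (ENNReal.toReal_mono measure_closedBall_lt_top.ne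
    (measure_mono fun w hw => ?_)) zero_le_one
  have hr := mem_closedBall_zero_iff.mp (hR hw)
  rw [mem_closedBall_zero_iff, pi_norm_le_iff_of_nonneg hR0.le]
  intro i
  have := norm_le_pi_norm (Fin.cons x w : Fin (m + 1) → ℝ) i.succ
  simp only [Fin.cons_succ] at this
  exact this.trans hr

/-- Volume over a set of first coordinates is the integral of the marginal. -/
theorem volume_inter_preimage (hK : IsCompact K) {S : Set ℝ} (hS : MeasurableSet S) :
    volume (K ∩ (fun p => p 0) ⁻¹' S) = ∫⁻ x in S, ENNReal.ofReal (marg K x) := by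
  have hm : MeasurableSet (K ∩ (fun p : Fin (m + 1) → ℝ => p 0) ⁻¹' S) :=
    hK.isClosed.measurableSet.inter (measurable_pi_apply 0 hS)
  rw [← lintegral_indicator_one hm,
    Vale.Agent.P074.lintegral_cons (measurable_one.indicator hm), ← lintegral_indicator hS]
  refine lintegral_congr fun x => ?_
  have hs : MeasurableSet (sect K x) := (isCompact_sect hK x).isClosed.measurableSet
  by_cases hx : x ∈ S
  · rw [indicator_of_mem hx, ofReal_marg hK, ← lintegral_indicator_one hs]
    refine lintegral_congr fun w => ?_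
    by_cases hw : w ∈ sect K x
    · rw [indicator_of_mem hw, indicator_of_mem]
      · simp
      · exact ⟨hw, by simpa using hx⟩
    · rw [indicator_of_notMem hw, indicator_of_notMem]
      exact fun h => hw h.1
  · rw [indicator_of_notMem hx]
    refine (lintegral_congr fun w => ?_).trans lintegral_zero
    rw [indicator_of_notMem]
    exact fun h => hx (by simpa using h.2)

theorem marg_mid {L M : Set (Fin (m + 1) → ℝ)} (cK : IsCompact K) (cL : IsCompact L)
    (cM : IsCompact M) (hM : ∀ x ∈ K, ∀ y ∈ L, (1 / 2 : ℝ) • (x + y) ∈ M) (x y : ℝ) :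
    marg K x * marg L y ≤ marg M ((x + y) / 2) ^ 2 := by
  have key := volume_mul_le_sq (isCompact_sect cK x).isClosed.measurableSet
    (isCompact_sect cL y).isClosed.measurableSet
    (isCompact_sect cM ((x + y) / 2)).isClosed.measurableSet fun v hv w hw => by
      have h := hM _ hv _ hw
      rw [smul_add, cons_comb, ← smul_add] at h
      rwa [show (1 / 2 : ℝ) * x + 1 / 2 * y = (x + y) / 2 by ring] at h
  have h2 := ENNReal.toReal_mono
    (ENNReal.pow_ne_top (isCompact_sect cM _).measure_ne_top) key
  simpa [marg, ENNReal.toReal_mul, ENNReal.toReal_pow] using h2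

/-- A point of the set at first coordinate `z` bounds the marginal between `c` and `z` below. -/
theorem marg_ge (hKc : Convex ℝ K) (hK : IsCompact K) {p : Fin (m + 1) → ℝ} (hp : p ∈ K)
    (c : ℝ) {s : ℝ} (hs : s ∈ Icc (0 : ℝ) 1) :
    (1 - s) ^ m * marg K c ≤ marg K ((1 - s) * c + s * p 0) := by
  have hsub : (fun w => w + s • Fin.tail p) '' ((1 - s) • sect K c) ⊆
      sect K ((1 - s) * c + s * p 0) := by
    rintro _ ⟨_, ⟨v, hv, rfl⟩, rfl⟩
    have h := hKc hv hp (by linarith [hs.2] : 0 ≤ 1 - s) hs.1 (by ring)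
    rw [← Fin.cons_self_tail p, cons_comb] at h
    simpa [sect] using h
  have h1 := measure_mono (μ := volume) hsub
  rw [image_add_right, measure_preimage_add_right,
    Measure.addHaar_smul_of_nonneg volume (by linarith [hs.2] : (0 : ℝ) ≤ 1 - s),
    Module.finrank_fin_fun] at h1
  have h2 := ENNReal.toReal_mono (isCompact_sect hK _).measure_ne_top h1
  rwa [ENNReal.toReal_mul, ENNReal.toReal_ofReal (pow_nonneg (by linarith [hs.2]) m)] at h2

/-- The range of the first coordinate. -/
structure Span (K : Set (Fin (m + 1) → ℝ)) (x₀ x₁ : ℝ) : Prop where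
  left : ∃ p ∈ K, p 0 = x₀
  right : ∃ p ∈ K, p 0 = x₁
  mem : ∀ p ∈ K, p 0 ∈ Icc x₀ x₁

theorem exists_span (hK : IsCompact K) (hne : K.Nonempty) : ∃ x₀ x₁, Span K x₀ x₁ := by
  have hc : ContinuousOn (fun p : Fin (m + 1) → ℝ => p 0) K := (continuous_apply 0).continuousOn
  obtain ⟨p, hp, hpmin⟩ := hK.exists_isMinOn hne hc
  obtain ⟨q, hq, hqmax⟩ := hK.exists_isMaxOn hne hc
  exact ⟨p 0, q 0, ⟨p, hp, rfl⟩, ⟨q, hq, rfl⟩, fun r hr => ⟨hpmin hr, hqmax hr⟩⟩

variable {x₀ x₁ : ℝ}

theorem Span.marg_right (hKc : Convex ℝ K) (hK : IsCompact K) (h : Span K x₀ x₁) {x y : ℝ}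
    (hxy : x ≤ y) (hy : y ≤ x₁) (hx : x < x₁) :
    ((x₁ - y) / (x₁ - x)) ^ m * marg K x ≤ marg K y := by
  obtain ⟨p, hp, hp0⟩ := h.right
  have hne : x₁ - x ≠ 0 := by linarith
  have key := marg_ge hKc hK hp x (s := (y - x) / (x₁ - x))
    ⟨div_nonneg (by linarith) (by linarith), (div_le_one (by linarith)).mpr (by linarith)⟩
  rw [hp0] at key
  convert key using 2
  · congr 1; field_simp; ring
  · field_simp; ring

theorem Span.marg_left (hKc : Convex ℝ K) (hK : IsCompact K) (h : Span K x₀ x₁) {x y : ℝ}
    (hxy : y ≤ x) (hy : x₀ ≤ y) (hx : x₀ < x) :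
    ((y - x₀) / (x - x₀)) ^ m * marg K x ≤ marg K y := by
  obtain ⟨p, hp, hp0⟩ := h.left
  have hne : x - x₀ ≠ 0 := by linarith
  have key := marg_ge hKc hK hp x (s := (x - y) / (x - x₀))
    ⟨div_nonneg (by linarith) (by linarith), (div_le_one (by linarith)).mpr (by linarith)⟩
  rw [hp0] at key
  convert key using 2
  · congr 1; field_simp; ring
  · field_simp; ring

theorem Span.marg_pos (hKc : Convex ℝ K) (hK : IsCompact K) (h : Span K x₀ x₁)
    (hV : 0 < volume K) {x : ℝ} (hx : x ∈ Ioo x₀ x₁) : 0 < marg K x := by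
  obtain ⟨c, hc⟩ : ∃ c, 0 < marg K c := by
    by_contra hcon
    push Not at hcon
    have e := volume_inter_preimage hK (S := univ) MeasurableSet.univ
    rw [preimage_univ, inter_univ] at e
    rw [e] at hV
    simp [le_antisymm (hcon _) (marg_nonneg _)] at hV
  have hcI : c ∈ Icc x₀ x₁ := by
    have hne : (sect K c).Nonempty := by
      by_contra hemp
      rw [not_nonempty_iff_eq_empty] at hemp
      rw [marg, hemp, measure_empty, ENNReal.toReal_zero] at hc
      exact hc.false
    obtain ⟨w, hw⟩ := hne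
    simpa using h.mem _ hw
  rcases le_total c x with hcx | hxc
  · refine lt_of_lt_of_le (mul_pos (pow_pos ?_ m) hc)
      (h.marg_right hKc hK hcx hx.2.le (lt_of_le_of_lt hcx hx.2))
    exact div_pos (by linarith [hx.2]) (by linarith [hx.2])
  · refine lt_of_lt_of_le (mul_pos (pow_pos ?_ m) hc)
      (h.marg_left hKc hK hxc hx.1.le (lt_of_lt_of_le hx.1 hxc))
    exact div_pos (by linarith [hx.1]) (by linarith [hx.1])

theorem Span.continuousOn_marg (hKc : Convex ℝ K) (hK : IsCompact K) (h : Span K x₀ x₁) :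
    ContinuousOn (marg K) (Ioo x₀ x₁) := by
  intro x hx
  refine ContinuousAt.continuousWithinAt ?_
  set P : ℝ → ℝ := fun y => ((y - x₀) / (x - x₀)) ^ m
  set Q : ℝ → ℝ := fun y => ((x₁ - y) / (x₁ - x)) ^ m
  have h0 : x - x₀ ≠ 0 := by linarith [hx.1]
  have h1 : x₁ - x ≠ 0 := by linarith [hx.2]
  have hlo : Filter.Tendsto (fun y => marg K x * min (P y) (Q y)) (nhds x) (nhds (marg K x)) :=
    Continuous.tendsto' (by fun_prop) x _ (by simp [P, Q, h0, h1])
  have hhi : Filter.Tendsto (fun y => marg K x * max (P y) (Q y)) (nhds x) (nhds (marg K x)) :=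
    Continuous.tendsto' (by fun_prop) x _ (by simp [P, Q, h0, h1])
  refine tendsto_of_tendsto_of_tendsto_of_le_of_le' hlo hhi ?_ ?_
  all_goals filter_upwards [Ioo_mem_nhds hx.1 hx.2] with y hy
  · rcases le_total x y with hxy | hyx
    · refine le_trans (mul_le_mul_of_nonneg_left (min_le_right _ _) (marg_nonneg x)) ?_
      rw [mul_comm]
      exact h.marg_right hKc hK hxy hy.2.le hx.2
    · refine le_trans (mul_le_mul_of_nonneg_left (min_le_left _ _) (marg_nonneg x)) ?_
      rw [mul_comm]
      exact h.marg_left hKc hK hyx hy.1.le hx.1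
  · rcases le_total x y with hxy | hyx
    · refine le_trans ?_ (mul_le_mul_of_nonneg_left (le_max_left _ _) (marg_nonneg x))
      have e := h.marg_left hKc hK hxy hx.1.le hy.1
      have hp : 0 < y - x₀ := by linarith [hy.1]
      have hp0 : 0 < x - x₀ := by linarith [hx.1]
      have hq : 0 < ((x - x₀) / (y - x₀)) ^ m := by positivity
      rw [← le_div_iff₀' hq] at e
      refine e.trans (le_of_eq ?_)
      simp only [P, div_pow]
      field_simp
    · refine le_trans ?_ (mul_le_mul_of_nonneg_left (le_max_right _ _) (marg_nonneg x))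
      have e := h.marg_right hKc hK hyx hx.2.le hy.2
      have hp : 0 < x₁ - y := by linarith [hy.2]
      have hp0 : 0 < x₁ - x := by linarith [hx.2]
      have hq : 0 < ((x₁ - x) / (x₁ - y)) ^ m := by positivity
      rw [← le_div_iff₀' hq] at e
      refine e.trans (le_of_eq ?_)
      simp only [Q, div_pow]
      field_simp

end Vale.Agent.P237.Full.BM
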