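import Vale.Agent.P237.Full.Gain
import Vale.Agent.P237.Full.BallEq
import Vale.Agent.P237.Facets.Core

/-!
The projection body is a symmetric body, the shadow is its support function, and the first order
growth of a body along the second projection body is at most `n` times the volume of the first.
-/

namespace Vale.Agent.P237.Full

open MeasureTheory Set Filter Topology Metric
open scoped ENNReal Pointwise RealInnerProductSpace

section general

variable {E : Type*} [NormedAddCommGroup E] [InnerProductSpace ℝ E] [FiniteDimensional ℝ E]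
  [MeasurableSpace E] [BorelSpace E]

theorem gain_neg (K : Set E) (w : E) : gain K (-w) = gain K w := by
  have h : K + seg (-w) = (fun x => x + -w) '' (K + seg w) := by
    ext x
    constructor
    · rintro ⟨k, hk, _, ⟨s, hs, rfl⟩, rfl⟩
      exact ⟨k + (1 - s) • w, ⟨k, hk, _, ⟨1 - s, ⟨by linarith [hs.2], by linarith [hs.1]⟩, rfl⟩,
        rfl⟩, by module⟩
    · rintro ⟨_, ⟨k, hk, _, ⟨s, hs, rfl⟩, rfl⟩, rfl⟩
      exact ⟨k, hk, _, ⟨1 - s, ⟨by linarith [hs.2], by linarith [hs.1]⟩, rfl⟩, by module⟩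
  rw [gain, gain, h, image_add_right, measure_preimage_add_right]

theorem neg_mem_projBody_gain {K : Set E} (hK : Convex ℝ K) (cK : IsCompact K) {x : E}
    (hx : x ∈ projBody K) : -x ∈ projBody K := by
  rw [projBody_eq hK cK] at *
  intro w
  rw [inner_neg_left, ← inner_neg_right, ← gain_neg K w]
  exact hx (-w)

/-- The gain is the support function of the projection body. -/
theorem exists_inner_eq_gain {K : Set E} (hK : Convex ℝ K) (cK : IsCompact K) {u : E}
    (hu : ‖u‖ = 1) : ∃ x ∈ projBody K, ⟪x, u⟫ = gain K u := by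
  set W : Submodule ℝ E := ℝ ∙ u with hW
  have huW : u ∈ W := Submodule.mem_span_singleton_self u
  have huu : ⟪u, u⟫ = (1 : ℝ) := by rw [real_inner_self_eq_norm_sq, hu, one_pow]
  obtain ⟨x, hx, e⟩ := mem_proj_projBody hK cK (W := W) (gain K u • ⟨u, huW⟩) fun θ => by
    obtain ⟨s, hs⟩ := Submodule.mem_span_singleton.mp θ.2
    rw [Submodule.coe_inner, Submodule.coe_smul, ← hs, inner_smul_left, inner_smul_right, huu,
      mul_one, conj_trivial]
    rcases le_total 0 s with h | h
    · rw [gain_smul hK cK h]; exact le_of_eq (mul_comm _ _)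
    · exact (mul_nonpos_of_nonneg_of_nonpos (gain_nonneg cK u) h).trans (gain_nonneg cK _)
  refine ⟨x, hx, ?_⟩
  have h2 := Submodule.inner_orthogonalProjectionOnto_eq_of_mem_right (K := W) ⟨u, huW⟩ x
  rw [e, Submodule.coe_inner, Submodule.coe_smul, inner_smul_left, conj_trivial] at h2
  simp only [huu, mul_one] at h2
  exact h2.symm

/-- Enlarging a body by a ball enlarges its gains by a power of a factor. -/
theorem gain_le_of_near {m : ℕ} (hE : Module.finrank ℝ E = m + 1) {K S : Set E} (hK : Convex ℝ K)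
    (cK : IsCompact K) (hS : Convex ℝ S) (cS : IsCompact S) {p : E} {r D : ℝ} (hr : 0 < r)
    (hp : closedBall p r ⊆ K) (hD : 0 ≤ D) (hSK : S ⊆ K + closedBall 0 D) (w : E) :
    gain S w ≤ (1 + D / r) ^ m * gain K w := by
  have hDr : 0 ≤ D / r := div_nonneg hD hr.le
  rw [← gain_smul_set hE hK cK (by linarith) w]
  refine gain_mono hS cS (hK.smul _) (cK.smul _) ((D / r) • p) (fun x hx => ?_) w
  obtain ⟨k, hk, b, hb, rfl⟩ := hSK hx
  rw [hK.add_smul zero_le_one hDr, one_smul]
  rw [mem_closedBall_zero_iff] at hb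
  have hbp : p + (r / D) • b ∈ K := hp (by
    rw [mem_closedBall, dist_eq_norm, add_sub_cancel_left, norm_smul,
      Real.norm_of_nonneg (div_nonneg hr.le hD)]
    rcases hD.eq_or_lt with h | h
    · simp [← h, hr.le]
    · calc r / D * ‖b‖ ≤ r / D * D := mul_le_mul_of_nonneg_left hb (div_nonneg hr.le hD)
        _ = r := div_mul_cancel₀ r h.ne')
  refine ⟨k, hk, (D / r) • (p + (r / D) • b), smul_mem_smul_set hbp, ?_⟩
  rcases hD.eq_or_lt with h | h
  · subst h
    obtain rfl : b = 0 := norm_le_zero_iff.mp hb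
    simp
  · dsimp only
    rw [smul_add, smul_smul, div_mul_div_comm, mul_comm D r, div_self (by positivity), one_smul]
    abel

theorem toReal_add_seg_le (K : Set E) (w : E) :
    (volume (K + seg w)).toReal = (volume K).toReal + gain K w := by
  rw [gain]; ring

end general

variable {n : ℕ}

theorem isBody_projBody (hn : 2 ≤ n) {K : Set (EuclideanSpace ℝ (Fin n))} (hK : IsBody K) :
    IsBody (projBody K) := by
  obtain ⟨p, hp⟩ := hK.2.2
  obtain ⟨r, hr, hball⟩ := nhds_basis_closedBall.mem_iff.mp (mem_interior_iff_mem_nhds.mp hp)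
  refine ⟨convex_projBody' K, isCompact_projBody' hK.1 hK.2.1, 0, ?_⟩
  have hE : Module.finrank ℝ (EuclideanSpace ℝ (Fin n)) = n - 1 + 1 := by
    rw [finrank_euclideanSpace_fin]; omega
  set c := r ^ (n - 1) * kappa (n - 1)
  have hc : 0 < c := mul_pos (pow_pos hr _) (kappa_pos _)
  refine interior_mono (fun x hx v hv => ?_)
    (show (0 : EuclideanSpace ℝ (Fin n)) ∈ interior (closedBall 0 c) by
      rw [interior_closedBall _ hc.ne']; exact mem_ball_self hc)
  have h1 : c ≤ (shadow K v).toReal := by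
    have h2 := gain_mono (L := r • closedBall (0 : EuclideanSpace ℝ (Fin n)) 1) (L' := K)
      ((convex_closedBall _ _).smul r) ((isCompact_closedBall _ _).smul r) hK.1 hK.2.1 p
      (fun y hy => hball (by
        obtain ⟨z, hz, rfl⟩ := hy
        rw [mem_closedBall_zero_iff] at hz
        rw [mem_closedBall, dist_eq_norm, add_sub_cancel_left, norm_smul, Real.norm_of_nonneg hr.le]
        exact mul_le_of_le_one_right hr.le hz)) v
    rwa [gain_smul_set hE (convex_closedBall _ _) (isCompact_closedBall _ _) hr.le,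
      gain_unit (convex_closedBall _ _) (isCompact_closedBall _ _) hv, gain_unit hK.1 hK.2.1 hv,
      shadow_ball hn hv] at h2
  rw [mem_closedBall_zero_iff] at hx
  exact ((real_inner_le_norm x v).trans (by rw [hv, mul_one]; exact hx)).trans h1

theorem vol_smul_set (S : Set (EuclideanSpace ℝ (Fin n))) {a : ℝ} (ha : 0 ≤ a) :
    (volume (a • S)).toReal = a ^ n * (volume S).toReal := by
  rw [Measure.addHaar_smul_of_nonneg volume ha, finrank_euclideanSpace_fin, ENNReal.toReal_mul,
    ENNReal.toReal_ofReal (pow_nonneg ha n)]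

open Facets Frusta in
/-- The supergradient of the log volume bounds the gains of a polytope from above. -/
theorem gain_poly_le {N : ℕ} {w : Fin N → EuclideanSpace ℝ (Fin n)}
    (hb : IsCompact (poly (fun i => (w i).ofLp) 1)) {h g : Fin N → ℝ} (hh : h ∈ pos N)
    (hg : IsSupergrad (fun i => (w i).ofLp) h g) (θ : EuclideanSpace ℝ (Fin n)) :
    gain (euclidean (poly (fun i => (w i).ofLp) h)) θ ≤
      vol (fun i => (w i).ofLp) h * ∑ i, g i / 2 * |⟪θ, w i⟫| := by
  set u : Fin N → Fin n → ℝ := fun i => (w i).ofLp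
  set P := euclidean (poly u h)
  have hPc : Convex ℝ P := convex_euclidean (convex_poly u h)
  have cP : IsCompact P := isCompact_euclidean (isCompact_poly hb h)
  have hV := vol_pos hb hh
  have one : ∀ θ : EuclideanSpace ℝ (Fin n),
      gain P θ ≤ vol u h * (g ⬝ᵥ fun i => max ⟪θ, w i⟫ 0) := by
    intro θ
    set d : Fin N → ℝ := fun i => max ⟪θ, w i⟫ 0 with hd
    set A := g ⬝ᵥ d with hA
    have key : ∀ s : ℝ, 0 < s → gain P θ ≤ vol u h * (A * Real.exp (s * A)) := by
      intro s hs
      have hk : h + s • d ∈ pos N := fun i => by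
        simp only [hd, Pi.add_apply, Pi.smul_apply, smul_eq_mul]
        nlinarith [hh i, le_max_right ⟪θ, w i⟫ (0 : ℝ)]
      have hsub : P + seg (s • θ) ⊆ euclidean (poly u (h + s • d)) := by
        rintro _ ⟨_, ⟨y, hy, rfl⟩, _, ⟨t, ht, rfl⟩, rfl⟩
        rw [mem_euclidean]
        intro i
        have e : θ.ofLp ⬝ᵥ u i = ⟪θ, w i⟫ := by
          rw [← inner_toLp, WithLp.toLp_ofLp]
        simp only [WithLp.ofLp_add, WithLp.ofLp_smul, add_dotProduct, smul_dotProduct, smul_eq_mul,
          e, hd, Pi.add_apply, Pi.smul_apply]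
        refine add_le_add (hy i) ?_
        calc t * (s * ⟪θ, w i⟫) ≤ t * (s * max ⟪θ, w i⟫ 0) :=
              mul_le_mul_of_nonneg_left (mul_le_mul_of_nonneg_left (le_max_left _ _) hs.le) ht.1
          _ ≤ _ := mul_le_of_le_one_left (mul_nonneg hs.le (le_max_right _ _)) ht.2
      have h1 := ENNReal.toReal_mono (isCompact_euclidean (isCompact_poly hb _)).measure_ne_top
        (measure_mono (μ := volume) hsub)
      rw [toReal_add_seg_le, gain_smul hPc cP hs.le, volume_euclidean, volume_euclidean] at h1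
      change vol u h + s * gain P θ ≤ vol u (h + s • d) at h1
      have h2 := hg.le _ hk
      rw [add_sub_cancel_left, dotProduct_smul, smul_eq_mul, ← hA] at h2
      have h3 := Real.exp_le_exp.mpr h2
      rw [Real.exp_log (vol_pos hb hk), Real.exp_add, Real.exp_log hV] at h3
      have h4 : Real.exp (s * A) - 1 ≤ s * A * Real.exp (s * A) := by
        have h5 : Real.exp (-(s * A)) * Real.exp (s * A) = 1 := by rw [← Real.exp_add]; simp
        nlinarith [Real.add_one_le_exp (-(s * A)), Real.exp_pos (s * A)]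
      refine le_of_mul_le_mul_left ?_ hs
      calc s * gain P θ ≤ vol u h * (Real.exp (s * A) - 1) := by linarith
        _ ≤ vol u h * (s * A * Real.exp (s * A)) := mul_le_mul_of_nonneg_left h4 hV.le
        _ = _ := by ring
    have hl : Tendsto (fun s : ℝ => vol u h * (A * Real.exp (s * A))) (𝓝[>] 0) (𝓝 (vol u h * A)) :=
      ((by fun_prop : Continuous fun s : ℝ => vol u h * (A * Real.exp (s * A))).tendsto' 0 _
        (by simp)).mono_left nhdsWithin_le_nhds
    exact ge_of_tendsto hl (by filter_upwards [self_mem_nhdsWithin] with s hs using key s hs)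
  have h1 := one θ
  have h2 := one (-θ)
  rw [gain_neg] at h2
  have e : (g ⬝ᵥ fun i => max ⟪θ, w i⟫ 0) + (g ⬝ᵥ fun i => max ⟪-θ, w i⟫ 0) =
      2 * ∑ i, g i / 2 * |⟪θ, w i⟫| := by
    simp only [dotProduct, ← Finset.sum_add_distrib, Finset.mul_sum, inner_neg_left, ← mul_add,
      max_zero_add_max_neg_zero_eq_abs_self]
    exact Finset.sum_congr rfl fun i _ => by ring
  have h3 := mul_le_mul_of_nonneg_left e.le hV.le
  rw [mul_add] at h3
  linarith

/-- A linear form bound puts a point in the corresponding zonotope. -/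
theorem exists_zono_coeff {N : ℕ} {w : Fin N → EuclideanSpace ℝ (Fin n)} {c : Fin N → ℝ}
    (hc : ∀ i, 0 ≤ c i) {x : EuclideanSpace ℝ (Fin n)}
    (hx : ∀ v, ⟪x, v⟫ ≤ ∑ i, c i * |⟪v, w i⟫|) :
    ∃ s : Fin N → ℝ, (∀ i, |s i| ≤ c i) ∧ x = ∑ i, s i • w i := by
  set B := Set.pi univ fun i => Icc (-c i) (c i)
  set Z := Fintype.linearCombination ℝ w '' B
  have cZ : IsCompact Z := (isCompact_univ_pi fun _ => isCompact_Icc).image
    (LinearMap.continuous_of_finiteDimensional _)
  have hZc : Convex ℝ Z := (convex_pi fun i _ => convex_Icc _ _).linear_image _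
  by_cases hxZ : x ∈ Z
  · obtain ⟨s, hs, rfl⟩ := hxZ
    exact ⟨s, fun i => abs_le.mpr (hs i (mem_univ i)), Fintype.linearCombination_apply ℝ w s⟩
  obtain ⟨f, r, hfr, hrx⟩ := geometric_hahn_banach_closed_point hZc cZ.isClosed hxZ
  set v := (InnerProductSpace.toDual ℝ (EuclideanSpace ℝ (Fin n))).symm f
  set s : Fin N → ℝ := fun i => if 0 ≤ ⟪v, w i⟫ then c i else -c i
  have h1 := hfr (Fintype.linearCombination ℝ w s) ⟨s, fun i _ => by
    simp only [s]; split_ifs <;> constructor <;> linarith [hc i], rfl⟩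
  rw [← InnerProductSpace.toDual_symm_apply, Fintype.linearCombination_apply, inner_sum] at h1
  have h2 : ∑ i, c i * |⟪v, w i⟫| = ∑ i, ⟪v, s i • w i⟫ := by
    refine Finset.sum_congr rfl fun i _ => ?_
    rw [real_inner_smul_right]
    simp only [s]
    split_ifs with h
    · rw [abs_of_nonneg h]
    · rw [abs_of_neg (not_le.mp h), neg_mul, mul_neg]
  rw [← InnerProductSpace.toDual_symm_apply, real_inner_comm] at hrx
  linarith [hx v]

/-- Segments added one at a time. -/
theorem volume_add_segs_le {N : ℕ} {K : Set (EuclideanSpace ℝ (Fin n))} (hK : Convex ℝ K)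
    (cK : IsCompact K) (v : Fin N → EuclideanSpace ℝ (Fin n)) {B : Fin N → ℝ}
    (hB : ∀ S, Convex ℝ S → IsCompact S →
      S ⊆ K + closedBall (0 : EuclideanSpace ℝ (Fin n)) (∑ i, ‖v i‖) → ∀ i, gain S (v i) ≤ B i) :
    ∀ F : Finset (Fin N), IsCompact (K + ∑ i ∈ F, seg (v i)) ∧
      Convex ℝ (K + ∑ i ∈ F, seg (v i)) ∧
      (volume (K + ∑ i ∈ F, seg (v i))).toReal ≤ (volume K).toReal + ∑ i ∈ F, B i := by
  intro F
  induction F using Finset.induction_on with
  | empty => simp [cK, hK]
  | insert i F hi ih =>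
    obtain ⟨c1, x1, v1⟩ := ih
    have e : K + ∑ j ∈ insert i F, seg (v j) = K + ∑ j ∈ F, seg (v j) + seg (v i) := by
      rw [Finset.sum_insert hi, add_comm (seg (v i)), add_assoc]
    rw [e]
    refine ⟨c1.add (isCompact_seg _), x1.add (convex_seg _), ?_⟩
    rw [toReal_add_seg_le, Finset.sum_insert hi]
    have := hB _ x1 c1 (fun x hx => by
      obtain ⟨k, hk, z, hz, rfl⟩ := hx
      refine ⟨k, hk, z, ?_, rfl⟩
      obtain ⟨f, hf, rfl⟩ := (Set.mem_finsetSum _ _ _).mp hz
      rw [mem_closedBall_zero_iff]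
      refine (norm_sum_le _ _).trans ((Finset.sum_le_sum fun j hj => ?_).trans
        (Finset.sum_le_sum_of_subset_of_nonneg F.subset_univ fun j _ _ => norm_nonneg _))
      obtain ⟨t, ht, e⟩ := hf hj
      rw [← e, norm_smul, Real.norm_of_nonneg ht.1]
      exact mul_le_of_le_one_left (norm_nonneg _) ht.2) i
    linarith

open Facets Frusta in
/-- The first order growth along the second projection body. -/
theorem volume_add_second_le (hn : 2 ≤ n) {K : Set (EuclideanSpace ℝ (Fin n))} (hK : IsBody K)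
    {θ : ℝ} (hθ : 0 < θ) (hθ1 : θ < 1) :
    ∃ D : ℝ, 0 ≤ D ∧ ∀ t : ℝ, 0 ≤ t → (volume (K + t • projBody (projBody K))).toReal ≤
      (volume K).toReal +
        t * n * (θ⁻¹ ^ n * (volume (projBody K)).toReal) * (1 + D * t) ^ (n - 1) := by
  classical
  set Z := projBody K
  have hE : Module.finrank ℝ (EuclideanSpace ℝ (Fin n)) = n - 1 + 1 := by
    rw [finrank_euclideanSpace_fin]; omega
  have hZb := isBody_projBody hn hK
  have h0 : (0 : EuclideanSpace ℝ (Fin n)) ∈ interior Z := by
    obtain ⟨q, hq⟩ := hZb.2.2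
    obtain ⟨r, hr, hball⟩ := nhds_basis_closedBall.mem_iff.mp (mem_interior_iff_mem_nhds.mp hq)
    refine mem_interior_iff_mem_nhds.mpr (nhds_basis_closedBall.mem_iff.mpr ⟨r, hr, fun x hx => ?_⟩)
    rw [mem_closedBall_zero_iff] at hx
    have h1 : q + x ∈ Z := hball (by simpa using hx)
    have h2 : -(q + -x) ∈ Z := neg_mem_projBody_gain hK.1 hK.2.1 (hball (by simpa using hx))
    convert hZb.1 h1 h2 (by norm_num : (0 : ℝ) ≤ 1 / 2) (by norm_num : (0 : ℝ) ≤ 1 / 2)
      (by norm_num) using 1
    module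
  obtain ⟨N, v, h, hZP, hPZ, cP, -⟩ :=
    Asym.exists_polytope_between hZb.1 hZb.2.1 h0 hθ hθ1
  set k : Fin N → ℝ := fun i => if v i = 0 then 1 else h i with hkdef
  have hk : k ∈ pos N := by
    intro i
    simp only [k]
    split_ifs with hi
    · exact one_pos
    · obtain ⟨r, hr, hball⟩ := nhds_basis_closedBall.mem_iff.mp (mem_interior_iff_mem_nhds.mp h0)
      have h1 := hZP (hball (show (r / ‖v i‖) • v i ∈ closedBall 0 r by
        rw [mem_closedBall_zero_iff, norm_smul, Real.norm_of_nonneg (by positivity),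
          div_mul_cancel₀ _ (norm_ne_zero_iff.mpr hi)])) i
      rw [real_inner_smul_right, real_inner_self_eq_norm_sq] at h1
      exact lt_of_lt_of_le (by positivity) h1
  set u : Fin N → Fin n → ℝ := fun i => (v i).ofLp
  have hP : euclidean (poly u k) = {x | ∀ i, ⟪v i, x⟫ ≤ h i} := by
    ext x
    rw [mem_euclidean]
    refine forall_congr' fun i => ?_
    rw [show x.ofLp ⬝ᵥ u i = ⟪v i, x⟫ by rw [← inner_toLp, WithLp.toLp_ofLp, real_inner_comm]]
    by_cases hi : v i = 0
    · have h1 := hZP (interior_subset h0) i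
      simp [k, hi] at h1 ⊢
      exact h1
    · simp [k, hi]
  have hb : IsCompact (poly u 1) := by
    obtain ⟨M, hM0, hM⟩ : ∃ M : ℝ, 0 < M ∧ ∀ i, 1 ≤ M * k i := by
      refine ⟨∑ i, (k i)⁻¹ + 1, ?_, fun i => ?_⟩
      · have := Finset.sum_nonneg fun i (_ : i ∈ Finset.univ) => inv_nonneg.mpr (hk i).le
        linarith
      · have := Finset.single_le_sum (f := fun i => (k i)⁻¹) (fun i _ => (inv_pos.mpr (hk i)).le)
          (Finset.mem_univ i)
        calc (1 : ℝ) = (k i)⁻¹ * k i := (inv_mul_cancel₀ (hk i).ne').symm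
          _ ≤ _ := mul_le_mul_of_nonneg_right (by linarith) (hk i).le
    have hc : IsCompact (poly u k) := by
      have e : poly u k = WithLp.ofLp '' euclidean (poly u k) := by
        rw [euclidean, image_image]; simp
      rw [e, hP]
      exact cP.image (PiLp.continuous_ofLp 2 _)
    refine (hc.smul M).of_isClosed_subset (isClosed_poly u 1) ?_
    rw [← poly_smul u k hM0]
    exact poly_mono u fun i => by simpa using hM i
  obtain ⟨g, hg'⟩ := exists_supergradient hb hk
  have hg : IsSupergrad u k g := ⟨hg'⟩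
  have hg0 := hg.nonneg hb hk
  set P := euclidean (poly u k)
  set VP := vol u k
  have hVP : 0 < VP := vol_pos hb hk
  have hVle : VP ≤ θ⁻¹ ^ n * (volume Z).toReal := by
    have hne : volume (θ⁻¹ • Z) ≠ ⊤ := (hZb.2.1.smul θ⁻¹).measure_ne_top
    have h1 := ENNReal.toReal_mono hne (measure_mono (show P ⊆ θ⁻¹ • Z by rw [hP]; exact hPZ))
    rw [vol_smul_set _ (inv_nonneg.mpr hθ.le), volume_euclidean] at h1
    exact h1
  set c : Fin N → ℝ := fun i => VP * g i / 2
  have hc : ∀ i, 0 ≤ c i := fun i => by have := hg0 i; positivity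
  have hL : ∀ x ∈ projBody Z, ∀ a, ⟪x, a⟫ ≤ ∑ i, c i * |⟪a, v i⟫| := by
    intro x hx a
    rw [projBody_eq hZb.1 hZb.2.1] at hx
    refine (hx a).trans ((gain_mono hZb.1 hZb.2.1 (convex_euclidean (convex_poly u k))
      (isCompact_euclidean (isCompact_poly hb k)) 0 (fun y hy => ?_) a).trans
      ((gain_poly_le hb hk hg a).trans (le_of_eq ?_)))
    · rw [zero_add]; exact hP.symm.subset (hZP hy)
    · rw [Finset.mul_sum]
      exact Finset.sum_congr rfl fun i _ => by simp only [c]; ring
  obtain ⟨p, hp⟩ := hK.2.2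
  obtain ⟨r, hr, hball⟩ := nhds_basis_closedBall.mem_iff.mp (mem_interior_iff_mem_nhds.mp hp)
  set D : ℝ := (∑ i, 2 * c i * ‖v i‖) / r
  refine ⟨D, div_nonneg (Finset.sum_nonneg fun i _ =>
    mul_nonneg (mul_nonneg zero_le_two (hc i)) (norm_nonneg _)) hr.le, fun t ht => ?_⟩
  have ht2 : ∀ i, 0 ≤ 2 * t * c i := fun i => mul_nonneg (by linarith) (hc i)
  set s : Fin N → EuclideanSpace ℝ (Fin n) := fun i => (2 * t * c i) • v i
  have hsum : ∑ i, ‖s i‖ = t * ∑ i, 2 * c i * ‖v i‖ := by
    rw [Finset.mul_sum]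
    refine Finset.sum_congr rfl fun i _ => ?_
    rw [norm_smul, Real.norm_of_nonneg (ht2 i)]
    ring
  obtain ⟨cS, -, hS⟩ := volume_add_segs_le hK.1 hK.2.1 s
    (B := fun i => (1 + D * t) ^ (n - 1) * (t * VP * (g i * k i))) (fun S hSc cS hsub i => by
      refine (gain_le_of_near hE hK.1 hK.2.1 hSc cS hr hball
        (Finset.sum_nonneg fun j _ => norm_nonneg _) hsub (s i)).trans ?_
      rw [hsum, show t * (∑ j, 2 * c j * ‖v j‖) / r = D * t by simp only [D]; ring]
      refine mul_le_mul_of_nonneg_left ?_ (pow_nonneg (by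
        have : 0 ≤ D * t := mul_nonneg (div_nonneg (Finset.sum_nonneg fun j _ =>
          mul_nonneg (mul_nonneg zero_le_two (hc j)) (norm_nonneg _)) hr.le) ht
        linarith) _)
      rw [gain_smul hK.1 hK.2.1 (ht2 i)]
      rcases eq_or_ne (v i) 0 with hi | hi
      · rw [hi, gain_zero, mul_zero]
        have := hg0 i
        have := hk i
        positivity
      · obtain ⟨w, hw, hvw⟩ := exists_unit_smul hi
        obtain ⟨x, hx, he⟩ := exists_inner_eq_gain hK.1 hK.2.1 hw
        have h1 := hZP hx i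
        rw [real_inner_comm, hvw, real_inner_smul_right, he,
          ← gain_smul hK.1 hK.2.1 (norm_nonneg _), ← hvw] at h1
        calc 2 * t * c i * gain K (v i) ≤ 2 * t * c i * k i :=
              mul_le_mul_of_nonneg_left (h1.trans_eq (by simp [k, hi])) (ht2 i)
          _ = _ := by simp only [c]; ring) Finset.univ
  have hsub : K + t • projBody Z ⊆
      (fun x => x + -(∑ i, (t * c i) • v i)) '' (K + ∑ i, seg (s i)) := by
    rintro _ ⟨a, ha, _, ⟨x, hx, rfl⟩, rfl⟩
    obtain ⟨σ, hσ, e⟩ := exists_zono_coeff hc (hL x hx)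
    refine ⟨a + ∑ i, (t * (σ i + c i)) • v i, ⟨a, ha, _, ?_, rfl⟩, ?_⟩
    · refine Set.finsetSum_mem_finsetSum _ _ _ fun i _ => ?_
      obtain ⟨h1, h2⟩ := abs_le.mp (hσ i)
      rcases (hc i).eq_or_lt with h0' | h0'
      · refine ⟨0, ⟨le_rfl, zero_le_one⟩, ?_⟩
        have : σ i = 0 := by linarith
        simp [this, ← h0']
      · refine ⟨(σ i + c i) / (2 * c i), ⟨div_nonneg (by linarith) (by linarith),
          (div_le_one (by linarith)).mpr (by linarith)⟩, ?_⟩
        simp only [s, smul_smul]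
        congr 1
        field_simp
    · simp only [e, Finset.smul_sum, smul_smul, mul_add, add_smul, Finset.sum_add_distrib]
      abel
  have hvol := ENNReal.toReal_mono (cS.image (by fun_prop)).measure_ne_top
    (measure_mono (μ := volume) hsub)
  rw [image_add_right (t := K + ∑ i, seg (s i)), measure_preimage_add_right] at hvol
  refine hvol.trans (hS.trans ?_)
  rw [← Finset.mul_sum, ← Finset.mul_sum, show ∑ i, g i * k i = (n : ℝ) from hg.dot_self hb hk]
  have hD0 : 0 ≤ (1 + D * t) ^ (n - 1) := pow_nonneg (by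
    have : 0 ≤ D * t := mul_nonneg (div_nonneg (Finset.sum_nonneg fun j _ =>
      mul_nonneg (mul_nonneg zero_le_two (hc j)) (norm_nonneg _)) hr.le) ht
    linarith) _
  have h1 := mul_le_mul_of_nonneg_left hVle (mul_nonneg hD0 (mul_nonneg ht (Nat.cast_nonneg (α := ℝ) n)))
  calc (volume K).toReal + (1 + D * t) ^ (n - 1) * (t * VP * n)
      = (volume K).toReal + (1 + D * t) ^ (n - 1) * (t * n) * VP := by ring
    _ ≤ _ := add_le_add le_rfl h1
    _ = _ := by ring

end Vale.Agent.P237.Full
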