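import Vale.Agent.P237.Full.Profile
import Vale.Agent.P237.Full.BallEq
import Vale.Agent.P237.Full.Data.Fisher
import Vale.Agent.P237.Full.Data.Variance

/-!
P237: the contact bound in every dimension follows from one inequality between integrals of a
single concave profile.
-/

namespace Vale.Agent.P237.Full

open Vale.Agent.P084 MeasureTheory Set
open scoped RealInnerProductSpace

/-- For a profile of a contact direction in dimension `m + 1`: if its Fisher functional is at most
its mass times `1 + F v (log W - 2 log v / (m + 1))`, with `W` the axial second moment and `v` the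
volume ratio, then the integral of its power `m - 1` is at least that of the ball at that volume.
Two cases: `F v x = 3 * x` and, linear in `W`, `F v x = b v * v ^ (2 / (m + 1)) * (exp x - 1)`. -/
def LogVarianceLemma (m : ℕ) (F : ℝ → ℝ → ℝ) : Prop :=
  ∀ φ : ℝ → ℝ, IsProfile m φ → ∀ v W : ℝ,
    v = kappa m * (∫ t in Icc (-1 : ℝ) 1, φ t ^ m) / kappa (m + 1) →
    W = ((m : ℝ) + 3) * (∫ t in Icc (-1 : ℝ) 1, t ^ 2 * φ t ^ m) /
      (∫ t in Icc (-1 : ℝ) 1, φ t ^ m) →
    (∀ z : ℝ → ℝ, ContDiff ℝ 1 z →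
      ∫ t in Icc (-1 : ℝ) 1,
          (2 * deriv z t - ((m : ℝ) + 1) * z t ^ 2 - 2 * t * z t * deriv z t) * φ t ^ m ≤
        (1 + F v (Real.log W - 2 / ((m : ℝ) + 1) * Real.log v)) *
          ∫ t in Icc (-1 : ℝ) 1, φ t ^ m) →
    (kappa m / kappa (m - 1)) ^ m * v ^ (m - 1) ≤
        (∫ t in Icc (-1 : ℝ) 1, φ t ^ (m - 1)) ^ m ∧
      (1 < v → (kappa m / kappa (m - 1)) ^ m * v ^ (m - 1) <
        (∫ t in Icc (-1 : ℝ) 1, φ t ^ (m - 1)) ^ m)

/-- The contact bound in dimension `n` from the profile inequality, for any `F` above a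
nonnegative linear function of its second argument. -/
theorem contactBound_of_logVariance {n : ℕ} (hn : 3 ≤ n) {F : ℝ → ℝ → ℝ}
    (hF : ∀ v, ∃ k, 0 ≤ k ∧ ∀ x, k * x ≤ F v x)
    (hL : LogVarianceLemma (n - 1) F) : ContactBound n := by
  obtain ⟨m, rfl⟩ : ∃ m, n = m + 1 := ⟨n - 1, by omega⟩
  rw [Nat.add_sub_cancel] at hL
  intro N K c u h
  choose φ hφ hs using fun i => exists_profile (by omega) h i
  simp only [Nat.add_sub_cancel] at hφ hs
  have hh := h
  obtain ⟨⟨cvK, cK, hint⟩, -, hball, hc, hu, hcn, -, -⟩ := hh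
  set V := (volume K).toReal with hV
  have hV0 : 0 < V := ENNReal.toReal_pos
    (Measure.measure_pos_of_nonempty_interior volume hint).ne' cK.measure_lt_top.ne
  have hκ := kappa_pos m
  have hsect : ∀ (i : Fin N) (g : ℝ → ℝ), ∫ t, g t * sect K (u i) t =
      kappa m * ∫ t in Icc (-1 : ℝ) 1, g t * φ i t ^ m := fun i g => by
    rw [← integral_const_mul, ← integral_indicator measurableSet_Icc]
    refine integral_congr_ae (Filter.Eventually.of_forall fun t => ?_)
    simp only [hs i t, indicator, mem_Icc, ← abs_le]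
    split_ifs <;> ring
  have hvol : ∀ i, V = kappa m * ∫ t in Icc (-1 : ℝ) 1, φ i t ^ m := fun i => by
    have h1 := hsect i (fun _ => 1)
    rw [integral_sect_mul h.1 (hu i) continuous_const, setIntegral_const, smul_eq_mul, mul_one,
      measureReal_def, ← hV] at h1
    simpa using h1
  set v := V / kappa (m + 1) with hv
  set W : Fin N → ℝ := fun i => axialMoment K (u i) with hW
  have hWeq : ∀ i, W i = ((m : ℝ) + 3) * (∫ t in Icc (-1 : ℝ) 1, t ^ 2 * φ i t ^ m) /
      (∫ t in Icc (-1 : ℝ) 1, φ i t ^ m) := fun i => by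
    have hi : (∫ t in Icc (-1 : ℝ) 1, φ i t ^ m) ≠ 0 := fun e => by
      have := hvol i
      rw [e, mul_zero] at this
      linarith
    simp only [hW, axialMoment, hsect i, ← hV]
    rw [hvol i]
    push_cast
    field_simp
    ring
  -- some contact satisfies the hypothesis of the profile inequality
  obtain ⟨i, hi⟩ : ∃ i, ∀ z : ℝ → ℝ, ContDiff ℝ 1 z →
      ∫ t in Icc (-1 : ℝ) 1,
          (2 * deriv z t - ((m : ℝ) + 1) * z t ^ 2 - 2 * t * z t * deriv z t) * φ i t ^ m ≤
        (1 + F v (Real.log (W i) - 2 / ((m : ℝ) + 1) * Real.log v)) *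
          ∫ t in Icc (-1 : ℝ) 1, φ i t ^ m := by
    obtain ⟨k, hk, hkF⟩ := hF v
    by_contra hno
    push Not at hno
    choose z hz hzlt using hno
    have h1 := fisher_datum h hz
    have h2 := log_variance_datum h
    rw [← hV, ← hv] at h2
    obtain ⟨j, -, hj⟩ := Finset.exists_ne_zero_of_sum_ne_zero (s := Finset.univ) (f := c)
      (by rw [hcn]; positivity)
    have hj' : 0 < c j := lt_of_le_of_ne (hc j) (Ne.symm hj)
    have h3 : ∀ i, V * (1 + k * (Real.log (W i) - 2 / ((m : ℝ) + 1) * Real.log v)) <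
        ∫ t, (2 * deriv (z i) t - ((m + 1 : ℕ) : ℝ) * z i t ^ 2 -
          2 * t * z i t * deriv (z i) t) * sect K (u i) t := fun i => by
      rw [hsect i, hvol i, mul_assoc]
      refine mul_lt_mul_of_pos_left ?_ hκ
      have := hzlt i
      have hI : (0 : ℝ) ≤ ∫ t in Icc (-1 : ℝ) 1, φ i t ^ m :=
        nonneg_of_mul_nonneg_right (hvol i ▸ hV0.le) hκ
      have h9 := mul_le_mul_of_nonneg_right
        (hkF (Real.log (W i) - 2 / ((m : ℝ) + 1) * Real.log v)) hI
      push_cast
      linarith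
    have h4 : ∑ i, c i * (V * (1 + k * (Real.log (W i) - 2 / ((m : ℝ) + 1) * Real.log v))) <
        ((m + 1 : ℕ) : ℝ) * V :=
      lt_of_lt_of_le (Finset.sum_lt_sum (fun i _ => mul_le_mul_of_nonneg_left (h3 i).le (hc i))
        ⟨j, Finset.mem_univ j, mul_lt_mul_of_pos_left (h3 j) hj'⟩) h1
    have h5 : ∑ i, c i * (V * (1 + k * (Real.log (W i) - 2 / ((m : ℝ) + 1) * Real.log v))) =
        ((m + 1 : ℕ) : ℝ) * V +
          2 * k * V * ((∑ i, c i * (Real.log (W i) / 2)) - Real.log v) := by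
      have e : ∀ i, c i * (V * (1 + k * (Real.log (W i) - 2 / ((m : ℝ) + 1) * Real.log v))) =
          c i * (V * (1 - k * (2 / ((m : ℝ) + 1) * Real.log v))) +
            2 * k * V * (c i * (Real.log (W i) / 2)) := fun i => by ring
      simp only [e]
      rw [Finset.sum_add_distrib, ← Finset.sum_mul, ← Finset.mul_sum, hcn]
      push_cast
      field_simp
      ring
    have h6 : 0 ≤ 2 * k * V * ((∑ i, c i * (Real.log (W i) / 2)) - Real.log v) :=
      mul_nonneg (by positivity) (by linarith)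
    linarith
  have hvφ : v = kappa m * (∫ t in Icc (-1 : ℝ) 1, φ i t ^ m) / kappa (m + 1) := by
    rw [hv, hvol i]
  obtain ⟨hle, hlt⟩ := hL (φ i) (hφ i) v (W i) hvφ (hWeq i) hi
  set P := ∫ t in Icc (-1 : ℝ) 1, φ i t ^ (m - 1) with hP
  have hm0 : (m : ℝ) ≠ 0 := by norm_cast; omega
  have hsp : sectPow K (u i) = kappa m ^ (m - 1) * P ^ m := by
    rw [sectPow, Nat.add_sub_cancel]
    have e : (∫ t, sect K (u i) t ^ ((((m + 1 : ℕ) : ℝ) - 2) / (((m + 1 : ℕ) : ℝ) - 1))) =
        kappa m ^ (((m - 1 : ℕ) : ℝ) / (m : ℝ)) * P := by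
      rw [show (((m + 1 : ℕ) : ℝ) - 2) / (((m + 1 : ℕ) : ℝ) - 1) = ((m - 1 : ℕ) : ℝ) / (m : ℝ) by
        rw [Nat.cast_sub (by omega)]; push_cast; ring, hP, ← integral_const_mul,
        ← integral_indicator measurableSet_Icc]
      refine integral_congr_ae (Filter.Eventually.of_forall fun t => ?_)
      simp only [hs i t, indicator, mem_Icc, ← abs_le]
      split_ifs with ht
      · have h0 : 0 ≤ φ i t := (Real.sqrt_nonneg _).trans ((hφ i).above t (abs_le.1 ht))
        rw [Real.mul_rpow hκ.le (pow_nonneg h0 m), ← Real.rpow_natCast (φ i t) m,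
          ← Real.rpow_mul h0, mul_div_cancel₀ _ hm0, Real.rpow_natCast]
      · refine Real.zero_rpow (div_ne_zero ?_ hm0)
        norm_cast; omega
    rw [e, mul_pow, ← Real.rpow_natCast (kappa m ^ (((m - 1 : ℕ) : ℝ) / (m : ℝ))) m,
      ← Real.rpow_mul hκ.le, div_mul_cancel₀ _ hm0, Real.rpow_natCast]
  -- clearing the constants
  have h2n : 2 * (m + 1) - 3 = (m - 1) + m := by omega
  have hκ1 := kappa_pos (m - 1)
  have hκ2 := kappa_pos (m + 1)
  have conv : ∀ a : ℝ, kappa (m - 1) ^ m * kappa (m + 1) ^ (m - 1) * (kappa m ^ (m - 1) * a) =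
      kappa m ^ (m - 1) * kappa (m - 1) ^ m * kappa (m + 1) ^ (m - 1) * a := fun a => by ring
  have lhs : kappa m ^ (m - 1 + m) * V ^ (m - 1) =
      kappa m ^ (m - 1) * kappa (m - 1) ^ m * kappa (m + 1) ^ (m - 1) *
        ((kappa m / kappa (m - 1)) ^ m * v ^ (m - 1)) := by
    rw [hv, div_pow, div_pow, pow_add]
    field_simp
  have hpos : 0 < kappa m ^ (m - 1) * kappa (m - 1) ^ m * kappa (m + 1) ^ (m - 1) := by positivity
  rw [show m + 1 - 1 = m by omega, show m + 1 - 2 = m - 1 by omega, h2n]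
  refine ⟨⟨i, ?_⟩, fun hne => ⟨i, ?_⟩⟩
  · rw [hsp, conv, lhs]
    exact mul_le_mul_of_nonneg_left hle hpos.le
  · rw [hsp, conv, lhs]
    refine mul_lt_mul_of_pos_left (hlt ?_) hpos
    set B := Metric.closedBall (0 : Euc (m + 1)) 1 with hB
    have cB : IsCompact B := isCompact_closedBall _ _
    obtain ⟨x, hxK, hxB⟩ := not_subset.1 fun hsub => hne (hsub.antisymm hball)
    obtain ⟨y, hyK, hyB⟩ : ∃ y ∈ interior K, y ∉ B := by
      by_contra hall
      push Not at hall
      have h7 : closure (interior K) ⊆ B := closure_minimal hall cB.isClosed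
      rw [cvK.closure_interior_eq_closure_of_nonempty_interior hint, cK.isClosed.closure_eq]
        at h7
      exact hxB (h7 hxK)
    have hd : 0 < volume (K \ B) :=
      lt_of_lt_of_le ((isOpen_interior.sdiff cB.isClosed).measure_pos volume ⟨y, hyK, hyB⟩)
        (measure_mono (sdiff_subset_sdiff_left interior_subset))
    rw [measure_sdiff hball cB.measurableSet.nullMeasurableSet cB.measure_lt_top.ne,
      tsub_pos_iff_lt] at hd
    have h8 := (ENNReal.toReal_lt_toReal cB.measure_lt_top.ne cK.measure_lt_top.ne).2 hd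
    have : Nontrivial (Euc (m + 1)) :=
      Module.finrank_pos_iff (R := ℝ) |>.1 (by rw [finrank_euclideanSpace_fin]; omega)
    rw [hB, volume_closedBall_kappa zero_le_one, finrank_euclideanSpace_fin, one_pow, one_mul,
      ← hV] at h8
    rwa [hv, one_lt_div hκ2]

end Vale.Agent.P237.Full
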