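import Vale.Agent.P237.Full.Marginal

/-!
Two compact convex sets of equal volume with a midpoint set of the same volume: their marginals
in the first coordinate are translates of each other.
-/

namespace Vale.Agent.P237.Full.BM

open MeasureTheory Set
open scoped ENNReal Pointwise

variable {m : ℕ} {K L M : Set (Fin (m + 1) → ℝ)}

/-- Volume of the part with first coordinate at most `x`. -/
noncomputable def cum (K : Set (Fin (m + 1) → ℝ)) (x : ℝ) : ℝ :=
  (volume (K ∩ (fun p => p 0) ⁻¹' Iic x)).toReal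

/-- Two sets of equal volume whose midpoints lie in a set of that volume. -/
structure Tight (K L M : Set (Fin (m + 1) → ℝ)) : Prop where
  compactK : IsCompact K
  convexK : Convex ℝ K
  compactL : IsCompact L
  convexL : Convex ℝ L
  compactM : IsCompact M
  mid : ∀ x ∈ K, ∀ y ∈ L, (1 / 2 : ℝ) • (x + y) ∈ M
  pos : 0 < volume K
  eqL : volume L = volume K
  eqM : volume M = volume K

theorem Tight.swap (h : Tight K L M) : Tight L K M :=
  ⟨h.compactL, h.convexL, h.compactK, h.convexK, h.compactM,
    fun x hx y hy => by simpa only [smul_add, add_comm] using h.mid y hy x hx, h.eqL ▸ h.pos, h.eqL.symm,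
    h.eqM.trans h.eqL.symm⟩

theorem inter_ne_top (hK : IsCompact K) (S : Set (Fin (m + 1) → ℝ)) : volume (K ∩ S) ≠ ⊤ :=
  ne_top_of_le_ne_top hK.measure_ne_top (measure_mono inter_subset_left)

theorem cum_nonneg (x : ℝ) : 0 ≤ cum K x := ENNReal.toReal_nonneg

theorem cum_le (hK : IsCompact K) (x : ℝ) : cum K x ≤ (volume K).toReal :=
  ENNReal.toReal_mono hK.measure_ne_top (measure_mono inter_subset_left)

/-- A slab has the increment of `cum` as volume. -/
theorem toReal_slab (hK : IsCompact K) {c d : ℝ} (hcd : c ≤ d) :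
    (volume (K ∩ (fun p => p 0) ⁻¹' Icc c d)).toReal = cum K d - cum K c := by
  have hnull : volume (K ∩ (fun p => p 0) ⁻¹' {c}) = 0 := by
    rw [volume_inter_preimage hK (measurableSet_singleton c)]; simp
  have h1 : volume (K ∩ (fun p => p 0) ⁻¹' Iic d) =
      volume (K ∩ (fun p => p 0) ⁻¹' Iic c) + volume (K ∩ (fun p => p 0) ⁻¹' Icc c d) := by
    rw [volume_inter_preimage hK measurableSet_Iic, volume_inter_preimage hK measurableSet_Iic,
      volume_inter_preimage hK measurableSet_Icc, ← Iic_union_Ioc_eq_Iic hcd,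
      lintegral_union measurableSet_Ioc (Iic_disjoint_Ioc le_rfl)]
    congr 1
    exact setLIntegral_congr Ioc_ae_eq_Icc
  have h2 := congrArg ENNReal.toReal h1
  rw [ENNReal.toReal_add (inter_ne_top hK _) (inter_ne_top hK _)] at h2
  unfold cum
  linarith

theorem slab_le_mul (hK : IsCompact K) {c d A : ℝ} (hcd : c ≤ d)
    (hA : ∀ x ∈ Icc c d, marg K x ≤ A) : cum K d - cum K c ≤ A * (d - c) := by
  have hA0 : 0 ≤ A := (marg_nonneg c).trans (hA c ⟨le_rfl, hcd⟩)
  have h : volume (K ∩ (fun p => p 0) ⁻¹' Icc c d) ≤ ENNReal.ofReal (A * (d - c)) := by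
    rw [volume_inter_preimage hK measurableSet_Icc, ENNReal.ofReal_mul hA0, ← Real.volume_Icc,
      ← setLIntegral_const]
    exact setLIntegral_mono measurable_const fun x hx => ENNReal.ofReal_le_ofReal (hA x hx)
  rw [← toReal_slab hK hcd]
  exact ENNReal.toReal_le_of_le_ofReal (mul_nonneg hA0 (by linarith)) h

theorem mul_le_slab (hK : IsCompact K) {c d a : ℝ} (hcd : c ≤ d) (ha : 0 ≤ a)
    (hA : ∀ x ∈ Icc c d, a ≤ marg K x) : a * (d - c) ≤ cum K d - cum K c := by
  have h : ENNReal.ofReal (a * (d - c)) ≤ volume (K ∩ (fun p => p 0) ⁻¹' Icc c d) := by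
    rw [volume_inter_preimage hK measurableSet_Icc, ENNReal.ofReal_mul ha, ← Real.volume_Icc,
      ← setLIntegral_const]
    exact setLIntegral_mono (measurable_marg hK).ennreal_ofReal fun x hx =>
      ENNReal.ofReal_le_ofReal (hA x hx)
  rw [← toReal_slab hK hcd]
  exact (ENNReal.ofReal_le_iff_le_toReal (inter_ne_top hK _)).mp h

theorem continuous_cum (hK : IsCompact K) : Continuous (cum K) := by
  obtain ⟨C, hC0, hC⟩ := exists_marg_bound hK
  refine (LipschitzWith.of_le_add_mul C.toNNReal fun x y => ?_).continuous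
  rw [Real.coe_toNNReal _ hC0.le, Real.dist_eq]
  rcases le_total y x with h | h
  · have := slab_le_mul hK h fun z _ => hC z
    rw [abs_of_nonneg (by linarith)]
    linarith
  · have := toReal_slab hK h
    have h2 : 0 ≤ cum K y - cum K x := this ▸ ENNReal.toReal_nonneg
    have := mul_nonneg hC0.le (abs_nonneg (x - y))
    linarith

theorem Span.cum_left (hK : IsCompact K) {x₀ x₁ : ℝ} (h : Span K x₀ x₁) {x : ℝ} (hx : x ≤ x₀) :
    cum K x = 0 := by
  have h0 : volume (K ∩ (fun p => p 0) ⁻¹' Iic x) ≤ volume (K ∩ (fun p => p 0) ⁻¹' {x₀}) :=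
    measure_mono fun p hp => ⟨hp.1, le_antisymm (le_trans hp.2 hx) (h.mem p hp.1).1⟩
  rw [volume_inter_preimage hK (measurableSet_singleton x₀)] at h0
  simp only [Measure.restrict_singleton, Real.volume_singleton, zero_smul,
    lintegral_zero_measure, nonpos_iff_eq_zero] at h0
  rw [cum, h0, ENNReal.toReal_zero]

theorem Span.cum_right {x₀ x₁ : ℝ} (h : Span K x₀ x₁) {x : ℝ} (hx : x₁ ≤ x) :
    cum K x = (volume K).toReal := by
  rw [cum, inter_eq_left.mpr]
  exact fun p hp => le_trans (h.mem p hp).2 hx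

theorem Span.cum_lt (hKc : Convex ℝ K) (hK : IsCompact K) {x₀ x₁ : ℝ} (h : Span K x₀ x₁)
    (hV : 0 < volume K) {c d : ℝ} (hc : x₀ ≤ c) (hd : d ≤ x₁) (hcd : c < d) :
    cum K c < cum K d := by
  set c' := (2 * c + d) / 3 with hc'
  set d' := (c + 2 * d) / 3 with hd'
  have hsub : Icc c' d' ⊆ Ioo x₀ x₁ := fun x hx =>
    ⟨by linarith [hx.1], by linarith [hx.2]⟩
  obtain ⟨z, hz, hzmin⟩ := isCompact_Icc.exists_isMinOn (nonempty_Icc.mpr (by linarith : c' ≤ d'))
    ((h.continuousOn_marg hKc hK).mono hsub)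
  have hz0 := h.marg_pos hKc hK hV (hsub hz)
  have h1 := mul_le_slab hK (by linarith : c' ≤ d') hz0.le fun x hx => hzmin hx
  have h2 : 0 < marg K z * (d' - c') := mul_pos hz0 (by linarith)
  have h3 := toReal_slab hK (by linarith : c ≤ c')
  have h4 := toReal_slab hK (by linarith : d' ≤ d)
  linarith [ENNReal.toReal_nonneg (a := volume (K ∩ (fun p => p 0) ⁻¹' Icc c c')),
    ENNReal.toReal_nonneg (a := volume (K ∩ (fun p => p 0) ⁻¹' Icc d' d))]

/-- Every proper value of `cum` is attained inside the range of the coordinate. -/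
theorem Span.exists_quantile (hK : IsCompact K) {x₀ x₁ : ℝ} (h : Span K x₀ x₁) {τ : ℝ}
    (h0 : 0 < τ) (h1 : τ < (volume K).toReal) : ∃ c ∈ Ioo x₀ x₁, cum K c = τ := by
  obtain ⟨p, hp, -⟩ := h.left
  have hx : x₀ ≤ x₁ := (h.mem p hp).1.trans (h.mem p hp).2
  have := intermediate_value_Ioo hx (continuous_cum hK).continuousOn
  rw [h.cum_left hK le_rfl, h.cum_right le_rfl] at this
  exact this ⟨h0, h1⟩

/-- A slab of the midpoint set between slabs of equal volume has that volume. -/
theorem Tight.mid_slab (h : Tight K L M) {c d c' d' : ℝ} (hcd : c ≤ d) (hcd' : c' ≤ d')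
    (hc : cum L c' = cum K c) (hd : cum L d' = cum K d) :
    cum M ((d + d') / 2) - cum M ((c + c') / 2) = cum K d - cum K c := by
  have sub : ∀ S S' T : Set ℝ, MeasurableSet S → MeasurableSet S' → MeasurableSet T →
      (∀ a ∈ S, ∀ b ∈ S', (a + b) / 2 ∈ T) →
      (volume (K ∩ (fun p => p 0) ⁻¹' S)).toReal * (volume (L ∩ (fun p => p 0) ⁻¹' S')).toReal ≤
        (volume (M ∩ (fun p => p 0) ⁻¹' T)).toReal ^ 2 := by
    intro S S' T hS hS' hT hmid
    have key := volume_mul_le_sq (h.compactK.isClosed.measurableSet.inter (measurable_pi_apply 0 hS))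
      (h.compactL.isClosed.measurableSet.inter (measurable_pi_apply 0 hS'))
      (h.compactM.isClosed.measurableSet.inter (measurable_pi_apply 0 hT))
      fun x hx y hy => ⟨h.mid x hx.1 y hy.1, by
        have := hmid _ hx.2 _ hy.2
        simpa [mul_add, add_div, div_eq_inv_mul] using this⟩
    have h2 := ENNReal.toReal_mono (ENNReal.pow_ne_top (inter_ne_top h.compactM _)) key
    rwa [ENNReal.toReal_mul, ENNReal.toReal_pow] at h2
  have compl : ∀ {N : Set (Fin (m + 1) → ℝ)}, IsCompact N → ∀ x : ℝ,
      (volume (N ∩ (fun p => p 0) ⁻¹' Ici x)).toReal = (volume N).toReal - cum N x := by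
    intro N hN x
    have hsplit := measure_inter_add_sdiff (μ := volume) N
      (show MeasurableSet ((fun p : Fin (m + 1) → ℝ => p 0) ⁻¹' Iio x) from
        measurable_pi_apply 0 measurableSet_Iio)
    have e1 : N \ (fun p : Fin (m + 1) → ℝ => p 0) ⁻¹' Iio x =
        N ∩ (fun p => p 0) ⁻¹' Ici x := by ext p; simp [not_lt]
    have e2 : volume (N ∩ (fun p => p 0) ⁻¹' Iio x) = volume (N ∩ (fun p => p 0) ⁻¹' Iic x) := by
      rw [volume_inter_preimage hN measurableSet_Iio, volume_inter_preimage hN measurableSet_Iic]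
      exact setLIntegral_congr Iio_ae_eq_Iic
    rw [e1, e2] at hsplit
    rw [← hsplit, ENNReal.toReal_add (inter_ne_top hN _) (inter_ne_top hN _), cum]
    ring
  have l1 := sub (Iic c) (Iic c') (Iic ((c + c') / 2)) measurableSet_Iic measurableSet_Iic
    measurableSet_Iic fun a ha b hb => by simp only [mem_Iic] at *; linarith
  have l2 := sub (Icc c d) (Icc c' d') (Icc ((c + c') / 2) ((d + d') / 2)) measurableSet_Icc
    measurableSet_Icc measurableSet_Icc fun a ha b hb => by
      simp only [mem_Icc] at *; constructor <;> linarith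
  have l3 := sub (Ici d) (Ici d') (Ici ((d + d') / 2)) measurableSet_Ici measurableSet_Ici
    measurableSet_Ici fun a ha b hb => by simp only [mem_Ici] at *; linarith
  rw [← cum, ← cum, ← cum, hc, ← pow_two] at l1
  rw [toReal_slab h.compactK hcd, toReal_slab h.compactL hcd',
    toReal_slab h.compactM (by linarith), hc, hd, ← pow_two] at l2
  rw [compl h.compactK, compl h.compactL, compl h.compactM, hd, h.eqL, h.eqM, ← pow_two] at l3
  have n2 : 0 ≤ cum M ((d + d') / 2) - cum M ((c + c') / 2) :=
    toReal_slab h.compactM (by linarith : (c + c') / 2 ≤ (d + d') / 2) ▸ ENNReal.toReal_nonneg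
  have m1 := le_of_sq_le_sq l1 (cum_nonneg _)
  have m2 := le_of_sq_le_sq l2 n2
  have hMle := cum_le h.compactM ((d + d') / 2)
  rw [h.eqM] at hMle
  have m3 := le_of_sq_le_sq l3 (by linarith)
  linarith

/-- Slabs of equal volume have the same maximal section. -/
theorem Tight.max_eq (h : Tight K L M) {c d c' d' A B : ℝ} (hcd : c ≤ d) (hcd' : c' ≤ d')
    (hc : cum L c' = cum K c) (hd : cum L d' = cum K d) (hlt : cum K c < cum K d)
    (hA : ∀ x ∈ Icc c d, marg K x ≤ A) (hA' : ∃ x ∈ Icc c d, marg K x = A)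
    (hB : ∀ x ∈ Icc c' d', marg L x ≤ B) (hB' : ∃ x ∈ Icc c' d', marg L x = B) : A = B := by
  have hA0 : 0 < A := by
    by_contra hle
    nlinarith [slab_le_mul h.compactK hcd hA]
  have hB0 : 0 < B := by
    by_contra hle
    nlinarith [slab_le_mul h.compactL hcd' hB]
  set τ := cum K d - cum K c with hτ
  set e := √(A * B) with he
  have he0 : 0 < e := by positivity
  set f : ℝ → ℝ := (Icc c d).indicator fun x => marg K x / A with hf
  set g : ℝ → ℝ := (Icc c' d').indicator fun x => marg L x / B with hg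
  set k : ℝ → ℝ := (Icc ((c + c') / 2) ((d + d') / 2)).indicator fun x => marg M x / e with hk
  have hint : ∀ {N : Set (Fin (m + 1) → ℝ)}, IsCompact N → ∀ {a b r : ℝ}, a ≤ b → 0 < r →
      ∫⁻ x, ENNReal.ofReal ((Icc a b).indicator (fun x => marg N x / r) x) =
        ENNReal.ofReal ((cum N b - cum N a) / r) := by
    intro N hN a b r hab hr
    rw [← toReal_slab hN hab, ENNReal.ofReal_div_of_pos hr,
      ENNReal.ofReal_toReal (inter_ne_top hN _), volume_inter_preimage hN measurableSet_Icc,
      div_eq_mul_inv, ← lintegral_mul_const' _ _ (by simp [hr]), ← lintegral_indicator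
      measurableSet_Icc]
    refine lintegral_congr fun x => ?_
    by_cases hx : x ∈ Icc a b
    · rw [indicator_of_mem hx, indicator_of_mem hx, ENNReal.ofReal_div_of_pos hr, div_eq_mul_inv]
    · rw [indicator_of_notMem hx, indicator_of_notMem hx, ENNReal.ofReal_zero]
  have key := Vale.Agent.P074.pl_one_normalised (f := f) (g := g) (h := k)
    (((measurable_marg h.compactK).div_const _).indicator measurableSet_Icc)
    (((measurable_marg h.compactL).div_const _).indicator measurableSet_Icc)
    (((measurable_marg h.compactM).div_const _).indicator measurableSet_Icc)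
    (indicator_nonneg fun x _ => div_nonneg (marg_nonneg x) hA0.le)
    (indicator_nonneg fun x _ => div_nonneg (marg_nonneg x) hB0.le)
    (indicator_nonneg fun x _ => div_nonneg (marg_nonneg x) he0.le)
    (fun x => indicator_le' (fun x hx => (div_le_one hA0).mpr (hA x hx)) (fun _ _ => zero_le_one) x)
    (fun x => indicator_le' (fun x hx => (div_le_one hB0).mpr (hB x hx)) (fun _ _ => zero_le_one) x)
    (fun t ht => by
      obtain ⟨x, hx, e1⟩ := hA'
      exact ⟨x, by rw [hf, indicator_of_mem hx, e1, div_self hA0.ne']; exact ht⟩)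
    (fun t ht => by
      obtain ⟨x, hx, e1⟩ := hB'
      exact ⟨x, by rw [hg, indicator_of_mem hx, e1, div_self hB0.ne']; exact ht⟩)
    fun x y => by
      by_cases hx : x ∈ Icc c d
      · by_cases hy : y ∈ Icc c' d'
        · have hz : (x + y) / 2 ∈ Icc ((c + c') / 2) ((d + d') / 2) :=
            ⟨by linarith [hx.1, hy.1], by linarith [hx.2, hy.2]⟩
          simp only [hf, hg, hk, indicator_of_mem hx, indicator_of_mem hy, indicator_of_mem hz]
          rw [div_pow, he, Real.sq_sqrt (by positivity), div_mul_div_comm]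
          gcongr
          exact marg_mid h.compactK h.compactL h.compactM h.mid x y
        · simp [hg, indicator_of_notMem hy, sq_nonneg]
      · simp [hf, indicator_of_notMem hx, sq_nonneg]
  simp only [hf, hg, hk] at key
  rw [hint h.compactK hcd hA0, hint h.compactL hcd' hB0, hint h.compactM (by linarith) he0,
    h.mid_slab hcd hcd' hc hd, hc, hd, ← ENNReal.ofReal_add (by positivity) (by positivity),
    show (2 : ℝ≥0∞) = ENNReal.ofReal 2 by simp, ← ENNReal.ofReal_mul zero_le_two,
    ENNReal.ofReal_le_ofReal_iff (by positivity)] at key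
  have h4 : (A + B) * e ≤ 2 * (A * B) := by
    rw [div_add_div _ _ hA0.ne' hB0.ne', mul_div_assoc', div_le_div_iff₀ (by positivity) he0]
      at key
    refine le_of_mul_le_mul_left ?_ (sub_pos.mpr hlt)
    calc (cum K d - cum K c) * ((A + B) * e) = (τ * B + A * τ) * e := by rw [hτ]; ring
      _ ≤ 2 * τ * (A * B) := key
      _ = _ := by rw [hτ]; ring
  have h5 : e * e = A * B := Real.mul_self_sqrt (by positivity)
  have h6 : A + B ≤ 2 * e := le_of_mul_le_mul_right (h4.trans (le_of_eq (by rw [← h5]; ring))) he0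
  have h7 := mul_le_mul h6 h6 (by positivity) (by positivity)
  have h8 : (A - B) ^ 2 ≤ 0 := by nlinarith
  exact sub_eq_zero.mp (sq_eq_zero_iff.mp (le_antisymm h8 (sq_nonneg _)))

end Vale.Agent.P237.Full.BM
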